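import Vale.Agent.P159.H663.ChI

/-!
P159 / module PROP (helper663): exact propagation identities through the channel.

`μ'` prior, `μ = post μ' P` posterior, source `J₁` of the prior, `J = J₁ + Pᵀ g` source of the
posterior, `Q = Pᵀ P`.

* `sc μ a b J = <mn μ J, a> - <b, J>` (error of the linear estimator `b`);
* `tot_lin`: total covariance with a linear estimator;
* `prop_eq` (P1): `<u', C'_{J₁} u> = <a', (G - G Q G) a> + E <a', (C_J - G) a> + Cov (R'[a'], R'[a])`,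
  `u = a - Q G a`, `R'(J)[a] = <mn J, a> - <J, G a>`, for every symmetric `G`;
* `drop_le` (P2), `Rs_prop`.
-/

namespace Vale.Agent.P159.H663

open Finset Matrix MeasureTheory ProbabilityTheory
open Vale.Agent.P159.TM.H104 (EM Ex Cv K3 Lg li nh Gr)
open Vale.Agent.P159.H37

noncomputable section

variable {V : Type*} [Fintype V] {I : Type*} [Fintype I]

/-! ### linear functionals of the source -/

lemma EGr.dot (b : V → ℝ) : EGr fun J : V → ℝ => b ⬝ᵥ J := by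
  refine EGr.mk' (by unfold dotProduct; fun_prop) (A := ∑ i, |b i|) (B := 1) fun J => ?_
  unfold dotProduct
  refine (abs_lin_le_sum b J).trans (mul_le_mul_of_nonneg_left ?_
    (Finset.sum_nonneg fun _ _ => abs_nonneg _))
  rw [one_mul]
  linarith [Real.add_one_le_exp (∑ i, |J i|)]

lemma dot_obs (b J₁ : V → ℝ) (P : Matrix I V ℝ) (h : V → ℤ) (g : I → ℝ) :
    b ⬝ᵥ (J₁ + Pᵀ *ᵥ (P *ᵥ re h + g)) =
      b ⬝ᵥ J₁ + li (Pᵀ *ᵥ (P *ᵥ b)) h + ∑ i, (P *ᵥ b) i * g i := by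
  have e1 : b ⬝ᵥ (Pᵀ *ᵥ (P *ᵥ re h)) = (Pᵀ *ᵥ (P *ᵥ b)) ⬝ᵥ re h := by
    rw [dotProduct_mulVec, vecMul_transpose, dotProduct_mulVec, ← mulVec_transpose]
  have e2 : b ⬝ᵥ (Pᵀ *ᵥ g) = ∑ i, (P *ᵥ b) i * g i := by
    rw [dotProduct_mulVec, vecMul_transpose]
    rfl
  rw [dotProduct_add, mulVec_add, dotProduct_add, e1, e2, li_re]
  ring

lemma int_dot_obs (b J₁ : V → ℝ) (P : Matrix I V ℝ) (h : V → ℤ) :
    ∫ g, b ⬝ᵥ (J₁ + Pᵀ *ᵥ (P *ᵥ re h + g)) ∂(gau I) = b ⬝ᵥ J₁ + li (Pᵀ *ᵥ (P *ᵥ b)) h := by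
  simp only [dot_obs]
  rw [integral_add (integrable_const _) (int_lin _), gau_lin]
  simp

lemma int_dot_mul_obs (b b' J₁ : V → ℝ) (P : Matrix I V ℝ) (h : V → ℤ) :
    ∫ g, (b ⬝ᵥ (J₁ + Pᵀ *ᵥ (P *ᵥ re h + g))) * (b' ⬝ᵥ (J₁ + Pᵀ *ᵥ (P *ᵥ re h + g))) ∂(gau I) =
      (b ⬝ᵥ J₁ + li (Pᵀ *ᵥ (P *ᵥ b)) h) * (b' ⬝ᵥ J₁ + li (Pᵀ *ᵥ (P *ᵥ b')) h) +
        bf (Pᵀ * P) b b' := by
  have e : ∀ g : I → ℝ, (b ⬝ᵥ (J₁ + Pᵀ *ᵥ (P *ᵥ re h + g))) *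
      (b' ⬝ᵥ (J₁ + Pᵀ *ᵥ (P *ᵥ re h + g))) =
      (b ⬝ᵥ J₁ + li (Pᵀ *ᵥ (P *ᵥ b)) h) * (b' ⬝ᵥ J₁ + li (Pᵀ *ᵥ (P *ᵥ b')) h) +
      ((b ⬝ᵥ J₁ + li (Pᵀ *ᵥ (P *ᵥ b)) h) * (∑ i, (P *ᵥ b') i * g i) +
      ((b' ⬝ᵥ J₁ + li (Pᵀ *ᵥ (P *ᵥ b')) h) * (∑ i, (P *ᵥ b) i * g i) +
      (∑ i, (P *ᵥ b) i * g i) * (∑ i, (P *ᵥ b') i * g i))) := by
    intro g
    rw [dot_obs, dot_obs]
    ring
  simp only [e]
  have i1 : Integrable (fun g : I → ℝ => (b ⬝ᵥ J₁ + li (Pᵀ *ᵥ (P *ᵥ b)) h) *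
      ∑ i, (P *ᵥ b') i * g i) (gau I) := (int_lin _).const_mul _
  have i2 : Integrable (fun g : I → ℝ => (b' ⬝ᵥ J₁ + li (Pᵀ *ᵥ (P *ᵥ b')) h) *
      ∑ i, (P *ᵥ b) i * g i) (gau I) := (int_lin _).const_mul _
  have i3 := int_lin_mul (I := I) (P *ᵥ b) (P *ᵥ b')
  have i4 := i2.add i3
  have i5 := i1.add i4
  simp only [Pi.add_def] at i4 i5
  rw [integral_add (integrable_const _) i5, integral_add i1 i4, integral_add i2 i3,
    integral_const, probReal_univ, one_smul, integral_const_mul, integral_const_mul, gau_lin,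
    gau_lin, gau_lin_mul]
  have e3 : bf (Pᵀ * P) b b' = ∑ i, (P *ᵥ b) i * (P *ᵥ b') i := by
    rw [bf_eq, ← mulVec_mulVec, dotProduct_mulVec, vecMul_transpose]
    rfl
  rw [e3]
  simp

/-! ### the linear estimator -/

/-- error of the linear estimator: posterior mean of `<a, h>` minus `<b, J>` -/
def sc (μ : (V → ℤ) → ℝ) (a b J : V → ℝ) : ℝ := Ex μ J (li a) - b ⬝ᵥ J

lemma ChI.of_sc {μ' : (V → ℤ) → ℝ} (hμ : EM μ') (J₁ : V → ℝ) (P : Matrix I V ℝ) (a b : V → ℝ) :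
    ChI μ' J₁ P (sc (post μ' P) a b) :=
  (ChI.of_Ex hμ J₁ P (Gr.li a)).sub (ChI.of_EGr hμ J₁ P (EGr.dot b))

lemma ChI.of_sc_mul {μ' : (V → ℤ) → ℝ} (hμ : EM μ') (J₁ : V → ℝ) (P : Matrix I V ℝ)
    (a b a' b' : V → ℝ) :
    ChI μ' J₁ P fun J => sc (post μ' P) a b J * sc (post μ' P) a' b' J := by
  have h1 := ChI.of_Ex_mul hμ J₁ P (Gr.li a) (Gr.li a')
  have h2 := ChI.mul_Ex hμ J₁ P (EGr.dot b') (Gr.li a)
  have h3 := ChI.mul_Ex hμ J₁ P (EGr.dot b) (Gr.li a')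
  have h4 := ChI.of_EGr hμ J₁ P ((EGr.dot b).mul (EGr.dot b'))
  have h5 := ((h1.sub h2).sub h3).add h4
  refine h5.congr (Filter.Eventually.of_forall fun g => ?_)
  simp only [H663.sc]
  ring

/-- mean of the error -/
lemma Ech_sc {μ' : (V → ℤ) → ℝ} (hμ : EM μ') (J₁ : V → ℝ) (P : Matrix I V ℝ) (a b : V → ℝ) :
    Ech μ' J₁ P (sc (post μ' P) a b) = Ex μ' J₁ (li (a - Pᵀ *ᵥ (P *ᵥ b))) - b ⬝ᵥ J₁ := by
  have h1 : Ech μ' J₁ P (sc (post μ' P) a b) =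
      Ech μ' J₁ P (fun J => Ex (post μ' P) J (li a)) - Ech μ' J₁ P (fun J => b ⬝ᵥ J) :=
    Ech_sub' (ChI.of_Ex hμ J₁ P (Gr.li a)) (ChI.of_EGr hμ J₁ P (EGr.dot b))
  rw [h1, Ech_Ex hμ J₁ P (Gr.li a), Ech_eq hμ J₁ P (EGr.dot b)]
  simp only [int_dot_obs]
  rw [TM.H104.Ex_add hμ (Gr.const _) (Gr.li _), TM.H104.Ex_const hμ]
  have h2 : Ex μ' J₁ (li (a - Pᵀ *ᵥ (P *ᵥ b))) =
      Ex μ' J₁ (li a) - Ex μ' J₁ (li (Pᵀ *ᵥ (P *ᵥ b))) := by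
    rw [← TM.H104.Ex_sub hμ (Gr.li _) (Gr.li _)]
    congr 1
    funext h
    exact TM.H104.li_sub _ _ h
  rw [h2]
  ring

/-- **total covariance with a linear estimator** (every pair of test vectors `a, a'`, every pair of
linear estimators `b, b'`) -/
theorem tot_lin {μ' : (V → ℤ) → ℝ} (hμ : EM μ') (J₁ : V → ℝ) (P : Matrix I V ℝ)
    (a b a' b' : V → ℝ) :
    Ech μ' J₁ P (fun J => Cv (post μ' P) J (li a) (li a')) +
      (Ech μ' J₁ P (fun J => sc (post μ' P) a b J * sc (post μ' P) a' b' J) -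
        Ech μ' J₁ P (sc (post μ' P) a b) * Ech μ' J₁ P (sc (post μ' P) a' b')) =
      Cv μ' J₁ (li (a - Pᵀ *ᵥ (P *ᵥ b))) (li (a' - Pᵀ *ᵥ (P *ᵥ b'))) + bf (Pᵀ * P) b b' := by
  have h1 := ChI.of_Ex_mul hμ J₁ P (Gr.li a) (Gr.li a')
  have h2 := ChI.mul_Ex hμ J₁ P (EGr.dot b') (Gr.li a)
  have h3 := ChI.mul_Ex hμ J₁ P (EGr.dot b) (Gr.li a')
  have h4 := ChI.of_EGr hμ J₁ P ((EGr.dot b).mul (EGr.dot b'))
  have e0 : (fun J => sc (post μ' P) a b J * sc (post μ' P) a' b' J) = fun J =>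
      Ex (post μ' P) J (li a) * Ex (post μ' P) J (li a') - b' ⬝ᵥ J * Ex (post μ' P) J (li a) -
      b ⬝ᵥ J * Ex (post μ' P) J (li a') + b ⬝ᵥ J * b' ⬝ᵥ J := by
    funext J
    unfold sc
    ring
  have e1 : Ech μ' J₁ P (fun J => Ex (post μ' P) J (li a) * Ex (post μ' P) J (li a')) =
      Ex μ' J₁ (fun h => li a h * li a' h) -
        Ech μ' J₁ P (fun J => Cv (post μ' P) J (li a) (li a')) := by
    have h5 : Ech μ' J₁ P (fun J => Cv (post μ' P) J (li a) (li a')) =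
        Ech μ' J₁ P (fun J => Ex (post μ' P) J (fun h => li a h * li a' h)) -
        Ech μ' J₁ P (fun J => Ex (post μ' P) J (li a) * Ex (post μ' P) J (li a')) :=
      Ech_sub' (ChI.of_Ex hμ J₁ P ((Gr.li a).mul (Gr.li a'))) h1
    rw [h5, Ech_Ex hμ J₁ P ((Gr.li a).mul (Gr.li a'))]
    ring
  have e2 : ∀ a b : V → ℝ, Ech μ' J₁ P (fun J => b ⬝ᵥ J * Ex (post μ' P) J (li a)) =
      b ⬝ᵥ J₁ * Ex μ' J₁ (li a) + Ex μ' J₁ (fun h => li a h * li (Pᵀ *ᵥ (P *ᵥ b)) h) := by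
    intro a b
    rw [Ech_mul_Ex hμ J₁ P (EGr.dot b) (Gr.li a)]
    simp only [int_dot_obs]
    have : (fun h => li a h * (b ⬝ᵥ J₁ + li (Pᵀ *ᵥ (P *ᵥ b)) h)) = fun h =>
        b ⬝ᵥ J₁ * li a h + li a h * li (Pᵀ *ᵥ (P *ᵥ b)) h := by
      funext h
      ring
    rw [this, TM.H104.Ex_add hμ ((Gr.li a).cmul _) ((Gr.li a).mul (Gr.li _)), TM.H104.Ex_cmul]
  have e3 : Ech μ' J₁ P (fun J => b ⬝ᵥ J * b' ⬝ᵥ J) =
      b ⬝ᵥ J₁ * b' ⬝ᵥ J₁ + b ⬝ᵥ J₁ * Ex μ' J₁ (li (Pᵀ *ᵥ (P *ᵥ b'))) +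
      b' ⬝ᵥ J₁ * Ex μ' J₁ (li (Pᵀ *ᵥ (P *ᵥ b))) +
      Ex μ' J₁ (fun h => li (Pᵀ *ᵥ (P *ᵥ b)) h * li (Pᵀ *ᵥ (P *ᵥ b')) h) +
      bf (Pᵀ * P) b b' := by
    rw [Ech_eq hμ J₁ P ((EGr.dot b).mul (EGr.dot b'))]
    simp only [int_dot_mul_obs]
    have : (fun h => (b ⬝ᵥ J₁ + li (Pᵀ *ᵥ (P *ᵥ b)) h) * (b' ⬝ᵥ J₁ + li (Pᵀ *ᵥ (P *ᵥ b')) h) +
        bf (Pᵀ * P) b b') = fun h => (b ⬝ᵥ J₁ * b' ⬝ᵥ J₁ + bf (Pᵀ * P) b b') +
        (b ⬝ᵥ J₁ * li (Pᵀ *ᵥ (P *ᵥ b')) h + (b' ⬝ᵥ J₁ * li (Pᵀ *ᵥ (P *ᵥ b)) h +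
        li (Pᵀ *ᵥ (P *ᵥ b)) h * li (Pᵀ *ᵥ (P *ᵥ b')) h)) := by
      funext h
      ring
    rw [this, TM.H104.Ex_add hμ (Gr.const _) (((Gr.li _).cmul _).add (((Gr.li _).cmul _).add
      ((Gr.li _).mul (Gr.li _)))), TM.H104.Ex_const hμ,
      TM.H104.Ex_add hμ ((Gr.li _).cmul _) (((Gr.li _).cmul _).add ((Gr.li _).mul (Gr.li _))),
      TM.H104.Ex_add hμ ((Gr.li _).cmul _) ((Gr.li _).mul (Gr.li _)), TM.H104.Ex_cmul,
      TM.H104.Ex_cmul]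
    ring
  have e4 : Cv μ' J₁ (li (a - Pᵀ *ᵥ (P *ᵥ b))) (li (a' - Pᵀ *ᵥ (P *ᵥ b'))) =
      (Ex μ' J₁ (fun h => li a h * li a' h) -
        Ex μ' J₁ (fun h => li a h * li (Pᵀ *ᵥ (P *ᵥ b')) h) -
        Ex μ' J₁ (fun h => li a' h * li (Pᵀ *ᵥ (P *ᵥ b)) h) +
        Ex μ' J₁ (fun h => li (Pᵀ *ᵥ (P *ᵥ b)) h * li (Pᵀ *ᵥ (P *ᵥ b')) h)) -
      (Ex μ' J₁ (li a) - Ex μ' J₁ (li (Pᵀ *ᵥ (P *ᵥ b)))) *
        (Ex μ' J₁ (li a') - Ex μ' J₁ (li (Pᵀ *ᵥ (P *ᵥ b')))) := by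
    have hs : ∀ u v : V → ℝ, Ex μ' J₁ (li (u - v)) = Ex μ' J₁ (li u) - Ex μ' J₁ (li v) := by
      intro u v
      rw [← TM.H104.Ex_sub hμ (Gr.li _) (Gr.li _)]
      congr 1
      funext h
      exact TM.H104.li_sub _ _ h
    unfold Cv
    rw [hs, hs]
    congr 1
    have : (fun h => li (a - Pᵀ *ᵥ (P *ᵥ b)) h * li (a' - Pᵀ *ᵥ (P *ᵥ b')) h) = fun h =>
        (li a h * li a' h - li a h * li (Pᵀ *ᵥ (P *ᵥ b')) h -
        li a' h * li (Pᵀ *ᵥ (P *ᵥ b)) h) + li (Pᵀ *ᵥ (P *ᵥ b)) h * li (Pᵀ *ᵥ (P *ᵥ b')) h := by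
      funext h
      rw [TM.H104.li_sub, TM.H104.li_sub]
      ring
    rw [this, TM.H104.Ex_add hμ ((((Gr.li _).mul (Gr.li _)).sub ((Gr.li _).mul (Gr.li _))).sub
      ((Gr.li _).mul (Gr.li _))) ((Gr.li _).mul (Gr.li _)),
      TM.H104.Ex_sub hμ (((Gr.li _).mul (Gr.li _)).sub ((Gr.li _).mul (Gr.li _)))
        ((Gr.li _).mul (Gr.li _)),
      TM.H104.Ex_sub hμ ((Gr.li _).mul (Gr.li _)) ((Gr.li _).mul (Gr.li _))]
  have e5 : Ech μ' J₁ P (fun J => sc (post μ' P) a b J * sc (post μ' P) a' b' J) =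
      Ech μ' J₁ P (fun J => Ex (post μ' P) J (li a) * Ex (post μ' P) J (li a')) -
      Ech μ' J₁ P (fun J => b' ⬝ᵥ J * Ex (post μ' P) J (li a)) -
      Ech μ' J₁ P (fun J => b ⬝ᵥ J * Ex (post μ' P) J (li a')) +
      Ech μ' J₁ P (fun J => b ⬝ᵥ J * b' ⬝ᵥ J) := by
    rw [e0, Ech_add' ((h1.sub h2).sub h3) h4, Ech_sub' (h1.sub h2) h3, Ech_sub' h1 h2]
  have hs : ∀ u v : V → ℝ, Ex μ' J₁ (li (u - v)) = Ex μ' J₁ (li u) - Ex μ' J₁ (li v) := by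
    intro u v
    rw [← TM.H104.Ex_sub hμ (Gr.li _) (Gr.li _)]
    congr 1
    funext h
    exact TM.H104.li_sub _ _ h
  rw [e5, e1, e2 a b', e2 a' b, e3, e4, Ech_sc hμ, Ech_sc hμ, hs, hs]
  ring

/-! ### (P1): the exact propagation identity -/

lemma ChI.of_Cv {μ' : (V → ℤ) → ℝ} (hμ : EM μ') (J₁ : V → ℝ) (P : Matrix I V ℝ)
    {F G : (V → ℤ) → ℝ} (hF : Gr F) (hG : Gr G) :
    ChI μ' J₁ P fun J => Cv (post μ' P) J F G :=
  (ChI.of_Ex hμ J₁ P (hF.mul hG)).sub (ChI.of_Ex_mul hμ J₁ P hF hG)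

lemma ChI.of_bf_Cm {μ' : (V → ℤ) → ℝ} (hμ : EM μ') (J₁ : V → ℝ) (P : Matrix I V ℝ)
    (a a' : V → ℝ) : ChI μ' J₁ P fun J => bf (Cm (post μ' P) J) a a' := by
  simp only [H114.bf_Cm (em_post hμ P)]
  exact ChI.of_Cv hμ J₁ P (Gr.li a) (Gr.li a')

lemma bf_sub_mat (M M' : Matrix V V ℝ) (u v : V → ℝ) : bf (M - M') u v = bf M u v - bf M' u v := by
  simp only [bf_eq, sub_mulVec, dotProduct_sub]

lemma qf_sub_mat (M M' : Matrix V V ℝ) (u : V → ℝ) : qf (M - M') u = qf M u - qf M' u :=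
  bf_sub_mat M M' u u

lemma ChI.of_bf_R {μ' : (V → ℤ) → ℝ} (hμ : EM μ') (J₁ : V → ℝ) (P : Matrix I V ℝ)
    (G : Matrix V V ℝ) (a a' : V → ℝ) :
    ChI μ' J₁ P fun J => bf (Cm (post μ' P) J - G) a a' := by
  simp only [bf_sub_mat]
  exact (ChI.of_bf_Cm hμ J₁ P a a').sub (ChI.of_EGr hμ J₁ P (EGr.const _))

/-- (P1), bilinear form, `G` any symmetric matrix -/
theorem prop_bf {μ' : (V → ℤ) → ℝ} (hμ : EM μ') (J₁ : V → ℝ) (P : Matrix I V ℝ)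
    {G : Matrix V V ℝ} (hG : Gᵀ = G) {a a' e e' : V → ℝ}
    (he : e = a - Pᵀ *ᵥ (P *ᵥ (G *ᵥ a))) (he' : e' = a' - Pᵀ *ᵥ (P *ᵥ (G *ᵥ a'))) :
    bf (Cm μ' J₁) e e' = bf G a e' + Ech μ' J₁ P (fun J => bf (Cm (post μ' P) J - G) a a') +
      (Ech μ' J₁ P (fun J => sc (post μ' P) a (G *ᵥ a) J * sc (post μ' P) a' (G *ᵥ a') J) -
        Ech μ' J₁ P (sc (post μ' P) a (G *ᵥ a)) * Ech μ' J₁ P (sc (post μ' P) a' (G *ᵥ a'))) := by
  have hp := em_post hμ P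
  have h := tot_lin hμ J₁ P a (G *ᵥ a) a' (G *ᵥ a')
  rw [← he, ← he', ← H114.bf_Cm hμ] at h
  have h1 : Ech μ' J₁ P (fun J => bf (Cm (post μ' P) J - G) a a') =
      Ech μ' J₁ P (fun J => Cv (post μ' P) J (li a) (li a')) - bf G a a' := by
    simp only [bf_sub_mat, H114.bf_Cm hp]
    rw [Ech_sub' (ChI.of_Cv hμ J₁ P (Gr.li a) (Gr.li a'))
      (ChI.of_EGr hμ J₁ P (EGr.const _)), Ech_const hμ]
  have h2 : bf (Pᵀ * P) (G *ᵥ a) (G *ᵥ a') = bf G a a' - bf G a e' := by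
    have h3 : bf G a e' = bf G a a' - bf G a (Pᵀ *ᵥ (P *ᵥ (G *ᵥ a'))) := by
      rw [he']
      simp only [bf_eq, mulVec_sub, dotProduct_sub]
    have h4 : bf G a (Pᵀ *ᵥ (P *ᵥ (G *ᵥ a'))) = bf (Pᵀ * P) (G *ᵥ a) (G *ᵥ a') := by
      rw [bf_eq, bf_eq, dotProduct_mulVec, ← mulVec_transpose, hG, ← mulVec_mulVec]
    rw [h3, h4]
    ring
  rw [h1]
  linarith

/-- **(P1) the exact propagation identity**: with `e = b - Q G b`,
`<e, C'_{J₁} e> = <b, G e> + E <b, (C_J - G) b> + Var (R'(J)[b])` -/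
theorem prop_qf {μ' : (V → ℤ) → ℝ} (hμ : EM μ') (J₁ : V → ℝ) (P : Matrix I V ℝ)
    {G : Matrix V V ℝ} (hG : Gᵀ = G) {b e : V → ℝ}
    (he : e = b - Pᵀ *ᵥ (P *ᵥ (G *ᵥ b))) :
    qf (Cm μ' J₁) e = bf G b e + Ech μ' J₁ P (fun J => qf (Cm (post μ' P) J - G) b) +
      (Ech μ' J₁ P (fun J => sc (post μ' P) b (G *ᵥ b) J ^ 2) -
        Ech μ' J₁ P (sc (post μ' P) b (G *ᵥ b)) ^ 2) := by
  have h := prop_bf hμ J₁ P hG he he
  simp only [← bf_self, sq]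
  exact h

/-- the variance of a channel functional is nonnegative -/
lemma Ech_sq_le {μ' : (V → ℤ) → ℝ} (hμ : EM μ') (J₁ : V → ℝ) (P : Matrix I V ℝ)
    {Φ : (V → ℝ) → ℝ} (h1 : ChI μ' J₁ P Φ) (h2 : ChI μ' J₁ P fun J => Φ J ^ 2) :
    Ech μ' J₁ P Φ ^ 2 ≤ Ech μ' J₁ P fun J => Φ J ^ 2 := by
  set m := Ech μ' J₁ P Φ with hm
  have hc : ∀ c : ℝ, ChI μ' J₁ P fun _ => c := fun c => ChI.of_EGr hμ J₁ P (EGr.const c)
  have h3 : 0 ≤ Ech μ' J₁ P fun J => (Φ J - m) ^ 2 := Ech_nonneg hμ J₁ P fun J => sq_nonneg _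
  have e : (fun J => (Φ J - m) ^ 2) = fun J => (Φ J ^ 2 - 2 * m * Φ J) + m ^ 2 := by
    funext J
    ring
  rw [e, Ech_add' (h2.sub (h1.cmul _)) (hc _), Ech_sub' h2 (h1.cmul _), Ech_cmul, Ech_const hμ,
    ← hm] at h3
  nlinarith

/-- Ginibre: the covariance is minimal at source `0` -/
def GC (μ : (V → ℤ) → ℝ) : Prop := ∀ J u, qf (Gm μ) u ≤ qf (Cm μ J) u

lemma Gm_symm (μ : (V → ℤ) → ℝ) : (Gm μ)ᵀ = Gm μ := by
  ext x y
  simp only [transpose_apply, Gm, Cm, of_apply]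
  exact TM.H104.Cv_comm _ _ _

lemma Cm_symm (μ : (V → ℤ) → ℝ) (J : V → ℝ) : (Cm μ J)ᵀ = Cm μ J := by
  ext x y
  simp only [transpose_apply, Cm, of_apply]
  exact TM.H104.Cv_comm _ _ _

/-- the Gaussian flow is a lower bound: `<b, G e> <= <e, G' e>`, `e = b - Q G b` -/
theorem Gm_ge {μ' : (V → ℤ) → ℝ} (hμ : EM μ') (P : Matrix I V ℝ) (hK : GC (post μ' P))
    {b e : V → ℝ} (he : e = b - Pᵀ *ᵥ (P *ᵥ (Gm (post μ' P) *ᵥ b))) :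
    bf (Gm (post μ' P)) b e ≤ qf (Gm μ') e := by
  have h := prop_qf hμ 0 P (Gm_symm (post μ' P)) he
  have h1 : 0 ≤ Ech μ' 0 P (fun J => qf (Cm (post μ' P) J - Gm (post μ' P)) b) :=
    Ech_nonneg hμ 0 P fun J => by
      rw [qf_sub_mat]
      exact sub_nonneg.2 (hK J b)
  have h2 := Ech_sq_le hμ 0 P (ChI.of_sc hμ 0 P b (Gm (post μ' P) *ᵥ b)) (by
    simp only [sq]
    exact ChI.of_sc_mul hμ 0 P _ _ _ _)
  have h3 : Gm μ' = Cm μ' 0 := rfl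
  rw [h3]
  linarith

/-- **(P2)** the excess covariance of the prior in any source `J₁` -/
theorem drop_le {μ' : (V → ℤ) → ℝ} (hμ : EM μ') (P : Matrix I V ℝ) (hK : GC (post μ' P))
    (J₁ : V → ℝ) {b e : V → ℝ} (he : e = b - Pᵀ *ᵥ (P *ᵥ (Gm (post μ' P) *ᵥ b))) :
    qf (Cm μ' J₁ - Gm μ') e ≤
      Ech μ' J₁ P (fun J => qf (Cm (post μ' P) J - Gm (post μ' P)) b) +
        (Ech μ' J₁ P (fun J => sc (post μ' P) b (Gm (post μ' P) *ᵥ b) J ^ 2) -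
          Ech μ' J₁ P (sc (post μ' P) b (Gm (post μ' P) *ᵥ b)) ^ 2) := by
  have h := prop_qf hμ J₁ P (Gm_symm (post μ' P)) he
  have h1 := Gm_ge hμ P hK he
  rw [qf_sub_mat]
  linarith

/-! ### from second derivatives to `Rs` -/

/-- second order Taylor bound: `φ(0) = 0`, `φ'(0) = 0`, `φ'' <= K` on `[0,1]` -/
lemma taylor_le {φ φ' φ'' : ℝ → ℝ} (h1 : ∀ s, HasDerivAt φ (φ' s) s)
    (h2 : ∀ s, HasDerivAt φ' (φ'' s) s) (h00 : φ 0 = 0) (h01 : φ' 0 = 0) {K : ℝ}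
    (hK : ∀ s ∈ Set.Icc (0 : ℝ) 1, φ'' s ≤ K) : φ 1 ≤ K / 2 := by
  have hd : ∀ s ∈ Set.Icc (0 : ℝ) 1, φ' s ≤ K * s := by
    intro s hs
    have hg : ∀ x, HasDerivAt (fun s => K * s - φ' s) (K - φ'' x) x := fun x => by
      have h5 : HasDerivAt (fun s : ℝ => K * s) K x := by
        simpa using (hasDerivAt_id x).const_mul K
      exact h5.sub (h2 x)
    have hm : MonotoneOn (fun s => K * s - φ' s) (Set.Icc 0 1) := by
      refine monotoneOn_of_deriv_nonneg (convex_Icc 0 1)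
        (fun x _ => (hg x).continuousAt.continuousWithinAt)
        (fun x _ => (hg x).differentiableAt.differentiableWithinAt) fun x hx => ?_
      rw [interior_Icc] at hx
      rw [(hg x).deriv]
      exact sub_nonneg.2 (hK x ⟨hx.1.le, hx.2.le⟩)
    have h3 := hm (Set.left_mem_Icc.2 zero_le_one) hs hs.1
    simp only [mul_zero, h01, sub_zero] at h3
    linarith
  have hg : ∀ x, HasDerivAt (fun s => K * s ^ 2 / 2 - φ s) (K * x - φ' x) x := fun x => by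
    have h4 : HasDerivAt (fun s : ℝ => K * s ^ 2 / 2) (K * x) x := by
      have := ((hasDerivAt_pow 2 x).const_mul K).div_const 2
      refine this.congr_deriv ?_
      norm_num
      ring
    exact h4.sub (h1 x)
  have hm : MonotoneOn (fun s => K * s ^ 2 / 2 - φ s) (Set.Icc 0 1) := by
    refine monotoneOn_of_deriv_nonneg (convex_Icc 0 1)
      (fun x _ => (hg x).continuousAt.continuousWithinAt)
      (fun x _ => (hg x).differentiableAt.differentiableWithinAt) fun x hx => ?_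
    rw [interior_Icc] at hx
    rw [(hg x).deriv]
    exact sub_nonneg.2 (hd x ⟨hx.1.le, hx.2.le⟩)
  have h3 := hm (Set.left_mem_Icc.2 zero_le_one) (Set.right_mem_Icc.2 zero_le_one) zero_le_one
  simp only [h00] at h3
  norm_num at h3
  linarith

lemma Ex_li_zero {μ : (V → ℤ) → ℝ} (hE : Ev μ) (u : V → ℝ) : Ex μ 0 (li u) = 0 := by
  have h1 : TM.H104.T μ 0 (li u) = -TM.H104.T μ 0 (li u) := by
    conv_lhs => unfold TM.H104.T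
    rw [← (Equiv.neg (V → ℤ)).tsum_eq]
    unfold TM.H104.T
    rw [← tsum_neg]
    refine tsum_congr fun h => ?_
    simp only [Equiv.neg_apply]
    rw [hE h]
    simp [li]
  have h2 : TM.H104.T μ 0 (li u) = 0 := by linarith
  unfold Ex
  rw [h2, zero_div]

/-- `Rs μ J <= K / 2` when the excess covariance in the direction `J` is `<= K` on the segment -/
theorem Rs_le {μ : (V → ℤ) → ℝ} (hμ : EM μ) (hE : Ev μ) (J : V → ℝ) {K : ℝ}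
    (hK : ∀ s ∈ Set.Icc (0 : ℝ) 1, qf (Cm μ (s • J) - Gm μ) J ≤ K) : Rs μ J ≤ K / 2 := by
  have h1 : ∀ s, HasDerivAt (fun s : ℝ => Rs μ (s • J))
      (Ex μ (s • J) (li J) - s * qf (Gm μ) J) s := by
    intro s
    have h2 := TM.H104.hasDerivAt_Lg hμ 0 J s
    simp only [zero_add] at h2
    have h3 : HasDerivAt (fun s : ℝ => qf (Gm μ) (s • J) / 2) (s * qf (Gm μ) J) s := by
      have h4 : (fun s : ℝ => qf (Gm μ) (s • J) / 2) = fun s => s ^ 2 * qf (Gm μ) J / 2 := by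
        funext s
        rw [qf_smul]
      rw [h4]
      have := ((hasDerivAt_pow 2 s).mul_const (qf (Gm μ) J)).div_const 2
      refine this.congr_deriv ?_
      norm_num
      ring
    have h5 := (h2.sub_const (Lg μ 0)).sub h3
    exact h5
  have h2 : ∀ s, HasDerivAt (fun s : ℝ => Ex μ (s • J) (li J) - s * qf (Gm μ) J)
      (qf (Cm μ (s • J) - Gm μ) J) s := by
    intro s
    have h3 := TM.H104.hasDerivAt_Ex hμ (Gr.li J) 0 J s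
    simp only [zero_add] at h3
    have h4 := h3.sub ((hasDerivAt_id s).mul_const (qf (Gm μ) J))
    refine h4.congr_deriv ?_
    have h5 : qf (Cm μ (s • J)) J = Cv μ (s • J) (li J) (li J) := H114.bf_Cm hμ (s • J) J J
    rw [qf_sub_mat, h5, one_mul]
  have h3 := taylor_le h1 h2 (by
    simp only [zero_smul]
    unfold Rs
    rw [qf_zero_vec]
    ring) (by
    simp only [zero_smul, zero_mul, sub_zero]
    exact Ex_li_zero hE J) hK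
  simpa only [one_smul] using h3

/-- **(P2) propagation of the a-priori bound**: `e = b - Q G b`; if for every `τ` in `[0,1]`, under
the exact law of the source of the posterior started from `τ e`, the mean excess covariance in the
direction `b` plus the variance of `R'(J)[b]` is `<= K`, then `Rs μ' e <= K / 2` -/
theorem Rs_prop {μ' : (V → ℤ) → ℝ} (hμ : EM μ') (hE : Ev μ') (P : Matrix I V ℝ)
    (hK : GC (post μ' P)) {b e : V → ℝ}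
    (he : e = b - Pᵀ *ᵥ (P *ᵥ (Gm (post μ' P) *ᵥ b))) {K : ℝ}
    (h : ∀ s ∈ Set.Icc (0 : ℝ) 1,
      Ech μ' (s • e) P (fun J => qf (Cm (post μ' P) J - Gm (post μ' P)) b) +
        (Ech μ' (s • e) P (fun J => sc (post μ' P) b (Gm (post μ' P) *ᵥ b) J ^ 2) -
          Ech μ' (s • e) P (sc (post μ' P) b (Gm (post μ' P) *ᵥ b)) ^ 2) ≤ K) :
    Rs μ' e ≤ K / 2 :=
  Rs_le hμ hE e fun s hs => (drop_le hμ P hK (s • e) he).trans (h s hs)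

end

end Vale.Agent.P159.H663
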