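import Vale.Agent.P159.H663.PSet
import Vale.Agent.P159.H552.GauHS2

/-!
P159 / module HT (helper663): matrix Chernoff bounds.

* `gau_qexp`: `E exp (<g, K g> / 2) ≤ exp (tr K)` for `0 ≤ K ≤ 1/2`;
* `sgq_sum`, `sgq_tail`: if `E_J exp <x, A h - m> ≤ exp (c0 + <x, Γ x> / 2)` for every `x` and
  `λ Γ ≤ 1/2` then `P_J (|A h - m|² ≥ a) ≤ exp (c0 + λ tr Γ - λ a / 2)`;
* `gau_tail`: the same for the Gaussian noise.
-/

namespace Vale.Agent.P159.H663

open Finset Matrix MeasureTheory ProbabilityTheory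
open Vale.Agent.P159.TM.H104 (EM Ex Cv Lg li nh Gr)
open Vale.Agent.P159.H37

noncomputable section

variable {V : Type*} [Fintype V] {I : Type*} [Fintype I]

lemma inv_sqrt_le {a : ℝ} (h0 : 0 ≤ a) (h1 : a ≤ 1 / 2) : (√(1 - a))⁻¹ ≤ Real.exp a := by
  have h2 : (0 : ℝ) < 1 - a := by linarith
  have h3 : Real.exp (-(2 * a)) ≤ 1 - a := by
    have h4 : 1 + 2 * a ≤ Real.exp (2 * a) := by linarith [Real.add_one_le_exp (2 * a)]
    have h5 : 1 ≤ (1 - a) * (1 + 2 * a) := by nlinarith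
    rw [Real.exp_neg, inv_le_iff_one_le_mul₀ (Real.exp_pos _)]
    exact h5.trans (mul_le_mul_of_nonneg_left h4 h2.le)
  have h6 : Real.exp (-a) ≤ √(1 - a) := by
    refine Real.le_sqrt_of_sq_le ?_
    rw [sq, ← Real.exp_add]
    refine le_trans (le_of_eq ?_) h3
    congr 1
    ring
  rw [inv_le_comm₀ (Real.sqrt_pos.2 h2) (Real.exp_pos _), ← Real.exp_neg]
  exact h6

/-- **Gaussian quadratic exponential** -/
theorem gau_qexp [DecidableEq I] {K : Matrix I I ℝ} (hK : Kᵀ = K) (h0 : ∀ x, 0 ≤ qf K x)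
    (h1 : ∀ x : I → ℝ, qf K x ≤ 1 / 2 * ∑ i, x i ^ 2) :
    Integrable (fun g : I → ℝ => Real.exp (qf K g / 2)) (gau I) ∧
      ∫ g, Real.exp (qf K g / 2) ∂(gau I) ≤ Real.exp (trace K) := by
  obtain ⟨O, a, hO1, hO2, hKO, _⟩ := H552.spec_real hK
  -- the eigenvalues
  have hq : ∀ v : I → ℝ, qf K v = ∑ i, a i * (Oᵀ *ᵥ v) i ^ 2 := by
    intro v
    rw [qf_eq, hKO, ← mulVec_mulVec, ← mulVec_mulVec, dotProduct_mulVec, ← mulVec_transpose]
    simp only [dotProduct, mulVec_diagonal]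
    exact Finset.sum_congr rfl fun i _ => by ring
  have ha : ∀ i, qf K (O *ᵥ Pi.single i 1) = a i ∧ ∑ j, (O *ᵥ Pi.single i 1) j ^ 2 = 1 := by
    intro i
    have e1 : Oᵀ *ᵥ (O *ᵥ Pi.single i 1) = Pi.single i (1 : ℝ) := by
      rw [mulVec_mulVec, hO2, one_mulVec]
    refine ⟨?_, ?_⟩
    · rw [hq, e1, Finset.sum_eq_single i]
      · simp
      · intro j _ hj
        rw [Pi.single_eq_of_ne hj]
        ring
      · simp
    · have e2 : ∑ j, (O *ᵥ Pi.single i (1 : ℝ)) j ^ 2 =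
          (O *ᵥ Pi.single i (1 : ℝ)) ⬝ᵥ (O *ᵥ Pi.single i (1 : ℝ)) := by
        simp only [dotProduct, sq]
      rw [e2, dotProduct_mulVec, ← mulVec_transpose, e1]
      simp
  have ha0 : ∀ i, 0 ≤ a i := fun i => by
    rw [← (ha i).1]
    exact h0 _
  have ha1 : ∀ i, a i ≤ 1 / 2 := fun i => by
    have := h1 (O *ᵥ Pi.single i 1)
    rw [(ha i).1, (ha i).2, mul_one] at this
    exact this
  set f : (I → ℝ) → ℝ := fun x => ∏ i, Real.exp (a i * (x i ^ 2 / 2)) with hf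
  have hfm : Measurable f := by
    rw [hf]
    fun_prop
  have ef : ∀ g : I → ℝ, Real.exp (qf K g / 2) = f (Oᵀ *ᵥ g) := by
    intro g
    rw [hf, hq, Finset.sum_div, Real.exp_sum]
    refine Finset.prod_congr rfl fun i _ => ?_
    congr 1
    ring
  have hl : Oᵀ * Oᵀᵀ = (1 : Matrix I I ℝ) * (1 : Matrix I I ℝ)ᵀ := by
    rw [transpose_transpose, hO2, transpose_one, Matrix.mul_one]
  have hfi : Integrable f (gau I) := by
    unfold gau
    exact Integrable.fintype_prod (f := fun i x => Real.exp (a i * (x ^ 2 / 2)))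
      fun i => H552.integrable_exp_sq (by linarith [ha1 i])
  simp only [ef]
  refine ⟨?_, ?_⟩
  · rw [H552.gau_integrable_iff hl hfm]
    simpa only [one_mulVec] using hfi
  · rw [H552.gau_int_eq hl hfm]
    simp only [one_mulVec]
    have e3 : ∫ g, f g ∂(gau I) = ∏ i, (√(1 - a i))⁻¹ := by
      rw [hf]
      unfold gau
      rw [integral_fintype_prod_eq_prod (fun i x => Real.exp (a i * (x ^ 2 / 2)))]
      exact Finset.prod_congr rfl fun i _ => H552.int_exp_sq (by linarith [ha1 i])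
    have e4 : trace K = ∑ i, a i := by
      rw [hKO, Matrix.trace_mul_comm, ← Matrix.mul_assoc, hO2, Matrix.one_mul, trace_diagonal]
    rw [e3, e4, Real.exp_sum]
    exact Finset.prod_le_prod (fun i _ => inv_nonneg.2 (Real.sqrt_nonneg _))
      fun i _ => inv_sqrt_le (ha0 i) (ha1 i)

/-- tail of a Gaussian vector -/
theorem gau_tail [DecidableEq I] {K : Matrix I I ℝ} (hK : Kᵀ = K) (h0 : ∀ x, 0 ≤ qf K x)
    {lam : ℝ} (hl : 0 ≤ lam) (h1 : ∀ x : I → ℝ, lam * qf K x ≤ 1 / 2 * ∑ i, x i ^ 2) (a : ℝ) :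
    ∫ g, Set.indicator {g : I → ℝ | a ≤ qf K g} (fun _ => (1 : ℝ)) g ∂(gau I) ≤
      Real.exp (lam * trace K - lam * a / 2) := by
  have e : ∀ x : I → ℝ, qf (lam • K) x = lam * qf K x := by
    intro x
    unfold qf
    rw [Finset.mul_sum]
    refine Finset.sum_congr rfl fun i _ => ?_
    rw [Finset.mul_sum]
    exact Finset.sum_congr rfl fun j _ => by rw [Matrix.smul_apply, smul_eq_mul]; ring
  obtain ⟨hi, hle⟩ := gau_qexp (K := lam • K) (by rw [transpose_smul, hK])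
    (fun x => by rw [e]; exact mul_nonneg hl (h0 x)) (fun x => by rw [e]; exact h1 x)
  have h2 : ∫ g, Set.indicator {g : I → ℝ | a ≤ qf K g} (fun _ => (1 : ℝ)) g ∂(gau I) ≤
      ∫ g, Real.exp (-(lam * a / 2)) * Real.exp (qf (lam • K) g / 2) ∂(gau I) := by
    refine integral_mono_of_nonneg (Filter.Eventually.of_forall fun g =>
      Set.indicator_nonneg (fun _ _ => zero_le_one) g) (hi.const_mul _)
      (Filter.Eventually.of_forall fun g => ?_)
    simp only
    by_cases hg : g ∈ {g : I → ℝ | a ≤ qf K g}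
    · rw [Set.indicator_of_mem hg, ← Real.exp_add, e]
      refine Real.one_le_exp ?_
      have h3 : a ≤ qf K g := hg
      nlinarith
    · rw [Set.indicator_of_notMem hg]
      positivity
  refine h2.trans ?_
  rw [integral_const_mul]
  refine (mul_le_mul_of_nonneg_left hle (Real.exp_pos _).le).trans (le_of_eq ?_)
  rw [← Real.exp_add, Matrix.trace_smul, smul_eq_mul]
  congr 1
  ring

/-- squared distance of `A h` from the centre `m` -/
def sd {W : Type*} [Fintype W] (A : Matrix W V ℝ) (m : W → ℝ) (h : V → ℤ) : ℝ :=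
  ∑ k, ((A *ᵥ re h) k - m k) ^ 2

/-- **matrix Chernoff, sum form** -/
theorem sgq_sum {W : Type*} [Fintype W] [DecidableEq W] {μ : (V → ℤ) → ℝ} (hμ : EM μ) (J : V → ℝ)
    (A : Matrix W V ℝ) (m : W → ℝ) {Γ : Matrix W W ℝ} (hΓ : Γᵀ = Γ) (h0 : ∀ x, 0 ≤ qf Γ x)
    {lam c0 : ℝ} (hl : 0 ≤ lam) (h1 : ∀ x : W → ℝ, lam * qf Γ x ≤ 1 / 2 * ∑ i, x i ^ 2)
    (hm : ∀ x : W → ℝ, Ex μ J (fun h => Real.exp (x ⬝ᵥ (A *ᵥ re h - m))) ≤
      Real.exp (c0 + qf Γ x / 2)) (s : Finset (V → ℤ)) :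
    ∑ h ∈ s, μ h * Real.exp (li J h) * Real.exp (lam / 2 * sd A m h) ≤
      Zs μ J * Real.exp (c0 + lam * trace Γ) := by
  have hz := Zs_pos hμ J
  have e0 : ∀ x : W → ℝ, qf (lam • Γ) x = lam * qf Γ x := by
    intro x
    unfold qf
    rw [Finset.mul_sum]
    refine Finset.sum_congr rfl fun i _ => ?_
    rw [Finset.mul_sum]
    exact Finset.sum_congr rfl fun j _ => by rw [Matrix.smul_apply, smul_eq_mul]; ring
  obtain ⟨hi, hle⟩ := gau_qexp (K := lam • Γ) (by rw [transpose_smul, hΓ])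
    (fun x => by rw [e0]; exact mul_nonneg hl (h0 x)) (fun x => by rw [e0]; exact h1 x)
  -- the exponential of the square as a Gaussian average
  have e1 : ∀ h : V → ℤ, Real.exp (lam / 2 * sd A m h) =
      ∫ g : W → ℝ, Real.exp ((√lam • g) ⬝ᵥ (A *ᵥ re h - m)) ∂(gau W) := by
    intro h
    have h2 := gau_exp (I := W) (√lam • (A *ᵥ re h - m))
    have e2 : ∀ g : W → ℝ, ∑ i, (√lam • (A *ᵥ re h - m)) i * g i =
        (√lam • g) ⬝ᵥ (A *ᵥ re h - m) := by
      intro g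
      simp only [dotProduct, Pi.smul_apply, smul_eq_mul]
      exact Finset.sum_congr rfl fun i _ => by ring
    simp only [e2] at h2
    rw [h2]
    congr 1
    unfold sd
    rw [Finset.mul_sum, Finset.sum_div]
    refine Finset.sum_congr rfl fun i _ => ?_
    simp only [Pi.smul_apply, Pi.sub_apply, smul_eq_mul]
    rw [mul_pow, Real.sq_sqrt hl]
    ring
  have hint : ∀ h : V → ℤ, Integrable (fun g : W → ℝ =>
      Real.exp ((√lam • g) ⬝ᵥ (A *ᵥ re h - m))) (gau W) := by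
    intro h
    have h2 := integrable_exp_lin (I := W) (√lam • (A *ᵥ re h - m))
    refine h2.congr (Filter.Eventually.of_forall fun g => ?_)
    simp only
    congr 1
    simp only [dotProduct, Pi.smul_apply, smul_eq_mul]
    exact Finset.sum_congr rfl fun i _ => by ring
  have e3 : ∑ h ∈ s, μ h * Real.exp (li J h) * Real.exp (lam / 2 * sd A m h) =
      ∫ g : W → ℝ, ∑ h ∈ s, μ h * Real.exp (li J h) *
        Real.exp ((√lam • g) ⬝ᵥ (A *ᵥ re h - m)) ∂(gau W) := by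
    rw [integral_finsetSum s fun h _ => (hint h).const_mul _]
    refine Finset.sum_congr rfl fun h _ => ?_
    rw [integral_const_mul, e1]
  rw [e3]
  have h3 : ∫ g : W → ℝ, ∑ h ∈ s, μ h * Real.exp (li J h) *
      Real.exp ((√lam • g) ⬝ᵥ (A *ᵥ re h - m)) ∂(gau W) ≤
      ∫ g : W → ℝ, Zs μ J * Real.exp c0 * Real.exp (qf (lam • Γ) g / 2) ∂(gau W) := by
    refine integral_mono (integrable_finsetSum s fun h _ => (hint h).const_mul _)
      (hi.const_mul _) fun g => ?_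
    simp only
    have h4 := hm (√lam • g)
    have h5 : qf Γ (√lam • g) = qf (lam • Γ) g := by
      rw [qf_smul, Real.sq_sqrt hl, e0]
    rw [h5, Real.exp_add] at h4
    have hG : Gr fun h : V → ℤ => Real.exp ((√lam • g) ⬝ᵥ (A *ᵥ re h - m)) := by
      have h6 := (Gr.exp_li (Aᵀ *ᵥ (√lam • g))).cmul (Real.exp (-((√lam • g) ⬝ᵥ m)))
      have e4 : (fun h : V → ℤ => Real.exp (-((√lam • g) ⬝ᵥ m)) *
          Real.exp (li (Aᵀ *ᵥ (√lam • g)) h)) =
          fun h => Real.exp ((√lam • g) ⬝ᵥ (A *ᵥ re h - m)) := by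
        funext h
        rw [← Real.exp_add]
        congr 1
        rw [dotProduct_sub, li_re, mulVec_transpose, ← dotProduct_mulVec]
        ring
      rwa [e4] at h6
    have h7 : TM.H104.T μ J (fun h => Real.exp ((√lam • g) ⬝ᵥ (A *ᵥ re h - m))) ≤
        Zs μ J * Real.exp c0 * Real.exp (qf (lam • Γ) g / 2) := by
      have h8 : Ex μ J (fun h => Real.exp ((√lam • g) ⬝ᵥ (A *ᵥ re h - m))) =
          TM.H104.T μ J (fun h => Real.exp ((√lam • g) ⬝ᵥ (A *ᵥ re h - m))) / Zs μ J := rfl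
      rw [h8, div_le_iff₀ hz] at h4
      refine h4.trans (le_of_eq ?_)
      ring
    refine le_trans ?_ h7
    have h9 := TM.H104.EM.summ hμ hG J
    unfold TM.H104.T
    have h10 : ∀ h : V → ℤ, μ h * Real.exp (li J h) *
        Real.exp ((√lam • g) ⬝ᵥ (A *ᵥ re h - m)) =
        Real.exp ((√lam • g) ⬝ᵥ (A *ᵥ re h - m)) * μ h * Real.exp (li J h) := fun h => by ring
    simp only [h10]
    exact h9.sum_le_tsum s fun h _ =>
      mul_nonneg (mul_nonneg (Real.exp_pos _).le (hμ.nn h)) (Real.exp_pos _).le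
  refine h3.trans ?_
  rw [integral_const_mul]
  have h11 := mul_le_mul_of_nonneg_left hle (mul_pos hz (Real.exp_pos c0)).le
  refine h11.trans (le_of_eq ?_)
  rw [Real.exp_add, Matrix.trace_smul, smul_eq_mul]
  ring

/-- **matrix Chernoff, tail form** -/
theorem sgq_tail {W : Type*} [Fintype W] [DecidableEq W] {μ : (V → ℤ) → ℝ} (hμ : EM μ)
    (J : V → ℝ) (A : Matrix W V ℝ) (m : W → ℝ) {Γ : Matrix W W ℝ} (hΓ : Γᵀ = Γ)
    (h0 : ∀ x, 0 ≤ qf Γ x) {lam c0 : ℝ} (hl : 0 ≤ lam)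
    (h1 : ∀ x : W → ℝ, lam * qf Γ x ≤ 1 / 2 * ∑ i, x i ^ 2)
    (hm : ∀ x : W → ℝ, Ex μ J (fun h => Real.exp (x ⬝ᵥ (A *ᵥ re h - m))) ≤
      Real.exp (c0 + qf Γ x / 2)) (a : ℝ) :
    Ex μ J (Set.indicator {h | a ≤ sd A m h} fun _ => (1 : ℝ)) ≤
      Real.exp (c0 + lam * trace Γ - lam * a / 2) := by
  have hz := Zs_pos hμ J
  have hG : Gr (Set.indicator {h : V → ℤ | a ≤ sd A m h} fun _ => (1 : ℝ)) := by
    refine Gr.of_bdd (C := 1) fun h => ?_
    rw [abs_of_nonneg (Set.indicator_nonneg (fun _ _ => zero_le_one) h)]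
    exact Set.indicator_le_self' (fun _ _ => zero_le_one) h
  have e1 : Ex μ J (Set.indicator {h | a ≤ sd A m h} fun _ => (1 : ℝ)) =
      TM.H104.T μ J (Set.indicator {h | a ≤ sd A m h} fun _ => (1 : ℝ)) / Zs μ J := rfl
  rw [e1, div_le_iff₀ hz]
  have h9 := TM.H104.EM.summ hμ hG J
  unfold TM.H104.T
  refine h9.tsum_le_of_sum_le fun s => ?_
  have h2 := sgq_sum hμ J A m hΓ h0 hl h1 hm s
  have h3 : ∑ h ∈ s, Set.indicator {h : V → ℤ | a ≤ sd A m h} (fun _ => (1 : ℝ)) h * μ h *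
      Real.exp (li J h) ≤ Real.exp (-(lam * a / 2)) *
        ∑ h ∈ s, μ h * Real.exp (li J h) * Real.exp (lam / 2 * sd A m h) := by
    rw [Finset.mul_sum]
    refine Finset.sum_le_sum fun h _ => ?_
    have h4 : 0 ≤ μ h * Real.exp (li J h) := mul_nonneg (hμ.nn h) (Real.exp_pos _).le
    by_cases hh : h ∈ {h : V → ℤ | a ≤ sd A m h}
    · rw [Set.indicator_of_mem hh, one_mul]
      have h5 : a ≤ sd A m h := hh
      have h6 : 1 ≤ Real.exp (-(lam * a / 2)) * Real.exp (lam / 2 * sd A m h) := by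
        rw [← Real.exp_add]
        refine Real.one_le_exp ?_
        nlinarith
      calc μ h * Real.exp (li J h) = μ h * Real.exp (li J h) * 1 := by ring
        _ ≤ μ h * Real.exp (li J h) *
            (Real.exp (-(lam * a / 2)) * Real.exp (lam / 2 * sd A m h)) :=
            mul_le_mul_of_nonneg_left h6 h4
        _ = _ := by ring
    · rw [Set.indicator_of_notMem hh, zero_mul, zero_mul]
      positivity
  refine h3.trans ((mul_le_mul_of_nonneg_left h2 (Real.exp_pos _).le).trans (le_of_eq ?_))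
  rw [show c0 + lam * trace Γ - lam * a / 2 = -(lam * a / 2) + (c0 + lam * trace Γ) by ring,
    Real.exp_add (-(lam * a / 2))]
  ring

end

end Vale.Agent.P159.H663
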