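import Vale.Agent.P159.H114.AE1

/-!
P159 / module PROP, part 0 (helper663): the channel with unbounded posterior functionals.

* `gau_lin`, `gau_lin_mul`: first and second moments of the standard Gaussian measure;
* `ChI`: integrability with respect to the law of the channel, linearity of `Ech` on it;
* `ch_numF`, `Ech_ExF`: `E_ν [Φ(J) E_J F] = E' [F(h) ∫ Φ(J₁ + Pᵀ (P h + g))]` (posterior means are
  conditional expectations), no growth assumption on the posterior mean.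
-/

namespace Vale.Agent.P159.H663

open Finset Matrix MeasureTheory ProbabilityTheory
open Vale.Agent.P159.TM.H104 (EM Ex Cv K3 Lg li nh Gr)
open Vale.Agent.P159.H37

noncomputable section

variable {V : Type*} [Fintype V] {I : Type*} [Fintype I]

/-! ### moments of the standard Gaussian measure -/

lemma gau_int_of_le {f : (I → ℝ) → ℝ} (hf : Measurable f) {A C : ℝ}
    (h : ∀ g, |f g| ≤ A * Real.exp (C * ∑ i, |g i|)) : Integrable f (gau I) :=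
  ((integrable_exp_norm (I := I) C).const_mul A).mono' hf.aestronglyMeasurable
    (Filter.Eventually.of_forall fun g => by rw [Real.norm_eq_abs]; exact h g)

lemma abs_lin_le_sum (a g : I → ℝ) : |∑ i, a i * g i| ≤ (∑ i, |a i|) * ∑ i, |g i| := by
  rw [Finset.sum_mul]
  refine (Finset.abs_sum_le_sum_abs _ _).trans (Finset.sum_le_sum fun i _ => ?_)
  rw [abs_mul]
  exact mul_le_mul_of_nonneg_left
    (Finset.single_le_sum (f := fun i => |g i|) (fun _ _ => abs_nonneg _) (Finset.mem_univ i))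
    (abs_nonneg _)

lemma int_lin (a : I → ℝ) : Integrable (fun g : I → ℝ => ∑ i, a i * g i) (gau I) := by
  refine gau_int_of_le (by fun_prop) (A := ∑ i, |a i|) (C := 1) fun g => ?_
  refine (abs_lin_le_sum a g).trans (mul_le_mul_of_nonneg_left ?_
    (Finset.sum_nonneg fun _ _ => abs_nonneg _))
  rw [one_mul]
  linarith [Real.add_one_le_exp (∑ i, |g i|)]

lemma int_lin_mul (a b : I → ℝ) :
    Integrable (fun g : I → ℝ => (∑ i, a i * g i) * ∑ i, b i * g i) (gau I) := by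
  refine gau_int_of_le (by fun_prop) (A := (∑ i, |a i|) * ∑ i, |b i|) (C := 2) fun g => ?_
  rw [abs_mul]
  have h1 := abs_lin_le_sum a g
  have h2 := abs_lin_le_sum b g
  have h3 : 0 ≤ ∑ i, |g i| := Finset.sum_nonneg fun _ _ => abs_nonneg _
  have h4 : ∑ i, |g i| ≤ Real.exp (∑ i, |g i|) := by
    linarith [Real.add_one_le_exp (∑ i, |g i|)]
  have ha : 0 ≤ ∑ i, |a i| := Finset.sum_nonneg fun _ _ => abs_nonneg _
  have hb : 0 ≤ ∑ i, |b i| := Finset.sum_nonneg fun _ _ => abs_nonneg _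
  have h5 : (∑ i, |g i|) * (∑ i, |g i|) ≤ Real.exp (2 * ∑ i, |g i|) := by
    rw [two_mul, Real.exp_add]
    exact mul_le_mul h4 h4 h3 (Real.exp_pos _).le
  calc |∑ i, a i * g i| * |∑ i, b i * g i|
      ≤ ((∑ i, |a i|) * ∑ i, |g i|) * ((∑ i, |b i|) * ∑ i, |g i|) :=
        mul_le_mul h1 h2 (abs_nonneg _) (mul_nonneg ha h3)
    _ = (∑ i, |a i|) * (∑ i, |b i|) * ((∑ i, |g i|) * (∑ i, |g i|)) := by ring
    _ ≤ _ := mul_le_mul_of_nonneg_left h5 (mul_nonneg ha hb)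

/-- the mean of a linear functional -/
lemma gau_lin (a : I → ℝ) : ∫ g, ∑ i, a i * g i ∂(gau I) = 0 := by
  have h := gau_integral_neg fun g : I → ℝ => ∑ i, a i * g i
  have e : ∀ g : I → ℝ, ∑ i, a i * (-g) i = -∑ i, a i * g i := by
    intro g
    rw [← Finset.sum_neg_distrib]
    exact Finset.sum_congr rfl fun i _ => by simp
  simp only [e] at h
  rw [integral_neg] at h
  linarith

private lemma one_first : ∫ x, x ∂(gaussianReal 0 1) = 0 := by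
  simp

private lemma one_second : ∫ x, x * x ∂(gaussianReal 0 1) = 1 := by
  have h := variance_id_gaussianReal (μ := 0) (v := 1)
  have h2 := variance_eq_sub (μ := gaussianReal 0 1) (X := id)
    (memLp_id_gaussianReal 2)
  rw [h] at h2
  simp only [Pi.pow_apply, id] at h2
  rw [one_first] at h2
  have h3 : ∫ x, x * x ∂(gaussianReal 0 1) = ∫ x, x ^ 2 ∂(gaussianReal 0 1) := by
    congr 1
    funext x
    ring
  rw [h3]
  norm_num at h2
  linarith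

lemma gau_coord_mul [DecidableEq I] (i j : I) :
    ∫ g, g i * g j ∂(gau I) = if i = j then 1 else 0 := by
  have e : ∀ g : I → ℝ, g i * g j =
      ∏ k, ((fun (k : I) (x : ℝ) => (if k = i then x else 1) * (if k = j then x else 1)) k (g k)) := by
    intro g
    simp only
    rw [Finset.prod_mul_distrib, Finset.prod_ite_eq', Finset.prod_ite_eq']
    simp
  simp only [e]
  unfold gau
  rw [integral_fintype_prod_eq_prod (𝕜 := ℝ)
    (fun (k : I) (x : ℝ) => (if k = i then x else 1) * (if k = j then x else 1))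
    (μ := fun _ => gaussianReal 0 1)]
  by_cases h : i = j
  · subst h
    rw [if_pos rfl]
    refine Finset.prod_eq_one fun k _ => ?_
    by_cases hk : k = i
    · simp only [if_pos hk]
      exact one_second
    · simp only [if_neg hk]
      simp
  · rw [if_neg h]
    refine Finset.prod_eq_zero (Finset.mem_univ i) ?_
    simp only [if_true, if_neg h, mul_one]
    exact one_first

/-- second moments of linear functionals -/
lemma gau_lin_mul (a b : I → ℝ) :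
    ∫ g, (∑ i, a i * g i) * (∑ i, b i * g i) ∂(gau I) = ∑ i, a i * b i := by
  classical
  have e : ∀ g : I → ℝ, (∑ i, a i * g i) * (∑ i, b i * g i) =
      ∑ i, ∑ j, a i * b j * (g i * g j) := by
    intro g
    rw [Finset.sum_mul_sum]
    exact Finset.sum_congr rfl fun i _ => Finset.sum_congr rfl fun j _ => by ring
  simp only [e]
  have hint : ∀ i j : I, Integrable (fun g : I → ℝ => a i * b j * (g i * g j)) (gau I) := by
    intro i j
    have h := int_lin_mul (Pi.single i (1 : ℝ)) (Pi.single j (1 : ℝ))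
    have h1 : ∀ (k : I) (g : I → ℝ), ∑ l, (Pi.single k (1 : ℝ) : I → ℝ) l * g l = g k := by
      intro k g
      rw [Finset.sum_eq_single k]
      · simp
      · intro l _ hl
        simp [Pi.single_eq_of_ne hl]
      · simp
    simp only [h1] at h
    exact h.const_mul _
  rw [integral_finsetSum _ fun i _ => integrable_finsetSum _ fun j _ => hint i j]
  refine Finset.sum_congr rfl fun i _ => ?_
  rw [integral_finsetSum _ fun j _ => hint i j]
  have : ∀ j, ∫ g, a i * b j * (g i * g j) ∂(gau I) = a i * b j * if i = j then 1 else 0 := by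
    intro j
    rw [integral_const_mul, gau_coord_mul]
  simp only [this]
  rw [Finset.sum_eq_single i]
  · simp
  · intro j _ hj
    rw [if_neg (fun h => hj h.symm), mul_zero]
  · simp

/-! ### integrability with respect to the channel -/

/-- integrability of `Φ(J)` with respect to the law of the channel -/
def ChI (μ' : (V → ℤ) → ℝ) (J₁ : V → ℝ) (P : Matrix I V ℝ) (Φ : (V → ℝ) → ℝ) : Prop :=
  Integrable (fun g : I → ℝ => Φ (J₁ + Pᵀ *ᵥ g) * Zs (post μ' P) (J₁ + Pᵀ *ᵥ g)) (gau I)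

lemma ChI.of_EGr {μ' : (V → ℤ) → ℝ} (hμ : EM μ') (J₁ : V → ℝ) (P : Matrix I V ℝ)
    {Φ : (V → ℝ) → ℝ} (hΦ : EGr Φ) : ChI μ' J₁ P Φ := ch_int hμ J₁ P hΦ

lemma ChI.add {μ' : (V → ℤ) → ℝ} {J₁ : V → ℝ} {P : Matrix I V ℝ} {Φ Ψ : (V → ℝ) → ℝ}
    (hΦ : ChI μ' J₁ P Φ) (hΨ : ChI μ' J₁ P Ψ) : ChI μ' J₁ P fun J => Φ J + Ψ J := by
  refine (Integrable.add hΦ hΨ).congr (Filter.Eventually.of_forall fun g => ?_)
  simp only [Pi.add_apply]
  ring

lemma ChI.cmul {μ' : (V → ℤ) → ℝ} {J₁ : V → ℝ} {P : Matrix I V ℝ} {Φ : (V → ℝ) → ℝ} (c : ℝ)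
    (hΦ : ChI μ' J₁ P Φ) : ChI μ' J₁ P fun J => c * Φ J := by
  refine (Integrable.const_mul hΦ c).congr (Filter.Eventually.of_forall fun g => ?_)
  simp only
  ring

lemma ChI.sub {μ' : (V → ℤ) → ℝ} {J₁ : V → ℝ} {P : Matrix I V ℝ} {Φ Ψ : (V → ℝ) → ℝ}
    (hΦ : ChI μ' J₁ P Φ) (hΨ : ChI μ' J₁ P Ψ) : ChI μ' J₁ P fun J => Φ J - Ψ J := by
  refine (Integrable.sub hΦ hΨ).congr (Filter.Eventually.of_forall fun g => ?_)
  simp only [Pi.sub_apply]
  ring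

lemma ChI.abs {μ' : (V → ℤ) → ℝ} (hμ : EM μ') {J₁ : V → ℝ} {P : Matrix I V ℝ}
    {Φ : (V → ℝ) → ℝ} (hΦ : ChI μ' J₁ P Φ) : ChI μ' J₁ P fun J => |Φ J| := by
  refine (Integrable.abs hΦ).congr (Filter.Eventually.of_forall fun g => ?_)
  simp only
  rw [abs_mul, abs_of_pos (Zs_pos (em_post hμ P) _)]

lemma measurable_obs' (J₁ : V → ℝ) (P : Matrix I V ℝ) :
    Measurable fun g : I → ℝ => J₁ + Pᵀ *ᵥ g := measurable_obs J₁ P

omit [Fintype V] in
lemma continuous_obs' (J₁ : V → ℝ) (P : Matrix I V ℝ) :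
    Continuous fun g : I → ℝ => J₁ + Pᵀ *ᵥ g :=
  continuous_const.add (H114.continuous_obs P)

/-- domination -/
lemma ChI.mono {μ' : (V → ℤ) → ℝ} (hμ : EM μ') {J₁ : V → ℝ} {P : Matrix I V ℝ}
    {Φ Ψ : (V → ℝ) → ℝ} (hm : Measurable Φ) (hΨ : ChI μ' J₁ P Ψ)
    (h : ∀ J, |Φ J| ≤ Ψ J) : ChI μ' J₁ P Φ := by
  have hp := em_post hμ P
  refine Integrable.mono' hΨ ?_ (Filter.Eventually.of_forall fun g => ?_)
  · exact ((hm.comp (measurable_obs J₁ P)).mul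
      ((continuous_Zs hp).measurable.comp (measurable_obs J₁ P))).aestronglyMeasurable
  · rw [Real.norm_eq_abs, abs_mul, abs_of_pos (Zs_pos hp _)]
    exact mul_le_mul_of_nonneg_right (h _) (Zs_pos hp _).le

lemma Ech_add' {μ' : (V → ℤ) → ℝ} {J₁ : V → ℝ} {P : Matrix I V ℝ} {Φ Ψ : (V → ℝ) → ℝ}
    (hΦ : ChI μ' J₁ P Φ) (hΨ : ChI μ' J₁ P Ψ) :
    Ech μ' J₁ P (fun J => Φ J + Ψ J) = Ech μ' J₁ P Φ + Ech μ' J₁ P Ψ := by
  unfold Ech
  rw [← add_div, ← integral_add hΦ hΨ]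
  congr 2
  funext g
  ring

lemma Ech_sub' {μ' : (V → ℤ) → ℝ} {J₁ : V → ℝ} {P : Matrix I V ℝ} {Φ Ψ : (V → ℝ) → ℝ}
    (hΦ : ChI μ' J₁ P Φ) (hΨ : ChI μ' J₁ P Ψ) :
    Ech μ' J₁ P (fun J => Φ J - Ψ J) = Ech μ' J₁ P Φ - Ech μ' J₁ P Ψ := by
  unfold Ech
  rw [← sub_div, ← integral_sub hΦ hΨ]
  congr 2
  funext g
  ring

lemma Ech_mono' {μ' : (V → ℤ) → ℝ} (hμ : EM μ') {J₁ : V → ℝ} {P : Matrix I V ℝ}
    {Φ Ψ : (V → ℝ) → ℝ} (hΦ : ChI μ' J₁ P Φ) (hΨ : ChI μ' J₁ P Ψ) (h : ∀ J, Φ J ≤ Ψ J) :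
    Ech μ' J₁ P Φ ≤ Ech μ' J₁ P Ψ := by
  have h1 := Ech_sub' hΨ hΦ
  have h2 : 0 ≤ Ech μ' J₁ P fun J => Ψ J - Φ J := Ech_nonneg hμ J₁ P fun J => sub_nonneg.2 (h J)
  linarith

/-! ### posterior means are conditional expectations -/

/-- the weight multiplied with a positive function of exponential growth -/
lemma em_mul {μ : (V → ℤ) → ℝ} (hμ : EM μ) {F : (V → ℤ) → ℝ} (hF : Gr F) (h0 : ∀ h, 0 < F h) :
    EM fun h => μ h * F h := by
  obtain ⟨h, hh⟩ := hμ.pos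
  refine ⟨fun h => mul_nonneg (hμ.nn h) (h0 h).le, ⟨h, mul_pos hh (h0 h)⟩, fun C => ?_⟩
  refine (hμ.summ' hF C).congr fun h => ?_
  rw [abs_of_pos (h0 h)]
  ring

lemma Gr.exp_nh (C : ℝ) : Gr fun h : V → ℤ => Real.exp (C * nh h) := by
  refine Gr.mk' (A := 1) (B := C) fun h => ?_
  rw [abs_of_pos (Real.exp_pos _), one_mul]

private lemma ch_num_pos {μ' : (V → ℤ) → ℝ} (hμ : EM μ') (J₁ : V → ℝ) (P : Matrix I V ℝ)
    {Φ : (V → ℝ) → ℝ} (hΦ : EGr Φ) {F : (V → ℤ) → ℝ} (hF : Gr F) (h0 : ∀ h, 0 < F h) :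
    Integrable (fun g : I → ℝ => Φ (J₁ + Pᵀ *ᵥ g) * TM.H104.T (post μ' P) (J₁ + Pᵀ *ᵥ g) F) (gau I) ∧
    HasSum (fun h : V → ℤ => F h * (μ' h * Real.exp (li J₁ h) *
        ∫ g, Φ (J₁ + Pᵀ *ᵥ (P *ᵥ re h + g)) ∂(gau I)))
      (∫ g, Φ (J₁ + Pᵀ *ᵥ g) * TM.H104.T (post μ' P) (J₁ + Pᵀ *ᵥ g) F ∂(gau I)) := by
  have hm := em_mul hμ hF h0
  have e : ∀ J : V → ℝ, Zs (post (fun h => μ' h * F h) P) J = TM.H104.T (post μ' P) J F := by
    intro J
    unfold Zs TM.H104.T post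
    refine tsum_congr fun h => by ring
  have h1 := ch_num hm J₁ P hΦ
  have h2 := ch_int hm J₁ P hΦ
  simp only [e] at h1 h2
  refine ⟨h2, ?_⟩
  convert h1 using 2 with h
  ring

/-- **joint law form with a function of the height** -/
lemma ch_numF {μ' : (V → ℤ) → ℝ} (hμ : EM μ') (J₁ : V → ℝ) (P : Matrix I V ℝ)
    {Φ : (V → ℝ) → ℝ} (hΦ : EGr Φ) {F : (V → ℤ) → ℝ} (hF : Gr F) :
    Integrable (fun g : I → ℝ => Φ (J₁ + Pᵀ *ᵥ g) * TM.H104.T (post μ' P) (J₁ + Pᵀ *ᵥ g) F) (gau I) ∧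
    HasSum (fun h : V → ℤ => F h * (μ' h * Real.exp (li J₁ h) *
        ∫ g, Φ (J₁ + Pᵀ *ᵥ (P *ᵥ re h + g)) ∂(gau I)))
      (∫ g, Φ (J₁ + Pᵀ *ᵥ g) * TM.H104.T (post μ' P) (J₁ + Pᵀ *ᵥ g) F ∂(gau I)) := by
  obtain ⟨C, hC, hb⟩ := hF.pos
  have hp := em_post hμ P
  have hE : Gr fun h : V → ℤ => (C + 1) * Real.exp (C * nh h) := (Gr.exp_nh C).cmul (C + 1)
  have hE0 : ∀ h : V → ℤ, 0 < (C + 1) * Real.exp (C * nh h) := fun h => by positivity
  have hG : Gr fun h : V → ℤ => (C + 1) * Real.exp (C * nh h) + F h := hE.add hF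
  have hG0 : ∀ h : V → ℤ, 0 < (C + 1) * Real.exp (C * nh h) + F h := by
    intro h
    have h1 := (abs_le.1 (hb h)).1
    have h2 := Real.exp_pos (C * nh h)
    linarith
  obtain ⟨a1, a2⟩ := ch_num_pos hμ J₁ P hΦ hG hG0
  obtain ⟨b1, b2⟩ := ch_num_pos hμ J₁ P hΦ hE hE0
  have e : ∀ J : V → ℝ, TM.H104.T (post μ' P) J F =
      TM.H104.T (post μ' P) J (fun h => (C + 1) * Real.exp (C * nh h) + F h) -
        TM.H104.T (post μ' P) J (fun h => (C + 1) * Real.exp (C * nh h)) := by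
    intro J
    rw [TM.H104.T_add hp hE hF]
    ring
  have i1 : Integrable (fun g : I → ℝ => Φ (J₁ + Pᵀ *ᵥ g) *
      TM.H104.T (post μ' P) (J₁ + Pᵀ *ᵥ g) F) (gau I) := by
    refine (a1.sub b1).congr (Filter.Eventually.of_forall fun g => ?_)
    simp only [Pi.sub_apply]
    rw [e (J₁ + Pᵀ *ᵥ g)]
    ring
  refine ⟨i1, ?_⟩
  have h3 := a2.sub b2
  rw [← integral_sub a1 b1] at h3
  have h4 : (∫ g, Φ (J₁ + Pᵀ *ᵥ g) * TM.H104.T (post μ' P) (J₁ + Pᵀ *ᵥ g) F ∂(gau I)) =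
      ∫ g, (Φ (J₁ + Pᵀ *ᵥ g) * TM.H104.T (post μ' P) (J₁ + Pᵀ *ᵥ g)
        (fun h => (C + 1) * Real.exp (C * nh h) + F h) -
        Φ (J₁ + Pᵀ *ᵥ g) * TM.H104.T (post μ' P) (J₁ + Pᵀ *ᵥ g)
        (fun h => (C + 1) * Real.exp (C * nh h))) ∂(gau I) := by
    refine integral_congr_ae (Filter.Eventually.of_forall fun g => ?_)
    simp only
    rw [e (J₁ + Pᵀ *ᵥ g)]
    ring
  rw [h4]
  have h5 : (fun h : V → ℤ => F h * (μ' h * Real.exp (li J₁ h) *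
      ∫ g, Φ (J₁ + Pᵀ *ᵥ (P *ᵥ re h + g)) ∂(gau I))) = fun h =>
      ((C + 1) * Real.exp (C * nh h) + F h) * (μ' h * Real.exp (li J₁ h) *
        ∫ g, Φ (J₁ + Pᵀ *ᵥ (P *ᵥ re h + g)) ∂(gau I)) -
      (C + 1) * Real.exp (C * nh h) * (μ' h * Real.exp (li J₁ h) *
        ∫ g, Φ (J₁ + Pᵀ *ᵥ (P *ᵥ re h + g)) ∂(gau I)) := by
    funext h
    ring
  rw [h5]
  exact h3

/-- a function of the source times a posterior mean is integrable -/
lemma ChI.mul_Ex {μ' : (V → ℤ) → ℝ} (hμ : EM μ') (J₁ : V → ℝ) (P : Matrix I V ℝ)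
    {Φ : (V → ℝ) → ℝ} (hΦ : EGr Φ) {F : (V → ℤ) → ℝ} (hF : Gr F) :
    ChI μ' J₁ P fun J => Φ J * Ex (post μ' P) J F := by
  have hp := em_post hμ P
  refine (ch_numF hμ J₁ P hΦ hF).1.congr (Filter.Eventually.of_forall fun g => ?_)
  have hz := (Zs_pos hp (J₁ + Pᵀ *ᵥ g)).ne'
  unfold Ex
  simp only
  unfold Zs at hz ⊢
  field_simp

/-- **conditional expectation**: `E_ν [Φ(J) E_J F] = E' [F(h) E Φ(J₁ + Pᵀ (P h + g))]` -/
theorem Ech_mul_Ex {μ' : (V → ℤ) → ℝ} (hμ : EM μ') (J₁ : V → ℝ) (P : Matrix I V ℝ)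
    {Φ : (V → ℝ) → ℝ} (hΦ : EGr Φ) {F : (V → ℤ) → ℝ} (hF : Gr F) :
    Ech μ' J₁ P (fun J => Φ J * Ex (post μ' P) J F) =
      Ex μ' J₁ fun h => F h * ∫ g, Φ (J₁ + Pᵀ *ᵥ (P *ᵥ re h + g)) ∂(gau I) := by
  have hp := em_post hμ P
  have h1 := (ch_numF hμ J₁ P hΦ hF).2
  unfold Ech
  have e : ∀ g : I → ℝ, Φ (J₁ + Pᵀ *ᵥ g) * Ex (post μ' P) (J₁ + Pᵀ *ᵥ g) F *
      Zs (post μ' P) (J₁ + Pᵀ *ᵥ g) = Φ (J₁ + Pᵀ *ᵥ g) * TM.H104.T (post μ' P) (J₁ + Pᵀ *ᵥ g) F := by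
    intro g
    have hz := (Zs_pos hp (J₁ + Pᵀ *ᵥ g)).ne'
    unfold Ex
    unfold Zs at hz ⊢
    field_simp
  simp only [e]
  rw [ch_norm hμ, ← h1.tsum_eq]
  unfold Ex Zs
  congr 1
  unfold TM.H104.T
  refine tsum_congr fun h => ?_
  ring

/-- the mean of the posterior mean -/
theorem Ech_Ex {μ' : (V → ℤ) → ℝ} (hμ : EM μ') (J₁ : V → ℝ) (P : Matrix I V ℝ)
    {F : (V → ℤ) → ℝ} (hF : Gr F) :
    Ech μ' J₁ P (fun J => Ex (post μ' P) J F) = Ex μ' J₁ F := by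
  have h := Ech_mul_Ex hμ J₁ P (EGr.const (V := V) 1) hF
  simp only [one_mul, integral_const, probReal_univ, smul_eq_mul, mul_one] at h
  exact h

lemma ChI.of_Ex {μ' : (V → ℤ) → ℝ} (hμ : EM μ') (J₁ : V → ℝ) (P : Matrix I V ℝ)
    {F : (V → ℤ) → ℝ} (hF : Gr F) : ChI μ' J₁ P fun J => Ex (post μ' P) J F := by
  have h := ChI.mul_Ex hμ J₁ P (EGr.const (V := V) 1) hF
  simpa only [one_mul] using h

/-- products of two posterior means are integrable -/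
lemma ChI.of_Ex_mul {μ' : (V → ℤ) → ℝ} (hμ : EM μ') (J₁ : V → ℝ) (P : Matrix I V ℝ)
    {F G : (V → ℤ) → ℝ} (hF : Gr F) (hG : Gr G) :
    ChI μ' J₁ P fun J => Ex (post μ' P) J F * Ex (post μ' P) J G := by
  have hp := em_post hμ P
  have h1 : ChI μ' J₁ P fun J => Ex (post μ' P) J (fun h => F h * F h) +
      Ex (post μ' P) J (fun h => G h * G h) :=
    (ChI.of_Ex hμ J₁ P (hF.mul hF)).add (ChI.of_Ex hμ J₁ P (hG.mul hG))
  refine ChI.mono hμ ?_ h1 fun J => ?_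
  · exact ((TM.H104.continuous_Ex hp hF).mul (TM.H104.continuous_Ex hp hG)).measurable
  · have hf := H114.Cv_self_nonneg hp J hF
    have hg := H114.Cv_self_nonneg hp J hG
    unfold Cv at hf hg
    rw [abs_mul]
    nlinarith [sq_abs (Ex (post μ' P) J F), sq_abs (Ex (post μ' P) J G),
      sq_nonneg (|Ex (post μ' P) J F| - |Ex (post μ' P) J G|)]

end

end Vale.Agent.P159.H663
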