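import Vale.Agent.P159.H663.Prop

/-!
P159 / module PROP, part 2 (helper663): tails of the source under the exact law of the channel.

* `Ech_exp`: the exact moment generating function of the source;
* `Ech_exp_le`, `Ech_tail`: sub-Gaussian tail, proxy `<v, Q v> + sup_J <Q v, C'_J Q v>`;
* `Ex_cosh`, `Ex_four`: fourth moments of linear functionals of the height;
* `Ech_four`: fourth moments of linear functionals of the source.
-/

namespace Vale.Agent.P159.H663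

open Finset Matrix MeasureTheory ProbabilityTheory
open Vale.Agent.P159.TM.H104 (EM Ex Cv K3 Lg li nh Gr)
open Vale.Agent.P159.H37

noncomputable section

variable {V : Type*} [Fintype V] {I : Type*} [Fintype I]

lemma EGr.exp_dot (v : V → ℝ) : EGr fun J : V → ℝ => Real.exp (v ⬝ᵥ J) := by
  refine EGr.mk' ?_ (A := 1) (B := ∑ i, |v i|) fun J => ?_
  · unfold dotProduct
    fun_prop
  · rw [abs_of_pos (Real.exp_pos _), one_mul]
    exact Real.exp_le_exp.2 ((le_abs_self _).trans (abs_lin_le_sum v J))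

/-- **the moment generating function of the source** -/
theorem Ech_exp {μ' : (V → ℤ) → ℝ} (hμ : EM μ') (J₁ : V → ℝ) (P : Matrix I V ℝ) (v : V → ℝ) :
    Ech μ' J₁ P (fun J => Real.exp (v ⬝ᵥ J)) =
      Real.exp (v ⬝ᵥ J₁ + qf (Pᵀ * P) v / 2) *
        Real.exp (Lg μ' (J₁ + Pᵀ *ᵥ (P *ᵥ v)) - Lg μ' J₁) := by
  rw [Ech_eq hμ J₁ P (EGr.exp_dot v)]
  have e1 : ∀ h : V → ℤ, ∫ g, Real.exp (v ⬝ᵥ (J₁ + Pᵀ *ᵥ (P *ᵥ re h + g))) ∂(gau I) =
      Real.exp (v ⬝ᵥ J₁ + qf (Pᵀ * P) v / 2) * Real.exp (li (Pᵀ *ᵥ (P *ᵥ v)) h) := by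
    intro h
    have e2 : ∀ g : I → ℝ, Real.exp (v ⬝ᵥ (J₁ + Pᵀ *ᵥ (P *ᵥ re h + g))) =
        Real.exp (v ⬝ᵥ J₁ + li (Pᵀ *ᵥ (P *ᵥ v)) h) * Real.exp (∑ i, (P *ᵥ v) i * g i) := by
      intro g
      rw [dot_obs, Real.exp_add]
    simp only [e2]
    rw [integral_const_mul, gau_exp, qf_gram, ← Real.exp_add, ← Real.exp_add]
    congr 1
    ring
  simp only [e1]
  rw [TM.H104.Ex_cmul]
  congr 1
  have hz := Zs_pos hμ J₁
  have hz' := Zs_pos hμ (J₁ + Pᵀ *ᵥ (P *ᵥ v))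
  have e3 : Lg μ' (J₁ + Pᵀ *ᵥ (P *ᵥ v)) = Real.log (Zs μ' (J₁ + Pᵀ *ᵥ (P *ᵥ v))) := rfl
  have e4 : Lg μ' J₁ = Real.log (Zs μ' J₁) := rfl
  rw [e3, e4, Real.exp_sub, Real.exp_log hz, Real.exp_log hz']
  unfold Ex Zs
  congr 1
  unfold TM.H104.T
  refine tsum_congr fun h => ?_
  rw [TM.H104.li_add, Real.exp_add]
  ring

/-- Taylor bound of the free energy -/
lemma Lg_le {μ : (V → ℤ) → ℝ} (hμ : EM μ) (J u : V → ℝ) {h : ℝ}
    (hh : ∀ J, qf (Cm μ J) u ≤ h) : Lg μ (J + u) - Lg μ J ≤ Ex μ J (li u) + h / 2 := by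
  have h1 : ∀ s, HasDerivAt (fun s : ℝ => Lg μ (J + s • u) - Lg μ J - s * Ex μ J (li u))
      (Ex μ (J + s • u) (li u) - Ex μ J (li u)) s := by
    intro s
    have h2 := ((TM.H104.hasDerivAt_Lg hμ J u s).sub_const (Lg μ J)).sub
      ((hasDerivAt_id s).mul_const (Ex μ J (li u)))
    refine h2.congr_deriv ?_
    rw [one_mul]
  have h2 : ∀ s, HasDerivAt (fun s : ℝ => Ex μ (J + s • u) (li u) - Ex μ J (li u))
      (qf (Cm μ (J + s • u)) u) s := by
    intro s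
    have h3 := (TM.H104.hasDerivAt_Ex hμ (Gr.li u) J u s).sub_const (Ex μ J (li u))
    have h4 : qf (Cm μ (J + s • u)) u = Cv μ (J + s • u) (li u) (li u) := H114.bf_Cm hμ _ u u
    rw [h4]
    exact h3
  have h3 := taylor_le h1 h2 (by simp) (by simp) (K := h) fun s _ => hh _
  simp only [one_smul, one_mul] at h3
  linarith

/-- mean of a linear functional of the source -/
lemma Ech_dot {μ' : (V → ℤ) → ℝ} (hμ : EM μ') (J₁ : V → ℝ) (P : Matrix I V ℝ) (v : V → ℝ) :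
    Ech μ' J₁ P (fun J => v ⬝ᵥ J) = v ⬝ᵥ J₁ + Ex μ' J₁ (li (Pᵀ *ᵥ (P *ᵥ v))) := by
  rw [Ech_eq hμ J₁ P (EGr.dot v)]
  simp only [int_dot_obs]
  rw [TM.H104.Ex_add hμ (Gr.const _) (Gr.li _), TM.H104.Ex_const hμ]

/-- **sub-Gaussian bound**, proxy `sig` -/
theorem Ech_exp_le {μ' : (V → ℤ) → ℝ} (hμ : EM μ') (J₁ : V → ℝ) (P : Matrix I V ℝ) (v : V → ℝ)
    {sig : ℝ} (hs : ∀ J, qf (Pᵀ * P) v + qf (Cm μ' J) (Pᵀ *ᵥ (P *ᵥ v)) ≤ sig) (s : ℝ) :
    Ech μ' J₁ P (fun J => Real.exp (s * (v ⬝ᵥ J - Ech μ' J₁ P fun J => v ⬝ᵥ J))) ≤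
      Real.exp (s ^ 2 * sig / 2) := by
  set m := Ech μ' J₁ P fun J => v ⬝ᵥ J with hm
  have e1 : (fun J : V → ℝ => Real.exp (s * (v ⬝ᵥ J - m))) =
      fun J => Real.exp (-(s * m)) * Real.exp ((s • v) ⬝ᵥ J) := by
    funext J
    rw [smul_dotProduct, ← Real.exp_add]
    congr 1
    simp only [smul_eq_mul]
    ring
  rw [e1, Ech_cmul, Ech_exp hμ, ← Real.exp_add, ← Real.exp_add]
  refine Real.exp_le_exp.2 ?_
  have e2 : Pᵀ *ᵥ (P *ᵥ (s • v)) = s • (Pᵀ *ᵥ (P *ᵥ v)) := by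
    rw [mulVec_smul, mulVec_smul]
  have h1 := Lg_le hμ J₁ (s • (Pᵀ *ᵥ (P *ᵥ v))) (h := s ^ 2 * (sig - qf (Pᵀ * P) v)) (by
    intro J
    rw [qf_smul]
    exact mul_le_mul_of_nonneg_left (by linarith [hs J]) (sq_nonneg s))
  have h2 : Ex μ' J₁ (li (s • (Pᵀ *ᵥ (P *ᵥ v)))) = s * Ex μ' J₁ (li (Pᵀ *ᵥ (P *ᵥ v))) := by
    rw [← TM.H104.Ex_cmul]
    congr 1
    funext h
    exact TM.H104.li_smul s _ h
  rw [e2, smul_dotProduct, qf_smul, smul_eq_mul]
  rw [h2] at h1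
  have h3 : m = v ⬝ᵥ J₁ + Ex μ' J₁ (li (Pᵀ *ᵥ (P *ᵥ v))) := by rw [hm, Ech_dot hμ]
  rw [h3]
  linarith

/-- indicator of a set as a real function -/
def ind (S : Set (V → ℝ)) (J : V → ℝ) : ℝ := S.indicator (fun _ => 1) J

omit [Fintype V] in
lemma ind_nonneg (S : Set (V → ℝ)) (J : V → ℝ) : 0 ≤ ind S J :=
  Set.indicator_nonneg (fun _ _ => zero_le_one) J

omit [Fintype V] in
lemma ind_le_one (S : Set (V → ℝ)) (J : V → ℝ) : ind S J ≤ 1 :=
  Set.indicator_le_self' (fun _ _ => zero_le_one) J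

omit [Fintype V] in
lemma ind_sq (S : Set (V → ℝ)) (J : V → ℝ) : ind S J * ind S J = ind S J := by
  unfold ind
  by_cases h : J ∈ S <;> simp [h]

lemma EGr.ind {S : Set (V → ℝ)} (hS : MeasurableSet S) : EGr (H663.ind S) := by
  refine EGr.mk' (measurable_const.indicator hS) (A := 1) (B := 0) fun J => ?_
  rw [abs_of_nonneg (ind_nonneg S J), zero_mul, Real.exp_zero, mul_one]
  exact ind_le_one S J

/-- **one-sided tail** -/
theorem Ech_tail {μ' : (V → ℤ) → ℝ} (hμ : EM μ') (J₁ : V → ℝ) (P : Matrix I V ℝ) (v : V → ℝ)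
    {sig lam : ℝ} (hs0 : 0 < sig) (hl : 0 ≤ lam)
    (hs : ∀ J, qf (Pᵀ * P) v + qf (Cm μ' J) (Pᵀ *ᵥ (P *ᵥ v)) ≤ sig) :
    Ech μ' J₁ P (ind {J | lam ≤ v ⬝ᵥ J - Ech μ' J₁ P fun J => v ⬝ᵥ J}) ≤
      Real.exp (-(lam ^ 2 / (2 * sig))) := by
  set m := Ech μ' J₁ P fun J => v ⬝ᵥ J with hm
  have hmeas : MeasurableSet {J : V → ℝ | lam ≤ v ⬝ᵥ J - m} := by
    have : Measurable fun J : V → ℝ => v ⬝ᵥ J := (EGr.dot v).meas
    exact measurableSet_le measurable_const (this.sub_const m)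
  have hexp : EGr fun J : V → ℝ => Real.exp (lam / sig * (v ⬝ᵥ J - m)) := by
    have h1 := (EGr.exp_dot ((lam / sig) • v)).cmul (Real.exp (-(lam / sig * m)))
    have e : (fun J : V → ℝ => Real.exp (-(lam / sig * m)) * Real.exp (((lam / sig) • v) ⬝ᵥ J)) =
        fun J => Real.exp (lam / sig * (v ⬝ᵥ J - m)) := by
      funext J
      rw [smul_dotProduct, ← Real.exp_add]
      congr 1
      simp only [smul_eq_mul]
      ring
    rwa [e] at h1
  have h1 : Ech μ' J₁ P (ind {J | lam ≤ v ⬝ᵥ J - m}) ≤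
      Ech μ' J₁ P fun J => Real.exp (-(lam ^ 2 / sig)) *
        Real.exp (lam / sig * (v ⬝ᵥ J - m)) := by
    refine Ech_mono hμ J₁ P (EGr.ind hmeas) (hexp.cmul _) fun J => ?_
    unfold ind
    by_cases h : J ∈ {J : V → ℝ | lam ≤ v ⬝ᵥ J - m}
    · rw [Set.indicator_of_mem h, ← Real.exp_add]
      refine Real.one_le_exp ?_
      have h2 : lam ≤ v ⬝ᵥ J - m := h
      have h3 : lam / sig * lam ≤ lam / sig * (v ⬝ᵥ J - m) :=
        mul_le_mul_of_nonneg_left h2 (by positivity)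
      have h4 : lam ^ 2 / sig = lam / sig * lam := by ring
      linarith
    · rw [Set.indicator_of_notMem h]
      positivity
  refine h1.trans ?_
  rw [Ech_cmul]
  have h2 := Ech_exp_le hμ J₁ P v hs (lam / sig)
  rw [← hm] at h2
  refine (mul_le_mul_of_nonneg_left h2 (Real.exp_pos _).le).trans (le_of_eq ?_)
  rw [← Real.exp_add]
  congr 1
  field_simp
  ring

/-! ### fourth moments -/

lemma four_le (x : ℝ) : x ^ 4 ≤ 24 * (Real.exp x + Real.exp (-x)) := by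
  have h1 : ∀ y : ℝ, 0 ≤ y → y ^ 4 / 24 ≤ Real.exp y := by
    intro y hy
    have := Real.sum_le_exp_of_nonneg hy 5
    simp only [Finset.sum_range_succ, Finset.sum_range_zero, Nat.factorial] at this
    norm_num at this
    have h2 : 0 ≤ y ^ 2 := sq_nonneg y
    have h3 : 0 ≤ y ^ 3 := pow_nonneg hy 3
    linarith
  have hp := Real.exp_pos x
  have hm := Real.exp_pos (-x)
  rcases le_total 0 x with hx | hx
  · have := h1 x hx
    linarith
  · have := h1 (-x) (by linarith)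
    have e : (-x) ^ 4 = x ^ 4 := by ring
    rw [e] at this
    linarith

lemma exp_half_lt : Real.exp (1 / 2 : ℝ) ≤ 5 / 3 := by
  have h := Real.exp_one_lt_d9
  have h2 : Real.exp (1 / 2 : ℝ) ^ 2 = Real.exp 1 := by
    rw [← Real.exp_nat_mul]
    norm_num
  nlinarith [Real.exp_pos (1 / 2 : ℝ)]

/-- fourth moment of a linear functional of the height under a tilt -/
lemma Ex_four {μ : (V → ℤ) → ℝ} (hμ : EM μ) (J u : V → ℝ) {h : ℝ} (h0 : 0 < h)
    (hh : ∀ J, qf (Cm μ J) u ≤ h) :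
    Ex μ J (fun k => (li u k - Ex μ J (li u)) ^ 4) ≤ 80 * h ^ 2 := by
  set m := Ex μ J (li u) with hm
  set s : ℝ := 1 / Real.sqrt h with hs
  have hsq : Real.sqrt h ^ 2 = h := Real.sq_sqrt h0.le
  have hsp : 0 < Real.sqrt h := Real.sqrt_pos.2 h0
  have gexp : ∀ c d : ℝ, Gr fun k : V → ℤ => Real.exp (c * (li u k - d)) := by
    intro c d
    have h1 := (Gr.exp_li (c • u)).cmul (Real.exp (-(c * d)))
    have e : (fun k : V → ℤ => Real.exp (-(c * d)) * Real.exp (li (c • u) k)) =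
        fun k => Real.exp (c * (li u k - d)) := by
      funext k
      rw [TM.H104.li_smul, ← Real.exp_add]
      congr 1
      ring
    rwa [e] at h1
  have key : ∀ c : ℝ, Ex μ J (fun k => Real.exp (c * (li u k - m))) ≤
      Real.exp (c ^ 2 * h / 2) := by
    intro c
    have e : (fun k : V → ℤ => Real.exp (c * (li u k - m))) =
        fun k => Real.exp (-(c * m)) * Real.exp (li (c • u) k) := by
      funext k
      rw [TM.H104.li_smul, ← Real.exp_add]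
      congr 1
      ring
    rw [e, TM.H104.Ex_cmul]
    have e2 : Ex μ J (fun k => Real.exp (li (c • u) k)) =
        Real.exp (Lg μ (J + c • u) - Lg μ J) := by
      have hz := Zs_pos hμ J
      have hz' := Zs_pos hμ (J + c • u)
      have e3 : Lg μ (J + c • u) = Real.log (Zs μ (J + c • u)) := rfl
      have e4 : Lg μ J = Real.log (Zs μ J) := rfl
      rw [e3, e4, Real.exp_sub, Real.exp_log hz, Real.exp_log hz']
      unfold Ex Zs
      congr 1
      unfold TM.H104.T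
      refine tsum_congr fun k => ?_
      rw [TM.H104.li_add, Real.exp_add]
      ring
    rw [e2, ← Real.exp_add]
    refine Real.exp_le_exp.2 ?_
    have h1 := Lg_le hμ J (c • u) (h := c ^ 2 * h) (by
      intro J
      rw [qf_smul]
      exact mul_le_mul_of_nonneg_left (hh J) (sq_nonneg c))
    have h2 : Ex μ J (li (c • u)) = c * m := by
      rw [hm, ← TM.H104.Ex_cmul]
      congr 1
      funext k
      exact TM.H104.li_smul c u k
    rw [h2] at h1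
    linarith
  have g4 : Gr fun k : V → ℤ => (li u k - m) ^ 4 := by
    have h1 : Gr fun k : V → ℤ => li u k - m := (Gr.li u).sub (Gr.const m)
    have h2 := (h1.mul h1).mul (h1.mul h1)
    have e : (fun k : V → ℤ => (li u k - m) * (li u k - m) * ((li u k - m) * (li u k - m))) =
        fun k => (li u k - m) ^ 4 := by
      funext k
      ring
    rwa [e] at h2
  have hle : ∀ k : V → ℤ, (li u k - m) ^ 4 ≤
      24 * h ^ 2 * (Real.exp (s * (li u k - m)) + Real.exp (-s * (li u k - m))) := by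
    intro k
    have h1 := four_le (s * (li u k - m))
    have h2 : (s * (li u k - m)) ^ 4 * h ^ 2 = (li u k - m) ^ 4 := by
      have : s ^ 4 * h ^ 2 = 1 := by
        rw [hs]
        have h3 : (1 / Real.sqrt h) ^ 4 = 1 / (Real.sqrt h ^ 2) ^ 2 := by
          field_simp
        rw [h3, hsq]
        field_simp
      calc (s * (li u k - m)) ^ 4 * h ^ 2 = (s ^ 4 * h ^ 2) * (li u k - m) ^ 4 := by ring
        _ = _ := by rw [this, one_mul]
    have h4 := mul_le_mul_of_nonneg_right h1 (sq_nonneg h)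
    rw [h2] at h4
    have e : -(s * (li u k - m)) = -s * (li u k - m) := by ring
    rw [e] at h4
    linarith
  have h5 : Ex μ J (fun k => (li u k - m) ^ 4) ≤ Ex μ J (fun k =>
      24 * h ^ 2 * (Real.exp (s * (li u k - m)) + Real.exp (-s * (li u k - m)))) :=
    TM.H104.Ex_mono hμ g4 (((gexp s m).add (gexp (-s) m)).cmul _) hle J
  refine h5.trans ?_
  rw [TM.H104.Ex_cmul, TM.H104.Ex_add hμ (gexp s m) (gexp (-s) m)]
  have h6 := key s
  have h7 := key (-s)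
  have h8 : s ^ 2 * h = 1 := by
    rw [hs]
    have : (1 / Real.sqrt h) ^ 2 = 1 / (Real.sqrt h ^ 2) := by
      field_simp
    rw [this, hsq]
    field_simp
  have h9 : (-s) ^ 2 * h = 1 := by
    rw [neg_sq, h8]
  rw [h8] at h6
  rw [h9] at h7
  have h10 := exp_half_lt
  nlinarith [sq_nonneg h]

/-- fourth moment of a linear functional of the source -/
lemma Ech_four {μ' : (V → ℤ) → ℝ} (hμ : EM μ') (J₁ : V → ℝ) (P : Matrix I V ℝ) (v : V → ℝ)
    {sig : ℝ} (hs0 : 0 < sig)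
    (hs : ∀ J, qf (Pᵀ * P) v + qf (Cm μ' J) (Pᵀ *ᵥ (P *ᵥ v)) ≤ sig) :
    Ech μ' J₁ P (fun J => (v ⬝ᵥ J - Ech μ' J₁ P fun J => v ⬝ᵥ J) ^ 4) ≤ 80 * sig ^ 2 := by
  set m := Ech μ' J₁ P fun J => v ⬝ᵥ J with hm
  set s : ℝ := 1 / Real.sqrt sig with hsd
  have hsq : Real.sqrt sig ^ 2 = sig := Real.sq_sqrt hs0.le
  have hsp : 0 < Real.sqrt sig := Real.sqrt_pos.2 hs0
  have gexp : ∀ c d : ℝ, EGr fun J : V → ℝ => Real.exp (c * (v ⬝ᵥ J - d)) := by
    intro c d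
    have h1 := (EGr.exp_dot (c • v)).cmul (Real.exp (-(c * d)))
    have e : (fun J : V → ℝ => Real.exp (-(c * d)) * Real.exp ((c • v) ⬝ᵥ J)) =
        fun J => Real.exp (c * (v ⬝ᵥ J - d)) := by
      funext J
      rw [smul_dotProduct, ← Real.exp_add]
      congr 1
      simp only [smul_eq_mul]
      ring
    rwa [e] at h1
  have g4 : EGr fun J : V → ℝ => (v ⬝ᵥ J - m) ^ 4 := by
    have h1 : EGr fun J : V → ℝ => v ⬝ᵥ J - m := (EGr.dot v).sub (EGr.const m)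
    have h2 := (h1.mul h1).mul (h1.mul h1)
    have e : (fun J : V → ℝ => (v ⬝ᵥ J - m) * (v ⬝ᵥ J - m) * ((v ⬝ᵥ J - m) * (v ⬝ᵥ J - m))) =
        fun J => (v ⬝ᵥ J - m) ^ 4 := by
      funext J
      ring
    rwa [e] at h2
  have hle : ∀ J : V → ℝ, (v ⬝ᵥ J - m) ^ 4 ≤
      24 * sig ^ 2 * (Real.exp (s * (v ⬝ᵥ J - m)) + Real.exp (-s * (v ⬝ᵥ J - m))) := by
    intro J
    have h1 := four_le (s * (v ⬝ᵥ J - m))
    have h2 : (s * (v ⬝ᵥ J - m)) ^ 4 * sig ^ 2 = (v ⬝ᵥ J - m) ^ 4 := by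
      have : s ^ 4 * sig ^ 2 = 1 := by
        rw [hsd]
        have h3 : (1 / Real.sqrt sig) ^ 4 = 1 / (Real.sqrt sig ^ 2) ^ 2 := by
          field_simp
        rw [h3, hsq]
        field_simp
      calc (s * (v ⬝ᵥ J - m)) ^ 4 * sig ^ 2 = (s ^ 4 * sig ^ 2) * (v ⬝ᵥ J - m) ^ 4 := by ring
        _ = _ := by rw [this, one_mul]
    have h4 := mul_le_mul_of_nonneg_right h1 (sq_nonneg sig)
    rw [h2] at h4
    have e : -(s * (v ⬝ᵥ J - m)) = -s * (v ⬝ᵥ J - m) := by ring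
    rw [e] at h4
    linarith
  refine (Ech_mono hμ J₁ P g4 (((gexp s m).add (gexp (-s) m)).cmul _) hle).trans ?_
  rw [Ech_cmul, Ech_add hμ J₁ P (gexp s m) (gexp (-s) m)]
  have h6 := Ech_exp_le hμ J₁ P v hs s
  have h7 := Ech_exp_le hμ J₁ P v hs (-s)
  rw [← hm] at h6 h7
  have h8 : s ^ 2 * sig = 1 := by
    rw [hsd]
    have : (1 / Real.sqrt sig) ^ 2 = 1 / (Real.sqrt sig ^ 2) := by
      field_simp
    rw [this, hsq]
    field_simp
  have h9 : (-s) ^ 2 * sig = 1 := by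
    rw [neg_sq, h8]
  rw [h8] at h6
  rw [h9] at h7
  have h10 := exp_half_lt
  nlinarith [sq_nonneg sig]

end

end Vale.Agent.P159.H663
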