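import Vale.Agent.P159.H663.Drl1
import Vale.Agent.P159.H145.Spc0

/-!
P159 (helper663): **the mean profile** `kT h` (one box mean and one tent average of side `h`) of the
decorations, in the letters of helper145's `Spc0` (`muK`, `bZ`) and helper191's `Ct4` (`mn`, `Wts`).

* `mn_muK` : `mn (muK N ρ κ) c H = ∑_{u ∈ bZ ρ} κ u H (c + u)`;
* `mn_kT` : `mn (muK N ρ (kT h)) c H = bxT N h (tT N h H) c` for `2 h ≤ ρ`;
* `wts_kT` : `Wts (muK N ρ (kT h)) (2 h)`.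
-/

set_option linter.unusedSectionVars false

open Finset Matrix MeasureTheory

namespace Vale.Agent.P159.H663.Dr

open Vale.Agent.P159.TM.Spec (V)
open Vale.Agent.P159.H276 (bxT bxT_const)
open Vale.Agent.P159.H145.Sp (bZ muK)
open Vale.Agent.P159.H191 (mn Wts)
open Vale.Agent.P159.H817 (sz)

noncomputable section

variable {N h ρ : ℕ} [NeZero N]

/-- pairs of indices -/
def sqr (h : ℕ) : Finset (ℕ × ℕ) := range h ×ˢ range h

/-- the shift of three pairs of indices -/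
def sh3 (p p' p'' : ℕ × ℕ) : ℤ × ℤ :=
  ((p.1 : ℤ) - (p'.1 : ℤ) + (p''.1 : ℤ), (p.2 : ℤ) - (p'.2 : ℤ) + (p''.2 : ℤ))

/-- **the mean profile** -/
def kT (h : ℕ) (u : ℤ × ℤ) : ℝ :=
  (((h : ℝ) ^ 2)⁻¹) ^ 3 * ∑ p ∈ sqr h, ∑ p' ∈ sqr h, ∑ p'' ∈ sqr h,
    if u = sh3 p p' p'' then (1 : ℝ) else 0

lemma kT_nonneg (h : ℕ) (u : ℤ × ℤ) : 0 ≤ kT h u := by
  unfold kT
  refine mul_nonneg (by positivity) (sum_nonneg fun p _ => sum_nonneg fun p' _ =>
    sum_nonneg fun p'' _ => ?_)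
  split_ifs <;> norm_num

lemma sh3_mem {p p' p'' : ℕ × ℕ} (hp : p ∈ sqr h) (hp' : p' ∈ sqr h) (hp'' : p'' ∈ sqr h) :
    sh3 p p' p'' ∈ bZ (2 * h) := by
  unfold sqr at hp hp' hp''
  rw [mem_product, mem_range, mem_range] at hp hp' hp''
  unfold H145.Sp.bZ sh3
  rw [mem_product, mem_Icc, mem_Icc]
  push_cast
  constructor
  · constructor <;> omega
  · constructor <;> omega

lemma kT_zero {u : ℤ × ℤ} (hu : u ∉ bZ (2 * h)) : kT h u = 0 := by
  unfold kT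
  rw [mul_eq_zero]
  right
  refine sum_eq_zero fun p hp => sum_eq_zero fun p' hp' => sum_eq_zero fun p'' hp'' => ?_
  rw [if_neg]
  rintro rfl
  exact hu (sh3_mem hp hp' hp'')

lemma bZ_mono {ρ' : ℕ} (h1 : ρ ≤ ρ') : bZ ρ ⊆ bZ ρ' := by
  intro u hu
  unfold H145.Sp.bZ at hu ⊢
  rw [mem_product, mem_Icc, mem_Icc] at hu ⊢
  omega

/-- sums against the profile -/
lemma sum_kT (h1 : 2 * h ≤ ρ) (f : ℤ × ℤ → ℝ) :
    ∑ u ∈ bZ ρ, kT h u * f u = (((h : ℝ) ^ 2)⁻¹) ^ 3 * ∑ p ∈ sqr h, ∑ p' ∈ sqr h, ∑ p'' ∈ sqr h,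
      f (sh3 p p' p'') := by
  unfold kT
  simp only [mul_assoc]
  rw [← mul_sum]
  congr 1
  simp only [sum_mul]
  rw [sum_comm]
  refine sum_congr rfl fun p hp => ?_
  rw [sum_comm]
  refine sum_congr rfl fun p' hp' => ?_
  rw [sum_comm]
  refine sum_congr rfl fun p'' hp'' => ?_
  simp only [ite_mul, one_mul, zero_mul]
  rw [sum_ite_eq' (bZ ρ) (sh3 p p' p'') f, if_pos (bZ_mono h1 (sh3_mem hp hp' hp''))]

lemma sum_kT_one (hh : 0 < h) (h1 : 2 * h ≤ ρ) : ∑ u ∈ bZ ρ, kT h u = 1 := by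
  have hr : (0 : ℝ) < h := by exact_mod_cast hh
  have h2 := sum_kT h1 fun _ => (1 : ℝ)
  simp only [mul_one] at h2
  rw [h2]
  unfold sqr
  simp only [sum_const, card_product, card_range, nsmul_eq_mul, mul_one]
  push_cast
  field_simp

/-! ### on the torus -/

/-- the cast of a lattice point -/
def tc (N : ℕ) (u : ℤ × ℤ) : ZMod N × ZMod N := (((u.1 : ℤ) : ZMod N), ((u.2 : ℤ) : ZMod N))

/-- **means with the weights `muK`** -/
theorem mn_muK (κ : ℤ × ℤ → ℝ) (c : V N) (H : V N → ℝ) :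
    mn (muK N ρ κ) c H = ∑ u ∈ bZ ρ, κ u * H (c + tc N u) := by
  unfold H191.mn H145.Sp.muK
  simp only [sum_mul]
  rw [sum_comm]
  refine sum_congr rfl fun u _ => ?_
  have e : ∀ y : V N, (if y - c = (((u.1 : ℤ) : ZMod N), ((u.2 : ℤ) : ZMod N)) then κ u else 0) *
      H y = if y = c + tc N u then κ u * H y else 0 := by
    intro y
    by_cases hy : y = c + tc N u
    · rw [if_pos hy, if_pos]
      rw [hy]
      exact add_sub_cancel_left _ _
    · rw [if_neg hy, if_neg, zero_mul]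
      intro h2
      exact hy (by rw [← add_sub_cancel c y, h2]; rfl)
  simp only [e]
  rw [sum_ite_eq']
  simp

/-- **the mean with the profile `kT` is a box mean of a tent average** -/
theorem mn_kT (h1 : 2 * h ≤ ρ) (c : V N) (H : V N → ℝ) :
    mn (muK N ρ (kT h)) c H = bxT N h (tT N h H) c := by
  rw [mn_muK, sum_kT h1 fun u => H (c + tc N u)]
  have e1 : bxT N h (tT N h H) c = (((h : ℝ) ^ 2)⁻¹) ^ 3 * ∑ p'' ∈ sqr h, ∑ p' ∈ sqr h,
      ∑ p ∈ sqr h, H (c + ((p''.1 : ZMod N), (p''.2 : ZMod N)) -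
        ((p'.1 : ZMod N), (p'.2 : ZMod N)) + ((p.1 : ZMod N), (p.2 : ZMod N))) := by
    unfold tT H276.bxT sqr
    simp only [sum_product, mul_sum]
    refine sum_congr rfl fun _ _ => sum_congr rfl fun _ _ => sum_congr rfl fun _ _ =>
      sum_congr rfl fun _ _ => sum_congr rfl fun _ _ => sum_congr rfl fun _ _ => ?_
    ring
  rw [e1]
  congr 1
  have e2 : ∀ p p' p'' : ℕ × ℕ, H (c + tc N (sh3 p p' p'')) =
      H (c + ((p''.1 : ZMod N), (p''.2 : ZMod N)) - ((p'.1 : ZMod N), (p'.2 : ZMod N)) +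
        ((p.1 : ZMod N), (p.2 : ZMod N))) := by
    intro p p' p''
    congr 1
    unfold tc sh3
    refine Prod.ext ?_ ?_
    · simp only [Prod.fst_add, Prod.fst_sub]
      push_cast
      ring
    · simp only [Prod.snd_add, Prod.snd_sub]
      push_cast
      ring
  simp only [e2]
  have e3 : ∀ f : ℕ × ℕ → ℕ × ℕ → ℕ × ℕ → ℝ, ∑ p ∈ sqr h, ∑ p' ∈ sqr h, ∑ p'' ∈ sqr h,
      f p p' p'' = ∑ p'' ∈ sqr h, ∑ p' ∈ sqr h, ∑ p ∈ sqr h, f p p' p'' := by
    intro f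
    have k1 : ∀ p, ∑ p' ∈ sqr h, ∑ p'' ∈ sqr h, f p p' p'' =
        ∑ p'' ∈ sqr h, ∑ p' ∈ sqr h, f p p' p'' := fun p => sum_comm
    simp only [k1]
    rw [sum_comm]
    refine sum_congr rfl fun p'' _ => ?_
    rw [sum_comm]
  exact e3 _

lemma sz_tc {u : ℤ × ℤ} (hu : u ∈ bZ ρ) : sz (tc N u : V N) ≤ ρ := by
  unfold H145.Sp.bZ at hu
  rw [mem_product, mem_Icc, mem_Icc] at hu
  have key : ∀ a : ℤ, -(ρ : ℤ) ≤ a → a ≤ ρ → ((a : ZMod N)).valMinAbs.natAbs ≤ ρ := by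
    intro a ha hb
    have h1 : ((a : ZMod N)).valMinAbs.natAbs ≤ a.natAbs := by
      exact ZMod.natAbs_min_of_le_div_two N _ a (ZMod.coe_valMinAbs _)
        (ZMod.natAbs_valMinAbs_le _)
    omega
  exact max_le (key _ hu.1.1 hu.1.2) (key _ hu.2.1 hu.2.2)

/-- **weights** -/
theorem wts_kT (hh : 0 < h) (h1 : 2 * h ≤ ρ) : Wts (muK N ρ (kT h)) (2 * h) where
  nn v := by
    unfold H145.Sp.muK
    refine sum_nonneg fun u _ => ?_
    split_ifs
    · exact kT_nonneg h u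
    · exact le_rfl
  one := by
    have h2 := mn_muK (N := N) (ρ := ρ) (kT h) 0 fun _ => (1 : ℝ)
    unfold H191.mn at h2
    simp only [mul_one, sub_zero] at h2
    rw [h2, sum_kT_one hh h1]
  sup v hv := by
    by_contra hc
    refine hv ?_
    unfold H145.Sp.muK
    refine sum_eq_zero fun u hu => ?_
    by_cases hu2 : u ∈ bZ (2 * h)
    · rw [if_neg]
      rintro rfl
      exact hc (sz_tc hu2)
    · rw [kT_zero hu2]
      split_ifs <;> rfl

end

end Vale.Agent.P159.H663.Dr
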