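import Vale.Agent.P159.H663.Drl2

/-!
P159 (helper663), S, module DOOR, law half, part 4: **oscillation of the tent average**.

* `grd_bxA`, `grd_tT` : `grd (tT h) ≤ 8 q⁻² ∑ (bxT h)²`;
* `osc_tT` : `nuM {∃ x y, 2 X < |tT F x - tT F y|} ≤ 2 N² exp (- X / (2 s))` as soon as
  `1 / (t q²) + 64 b (N/q)⁴ ≤ s²`, `32 (N/q)⁴ ≤ s²`.
-/

set_option linter.unusedSectionVars false

open Finset Matrix MeasureTheory

namespace Vale.Agent.P159.H663.Dr

open Vale.Agent.P159.TM.Spec (V)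
open Vale.Agent.P159.TM.SpecC (Tor wT)
open Vale.Agent.P159.H276 (bxT bxT_add bxT_smul bxT_neg bxT_sub bxT_const bxT_addc sum_bxT)
open Vale.Agent.P159.H770 (Ed eS eT)
open Vale.Agent.P159.H883 (FlJ lin_tail nuM)
open Vale.Agent.P159.TM.H764 (Q)

noncomputable section

variable {N q : ℕ} [NeZero N] {b t : ℝ}

/-- one direction of the gradient of an average along it -/
lemma avg_dir (hq : 0 < q) (h : V N → ℝ) (d : V N) (a : ℕ → V N)
    (D : V N → ℝ) (hD : ∀ x, D x = ((q : ℝ) ^ 2)⁻¹ * ∑ j ∈ range q,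
      (h (x + d - a j) - h (x + d - (a j + q • d)))) :
    ∑ x, D x ^ 2 ≤ 4 * ((q : ℝ) ^ 2)⁻¹ * ∑ x, h x ^ 2 := by
  have hq0 : (0 : ℝ) < q := by exact_mod_cast hq
  have h1 : ∀ x, D x ^ 2 ≤ ((q : ℝ) ^ 3)⁻¹ * ∑ j ∈ range q,
      (2 * h (x + (d - a j)) ^ 2 + 2 * h (x + (d - (a j + q • d))) ^ 2) := by
    intro x
    rw [hD, mul_pow]
    have h2 : (∑ j ∈ range q, (h (x + d - a j) - h (x + d - (a j + q • d)))) ^ 2 ≤
        ((range q).card : ℝ) * ∑ j ∈ range q,
          (h (x + d - a j) - h (x + d - (a j + q • d))) ^ 2 := sq_sum_le_card_mul_sum_sq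
    rw [card_range] at h2
    have h3 : ∑ j ∈ range q, (h (x + d - a j) - h (x + d - (a j + q • d))) ^ 2 ≤
        ∑ j ∈ range q, (2 * h (x + (d - a j)) ^ 2 + 2 * h (x + (d - (a j + q • d))) ^ 2) := by
      refine sum_le_sum fun j _ => ?_
      rw [add_sub_assoc, add_sub_assoc]
      nlinarith [sq_nonneg (h (x + (d - a j)) + h (x + (d - (a j + q • d))))]
    calc (((q : ℝ) ^ 2)⁻¹) ^ 2 *
          (∑ j ∈ range q, (h (x + d - a j) - h (x + d - (a j + q • d)))) ^ 2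
        ≤ (((q : ℝ) ^ 2)⁻¹) ^ 2 * ((q : ℝ) * ∑ j ∈ range q,
          (2 * h (x + (d - a j)) ^ 2 + 2 * h (x + (d - (a j + q • d))) ^ 2)) :=
          mul_le_mul_of_nonneg_left (h2.trans (mul_le_mul_of_nonneg_left h3 hq0.le))
            (by positivity)
      _ = _ := by
          rw [← mul_assoc]
          congr 1
          field_simp
  have h4 : ∀ c : V N, ∑ x, h (x + c) ^ 2 = ∑ x, h x ^ 2 := fun c =>
    Equiv.sum_comp (Equiv.addRight c) fun x => h x ^ 2
  calc ∑ x, D x ^ 2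
      ≤ ∑ x, ((q : ℝ) ^ 3)⁻¹ * ∑ j ∈ range q,
        (2 * h (x + (d - a j)) ^ 2 + 2 * h (x + (d - (a j + q • d))) ^ 2) :=
        sum_le_sum fun x _ => h1 x
    _ = ((q : ℝ) ^ 3)⁻¹ * ∑ j ∈ range q, (4 * ∑ x, h x ^ 2) := by
        rw [← mul_sum, sum_comm]
        congr 1
        refine sum_congr rfl fun j _ => ?_
        rw [sum_add_distrib, ← mul_sum, ← mul_sum, h4, h4]
        ring
    _ = 4 * ((q : ℝ) ^ 2)⁻¹ * ∑ x, h x ^ 2 := by
        rw [sum_const, card_range, nsmul_eq_mul]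
        field_simp

/-- **gradient of the adjoint box average** -/
theorem grd_bxA (hq : 0 < q) (h : V N → ℝ) :
    TM.H764.grd (bxA N q h) ≤ 8 * ((q : ℝ) ^ 2)⁻¹ * ∑ x, h x ^ 2 := by
  unfold TM.H764.grd TM.H764.Q
  have k1 := avg_dir hq h ((1 : ZMod N), (0 : ZMod N)) (fun j => ((0 : ZMod N), (j : ZMod N)))
    (fun x => bxA N q h (x + (1, 0)) - bxA N q h x) (fun x => by
      unfold bxA
      rw [← mul_sub, ← sum_sub_distrib]
      simp only [← sum_sub_distrib]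
      congr 1
      rw [sum_comm]
      refine sum_congr rfl fun j _ => ?_
      have e := Finset.sum_range_sub' (fun i : ℕ => h (x + (1, 0) - ((i : ZMod N), (j : ZMod N)))) q
      simp only [Nat.cast_zero] at e
      rw [show ((0 : ZMod N), (j : ZMod N)) + q • ((1 : ZMod N), (0 : ZMod N)) =
        ((q : ZMod N), (j : ZMod N)) by ext <;> simp, ← e]
      refine sum_congr rfl fun i _ => ?_
      have e2 : x + (1, 0) - (((i + 1 : ℕ) : ZMod N), (j : ZMod N)) =
          x - ((i : ZMod N), (j : ZMod N)) := by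
        ext
        · simp
        · simp
      rw [e2])
  have k2 := avg_dir hq h ((0 : ZMod N), (1 : ZMod N)) (fun i => ((i : ZMod N), (0 : ZMod N)))
    (fun x => bxA N q h (x + (0, 1)) - bxA N q h x) (fun x => by
      unfold bxA
      rw [← mul_sub, ← sum_sub_distrib]
      simp only [← sum_sub_distrib]
      congr 1
      refine sum_congr rfl fun i _ => ?_
      have e := Finset.sum_range_sub' (fun j : ℕ => h (x + (0, 1) - ((i : ZMod N), (j : ZMod N)))) q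
      simp only [Nat.cast_zero] at e
      rw [show ((i : ZMod N), (0 : ZMod N)) + q • ((0 : ZMod N), (1 : ZMod N)) =
        ((i : ZMod N), (q : ZMod N)) by ext <;> simp, ← e]
      refine sum_congr rfl fun j _ => ?_
      have e2 : x + (0, 1) - ((i : ZMod N), ((j + 1 : ℕ) : ZMod N)) =
          x - ((i : ZMod N), (j : ZMod N)) := by
        ext
        · simp
        · simp
      rw [e2])
  linarith

/-- **gradient of the tent average** -/
theorem grd_tT (hq : 0 < q) (h : V N → ℝ) :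
    TM.H764.grd (tT N q h) ≤ 8 * ((q : ℝ) ^ 2)⁻¹ * ∑ x, bxT N q h x ^ 2 := grd_bxA hq _

/-! ### the kernel -/

/-- the point mass -/
def dl (x : V N) (y : V N) : ℝ := if y = x then 1 else 0

lemma sum_dl (x : V N) (f : V N → ℝ) : ∑ y, dl x y * f y = f x := by
  unfold dl
  simp

lemma bxT_dl_nonneg (x y : V N) : 0 ≤ bxT N q (dl x) y := by
  unfold bxT dl
  refine mul_nonneg (by positivity) (sum_nonneg fun i _ => sum_nonneg fun j _ => ?_)
  split_ifs <;> norm_num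

lemma bxT_dl_le (hqN : q ≤ N) (x y : V N) : bxT N q (dl x) y ≤ ((q : ℝ) ^ 2)⁻¹ := by
  unfold bxT
  have h1 : ∑ i ∈ range q, ∑ j ∈ range q, dl x (y + ((i : ZMod N), (j : ZMod N))) ≤ 1 := by
    rw [← Finset.sum_product']
    have h2 : ∀ p ∈ range q ×ˢ range q, dl x (y + ((p.1 : ZMod N), (p.2 : ZMod N))) =
        if p = ((x - y).1.val, (x - y).2.val) then (1 : ℝ) else 0 := by
      intro p hp
      rw [mem_product, mem_range, mem_range] at hp
      unfold dl
      have hiff : y + ((p.1 : ZMod N), (p.2 : ZMod N)) = x ↔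
          p = ((x - y).1.val, (x - y).2.val) := by
        constructor
        · intro h
          have h3 : ((p.1 : ZMod N), (p.2 : ZMod N)) = x - y := by rw [← h]; abel
          have h4 : (x - y).1.val = p.1 := by
            rw [← h3]
            exact ZMod.val_cast_of_lt (hp.1.trans_le hqN)
          have h5 : (x - y).2.val = p.2 := by
            rw [← h3]
            exact ZMod.val_cast_of_lt (hp.2.trans_le hqN)
          rw [h4, h5]
        · intro h
          rw [h]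
          simp only [ZMod.natCast_val, ZMod.cast_id', id_eq]
          exact add_sub_cancel y x
      simp only [hiff]
    rw [sum_congr rfl h2, Finset.sum_ite_eq']
    split_ifs <;> norm_num
  have h3 := mul_le_mul_of_nonneg_left h1 (by positivity : (0 : ℝ) ≤ ((q : ℝ) ^ 2)⁻¹)
  linarith

lemma sq_bxT_dl (hq : 0 < q) (hqN : q ≤ N) (x : V N) :
    ∑ y, bxT N q (dl x) y ^ 2 ≤ ((q : ℝ) ^ 2)⁻¹ := by
  have h1 : ∑ y, bxT N q (dl x) y = 1 := by
    rw [sum_bxT hq]
    have := sum_dl x fun _ => (1 : ℝ)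
    simpa using this
  calc ∑ y, bxT N q (dl x) y ^ 2 ≤ ∑ y, ((q : ℝ) ^ 2)⁻¹ * bxT N q (dl x) y := by
        refine sum_le_sum fun y _ => ?_
        rw [pow_two]
        exact mul_le_mul_of_nonneg_right (bxT_dl_le hqN x y) (bxT_dl_nonneg x y)
    _ = ((q : ℝ) ^ 2)⁻¹ := by rw [← mul_sum, h1, mul_one]

lemma sq_bxA (hq : 0 < q) (h : V N → ℝ) : ∑ x, bxA N q h x ^ 2 ≤ ∑ x, h x ^ 2 := by
  unfold bxA
  refine sum_sq_avg hq (fun (x : V N) i j => h (x - ((i : ZMod N), (j : ZMod N)))) fun i _ j _ => ?_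
  exact le_of_eq (Equiv.sum_comp (Equiv.subRight (((i : ZMod N), (j : ZMod N)) : V N))
    fun x => h x ^ 2)

/-- **one site** -/
theorem site_tT (hb : 0 < b) (ht : 0 < t) (x₀ : V N) (hq : 0 < q) (hqN : q ≤ N) (x : V N)
    {s : ℝ} (hs : 0 < s)
    (h1 : (t * (q : ℝ) ^ 2)⁻¹ + 64 * b * ((N : ℝ) / q) ^ 4 ≤ s ^ 2)
    (h2 : 32 * ((N : ℝ) / q) ^ 4 ≤ s ^ 2) (X : ℝ) :
    (nuM (wT b N) (t • (1 : Matrix (V N) (V N) ℝ)) x₀).real
      {F | X < |tT N q F x - ((N : ℝ) ^ 2)⁻¹ * ∑ y, F y|} ≤ 2 * Real.exp (-(X / (2 * s))) := by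
  have hq0 : (0 : ℝ) < q := by exact_mod_cast hq
  have hN : 0 < N := NeZero.pos N
  have hN0 : (0 : ℝ) < N := by exact_mod_cast hN
  set w := tT N q (dl x) with hw
  have hg : TM.H764.grd w ≤ 8 * ((q : ℝ) ^ 4)⁻¹ := by
    refine (grd_tT hq (dl x)).trans ?_
    refine (mul_le_mul_of_nonneg_left (sq_bxT_dl hq hqN x) (by positivity)).trans (le_of_eq ?_)
    rw [mul_assoc, ← mul_inv]
    ring
  have hw2 : ∑ y, w y ^ 2 ≤ ((q : ℝ) ^ 2)⁻¹ := by
    rw [hw, tT_eq]
    exact (sq_bxA hq _).trans (sq_bxT_dl hq hqN x)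
  have hu2 : ∑ y, (w y - tT N N w y) ^ 2 ≤ ((q : ℝ) ^ 2)⁻¹ := by
    refine le_trans ?_ hw2
    have e1 : ∑ y, (w y - tT N N w y) ^ 2 = ∑ y, w y ^ 2 - ((N : ℝ) ^ 2)⁻¹ * (∑ y, w y) ^ 2 := by
      simp only [tT_full, sub_sq, sum_add_distrib, sum_sub_distrib, sum_const, card_univ,
        nsmul_eq_mul]
      have e2 : ∑ y, 2 * w y * (((N : ℝ) ^ 2)⁻¹ * ∑ y, w y) =
          2 * ((N : ℝ) ^ 2)⁻¹ * (∑ y, w y) ^ 2 := by
        rw [← sum_mul, ← mul_sum]
        ring
      have e3 : (Fintype.card (V N) : ℝ) = (N : ℝ) ^ 2 := by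
        rw [Fintype.card_prod, ZMod.card]
        push_cast
        ring
      rw [e2, e3]
      field_simp
      ring
    rw [e1]
    have : 0 ≤ ((N : ℝ) ^ 2)⁻¹ * (∑ y, w y) ^ 2 := by positivity
    linarith
  have hj : ∑ e, jT N N w e ^ 2 ≤ 32 * ((N : ℝ) / q) ^ 4 := by
    refine (sq_jT hN w).trans ?_
    refine (mul_le_mul_of_nonneg_left hg (by positivity)).trans (le_of_eq ?_)
    rw [div_pow, div_eq_mul_inv]
    ring
  have h3 := lin_exp hb ht x₀ (fl_tT hN w) hs (by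
    have h4 : (∑ y, (w y - tT N N w y) ^ 2) / t ≤ (t * (q : ℝ) ^ 2)⁻¹ := by
      rw [div_le_iff₀ ht]
      refine hu2.trans (le_of_eq ?_)
      rw [mul_inv]
      field_simp
    have h5 := mul_le_mul_of_nonneg_left hj (by positivity : (0 : ℝ) ≤ 2 * b)
    have e : 2 * b * (32 * ((N : ℝ) / q) ^ 4) = 64 * b * ((N : ℝ) / q) ^ 4 := by ring
    rw [e] at h5
    linarith) (hj.trans h2) X
  have e : {F : V N → ℝ | X < |tT N q F x - ((N : ℝ) ^ 2)⁻¹ * ∑ y, F y|} =
      {F | X < |∑ y, (w y - tT N N w y) * F y|} := by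
    ext F
    have e1 : tT N q F x = ∑ y, w y * F y := by
      rw [hw, ← tT_dot, sum_dl]
    have e2 : ∑ y, w y = 1 := by
      rw [hw, sum_tT hq]
      have := sum_dl x fun _ => (1 : ℝ)
      simpa using this
    have e3 : ∑ y, (w y - tT N N w y) * F y = tT N q F x - ((N : ℝ) ^ 2)⁻¹ * ∑ y, F y := by
      simp only [tT_full, e2, mul_one, sub_mul, sum_sub_distrib, ← mul_sum]
      rw [e1]
    rw [Set.mem_ofPred_eq, Set.mem_ofPred_eq, e3]
  rw [e]
  exact h3

/-- **oscillation of the tent average** -/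
theorem osc_tT (hb : 0 < b) (ht : 0 < t) (x₀ : V N) (hq : 0 < q) (hqN : q ≤ N)
    {s : ℝ} (hs : 0 < s)
    (h1 : (t * (q : ℝ) ^ 2)⁻¹ + 64 * b * ((N : ℝ) / q) ^ 4 ≤ s ^ 2)
    (h2 : 32 * ((N : ℝ) / q) ^ 4 ≤ s ^ 2) (X : ℝ) :
    (nuM (wT b N) (t • (1 : Matrix (V N) (V N) ℝ)) x₀).real
      {F | ∃ x y, 2 * X < |tT N q F x - tT N q F y|} ≤
      2 * (N : ℝ) ^ 2 * Real.exp (-(X / (2 * s))) := by
  have hpr := H883.prob_nuM (H963.gw_wT (N := N) hb.le) (H883.bw_wT hb) (H883.mf_scalar ht) x₀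
  have hsub : {F : V N → ℝ | ∃ x y, 2 * X < |tT N q F x - tT N q F y|} ⊆
      ⋃ x ∈ (univ : Finset (V N)), {F | X < |tT N q F x - ((N : ℝ) ^ 2)⁻¹ * ∑ y, F y|} := by
    intro F hF
    obtain ⟨x, y, hxy⟩ := hF
    simp only [Set.mem_iUnion, Finset.mem_univ, exists_true_left, Set.mem_ofPred_eq]
    by_contra hc
    simp only [not_exists, not_lt] at hc
    have k1 := hc x
    have k2 := hc y
    have k3 := abs_sub_le (tT N q F x) (((N : ℝ) ^ 2)⁻¹ * ∑ y, F y) (tT N q F y)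
    rw [abs_sub_comm (((N : ℝ) ^ 2)⁻¹ * ∑ y, F y) (tT N q F y)] at k3
    linarith
  refine (measureReal_mono hsub (measure_ne_top _ _)).trans ?_
  refine (measureReal_biUnion_finset_le _ _).trans ?_
  refine (sum_le_sum fun x _ => site_tT hb ht x₀ hq hqN x hs h1 h2 X).trans (le_of_eq ?_)
  rw [sum_const, card_univ, nsmul_eq_mul, Fintype.card_prod, ZMod.card]
  push_cast
  ring

end

end Vale.Agent.P159.H663.Dr
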