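import Vale.Agent.P159.H276.Es1
import Vale.Agent.P159.H859.Gtr
import Vale.Agent.P159.H963.Core2

/-!
P159 (helper663), S, module DOOR (helper529, row 7216), law half, part 1: **the tent average** `tT`.

* `tT N q h x = q⁻² ∑_{i,j<q} bxT N q h (x - (i,j))` : moving box average and its adjoint, translation
  invariant, symmetric (`tT_dot`), preserves constants and sums;
* `ofP N q a` : projection on the cells with offset `a` (conjugate of `cellP`), `ofP_eq` (a box average);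
* `tT_avg` : **`tT` is the average of the `q²` projections `ofP`**;
* `poin_tT` : `∑ (h - tT h)² ≤ 16 q² grd h`; `sq_tT` : `∑ (tT h)² ≤ ∑ h²`;
* `RF_tT` : `RF (c (F - tT F)) ≤ q⁻² ∑_a RF (c (1 - cellP) (F shifted by a))`.
-/

open Finset Matrix

namespace Vale.Agent.P159.H663.Dr

open Vale.Agent.P159.TM.Spec (V)
open Vale.Agent.P159.H37 (cellP)
open Vale.Agent.P159.H864 (cl cl1 cellP_mulVec)
open Vale.Agent.P159.H276 (bxT bxT_add bxT_smul bxT_neg bxT_sub bxT_const bxT_addc sum_bxT)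
open Vale.Agent.P159.H963.Core (RF RF_convex RF_tr)

noncomputable section

variable {N q : ℕ} [NeZero N]

/-- the tent average -/
def tT (N q : ℕ) [NeZero N] (h : V N → ℝ) (x : V N) : ℝ :=
  ((q : ℝ) ^ 2)⁻¹ * ∑ i ∈ range q, ∑ j ∈ range q, bxT N q h (x - ((i : ZMod N), (j : ZMod N)))

/-- the projection on the cells with offset `a` -/
def ofP (N q : ℕ) [NeZero N] (a : V N) (h : V N → ℝ) (x : V N) : ℝ :=
  (cellP N q *ᵥ fun y => h (y - a)) (x + a)

/-! ### cells as boxes -/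

/-- sums over a complete system of residues -/
lemma sum_mod (hq : 0 < q) (v : ℕ) (g : ℕ → ℝ) :
    ∑ i ∈ range q, g ((v + i) % q) = ∑ i ∈ range q, g i := by
  have hinj : Set.InjOn (fun i => (v + i) % q) (range q : Set ℕ) := by
    intro i hi j hj h
    rw [Finset.coe_range, Set.mem_Iio] at hi hj
    have h1 : (v + i) ≡ (v + j) [MOD q] := h
    have h2 : i ≡ j [MOD q] := Nat.ModEq.add_left_cancel' v h1
    have h3 : i % q = j % q := h2
    rwa [Nat.mod_eq_of_lt hi, Nat.mod_eq_of_lt hj] at h3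
  have himg : (range q).image (fun i => (v + i) % q) = range q := by
    apply Finset.eq_of_subset_of_card_le
    · intro i hi
      rw [Finset.mem_image] at hi
      obtain ⟨j, -, rfl⟩ := hi
      exact Finset.mem_range.2 (Nat.mod_lt _ hq)
    · rw [Finset.card_image_of_injOn hinj]
  have h1 := Finset.sum_image (f := g) (fun i hi j hj h => hinj hi hj h)
  rw [himg] at h1
  exact h1.symm

/-- one coordinate of a cell -/
lemma sum_cell1 (hq : 0 < q) (hd : q ∣ N) [NeZero (N / q)] (f : ZMod N → ℝ) (z : ZMod N) :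
    ∑ y ∈ univ.filter (fun y : ZMod N => (cl1 y : ZMod (N / q)) = cl1 z), f y =
      ∑ i ∈ range q, f (z - ((z.val % q : ℕ) : ZMod N) + (i : ZMod N)) := by
  have hz : z - ((z.val % q : ℕ) : ZMod N) = ((z.val / q * q : ℕ) : ZMod N) := by
    have h1 := Nat.div_add_mod' z.val q
    have h2 : ((z.val : ℕ) : ZMod N) = z := ZMod.natCast_zmod_val z
    have h3 : ((z.val / q * q + z.val % q : ℕ) : ZMod N) = z := by rw [h1, h2]
    push_cast at h3 ⊢
    linear_combination -h3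
  have hlt : ∀ i < q, z.val / q * q + i < N := by
    intro i hi
    obtain ⟨m, hm⟩ := hd
    have h0 : z.val < m * q := by
      have := ZMod.val_lt z
      rw [mul_comm m q, ← hm]
      exact this
    have h1 : z.val / q < m := by
      rw [Nat.div_lt_iff_lt_mul hq]
      exact h0
    have h2 : (z.val / q + 1) * q ≤ m * q := Nat.mul_le_mul_right q h1
    rw [add_mul, one_mul, mul_comm m q, ← hm] at h2
    omega
  have hval : ∀ i < q, (((z.val / q * q + i : ℕ) : ZMod N)).val = z.val / q * q + i :=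
    fun i hi => ZMod.val_cast_of_lt (hlt i hi)
  have hcl : ∀ y : ZMod N, (cl1 y : ZMod (N / q)) = cl1 z ↔ y.val / q = z.val / q := by
    intro y
    constructor
    · intro h
      have := congrArg ZMod.val h
      rwa [H864.cl1_val hd, H864.cl1_val hd] at this
    · intro h
      unfold cl1
      rw [h]
  symm
  refine Finset.sum_bij (fun i _ => ((z.val / q * q + i : ℕ) : ZMod N)) ?_ ?_ ?_ ?_
  · intro i hi
    rw [Finset.mem_range] at hi
    rw [Finset.mem_filter, hcl, hval i hi]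
    refine ⟨Finset.mem_univ _, ?_⟩
    rw [mul_comm, Nat.mul_add_div hq, Nat.div_eq_of_lt hi, add_zero]
  · intro i hi j hj h
    rw [Finset.mem_range] at hi hj
    have := congrArg ZMod.val h
    rw [hval i hi, hval j hj] at this
    omega
  · intro y hy
    rw [Finset.mem_filter, hcl] at hy
    refine ⟨y.val % q, Finset.mem_range.2 (Nat.mod_lt _ hq), ?_⟩
    rw [← hy.2, Nat.div_add_mod', ZMod.natCast_zmod_val]
  · intro i _
    rw [hz]
    push_cast
    rfl

/-- the projection on the cells is a box average at the corner -/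
lemma cellP_box (hq : 0 < q) (hd : q ∣ N) (u : V N → ℝ) (z : V N) :
    (cellP N q *ᵥ u) z =
      bxT N q u (z - (((z.1.val % q : ℕ) : ZMod N), ((z.2.val % q : ℕ) : ZMod N))) := by
  have : NeZero (N / q) := ⟨(Nat.div_pos (Nat.le_of_dvd (NeZero.pos N) hd) hq).ne'⟩
  rw [cellP_mulVec hd]
  unfold bxT
  congr 1
  have h1 : ∑ y ∈ univ.filter (fun y : V N => (cl y : V (N / q)) = cl z), u y =
      ∑ a ∈ univ.filter (fun a : ZMod N => (cl1 a : ZMod (N / q)) = cl1 z.1),
        ∑ c ∈ univ.filter (fun c : ZMod N => (cl1 c : ZMod (N / q)) = cl1 z.2), u (a, c) := by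
    rw [← Finset.sum_product']
    refine Finset.sum_congr ?_ fun _ _ => rfl
    ext y
    simp only [Finset.mem_filter, Finset.mem_univ, true_and, Finset.mem_product, cl, Prod.mk.injEq]
  rw [h1, sum_cell1 hq hd (fun a => ∑ c ∈ univ.filter (fun c : ZMod N =>
    (cl1 c : ZMod (N / q)) = cl1 z.2), u (a, c)) z.1]
  refine Finset.sum_congr rfl fun i _ => ?_
  rw [sum_cell1 hq hd (fun c => u (z.1 - ((z.1.val % q : ℕ) : ZMod N) + (i : ZMod N), c)) z.2]
  rfl

lemma bxT_shift (h : V N → ℝ) (a x : V N) : bxT N q (fun y => h (y - a)) x = bxT N q h (x - a) := by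
  unfold bxT
  congr 1
  refine Finset.sum_congr rfl fun i _ => Finset.sum_congr rfl fun j _ => ?_
  show h (x + ((i : ZMod N), (j : ZMod N)) - a) = h (x - a + ((i : ZMod N), (j : ZMod N)))
  rw [add_sub_right_comm]

lemma ofP_eq (hq : 0 < q) (hd : q ∣ N) (a : V N) (h : V N → ℝ) (x : V N) :
    ofP N q a h x = bxT N q h (x - ((((x + a).1.val % q : ℕ) : ZMod N),
      (((x + a).2.val % q : ℕ) : ZMod N))) := by
  unfold ofP
  rw [cellP_box hq hd, bxT_shift]
  congr 1
  rw [add_sub_right_comm, add_sub_cancel_right]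

lemma val_add_mod (hd : q ∣ N) (x : ZMod N) (i : ℕ) : (x + (i : ZMod N)).val % q = (x.val + i) % q := by
  rw [ZMod.val_add, ZMod.val_natCast, Nat.mod_mod_of_dvd _ hd, Nat.add_mod, Nat.mod_mod_of_dvd _ hd,
    ← Nat.add_mod]

/-- **the tent average is the average of the projections** -/
theorem tT_avg (hq : 0 < q) (hd : q ∣ N) (h : V N → ℝ) (x : V N) :
    tT N q h x = ((q : ℝ) ^ 2)⁻¹ * ∑ i ∈ range q, ∑ j ∈ range q,
      ofP N q ((i : ZMod N), (j : ZMod N)) h x := by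
  unfold tT
  congr 1
  have h1 : ∀ i j : ℕ, ofP N q ((i : ZMod N), (j : ZMod N)) h x =
      bxT N q h (x - ((((x.1.val + i) % q : ℕ) : ZMod N), (((x.2.val + j) % q : ℕ) : ZMod N))) := by
    intro i j
    rw [ofP_eq hq hd]
    have e1 : (x + ((i : ZMod N), (j : ZMod N))).1 = x.1 + (i : ZMod N) := rfl
    have e2 : (x + ((i : ZMod N), (j : ZMod N))).2 = x.2 + (j : ZMod N) := rfl
    rw [e1, e2, val_add_mod hd, val_add_mod hd]
  simp only [h1]
  rw [sum_mod hq x.1.val (fun i => ∑ j ∈ range q,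
    bxT N q h (x - ((i : ZMod N), (((x.2.val + j) % q : ℕ) : ZMod N))))]
  refine Finset.sum_congr rfl fun i _ => ?_
  rw [sum_mod hq x.2.val (fun j => bxT N q h (x - ((i : ZMod N), (j : ZMod N))))]

/-! ### simple properties -/

lemma tT_add (h g : V N → ℝ) : tT N q (h + g) = tT N q h + tT N q g := by
  funext x
  simp only [tT, bxT_add, Pi.add_apply, sum_add_distrib, mul_add]

lemma tT_smul (s : ℝ) (h : V N → ℝ) : tT N q (s • h) = s • tT N q h := by
  funext x
  simp only [tT, bxT_smul, Pi.smul_apply, smul_eq_mul, ← mul_sum]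
  ring

lemma tT_neg (h : V N → ℝ) : tT N q (-h) = -tT N q h := by
  funext x
  simp only [tT, bxT_neg, Pi.neg_apply, sum_neg_distrib, mul_neg]

lemma tT_sub (h g : V N → ℝ) : tT N q (h - g) = tT N q h - tT N q g := by
  rw [sub_eq_add_neg, tT_add, tT_neg, sub_eq_add_neg]

lemma tT_const (hq : 0 < q) (c : ℝ) : tT N q (fun _ => c) = fun _ => c := by
  funext x
  have hq0 : (q : ℝ) ≠ 0 := by
    have : (0 : ℝ) < q := by exact_mod_cast hq
    exact this.ne'
  simp only [tT, bxT_const hq, sum_const, card_range, nsmul_eq_mul]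
  field_simp

lemma tT_addc (hq : 0 < q) (h : V N → ℝ) (c : ℝ) :
    tT N q (fun x => h x + c) = fun x => tT N q h x + c := by
  have e : (fun x => h x + c) = h + fun _ => c := rfl
  rw [e, tT_add, tT_const hq]
  rfl

/-- translation invariance -/
lemma tT_tr (h : V N → ℝ) (a : V N) : tT N q (fun x => h (x + a)) = fun x => tT N q h (x + a) := by
  have h1 : ∀ x, bxT N q (fun y => h (y + a)) x = bxT N q h (x + a) := by
    intro x
    have := bxT_shift (q := q) h (-a) x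
    simpa only [sub_neg_eq_add] using this
  funext x
  simp only [tT, h1]
  congr 1
  refine Finset.sum_congr rfl fun i _ => Finset.sum_congr rfl fun j _ => ?_
  congr 1
  abel

lemma sum_tT (hq : 0 < q) (h : V N → ℝ) : ∑ x, tT N q h x = ∑ x, h x := by
  have hq0 : (q : ℝ) ≠ 0 := by
    have : (0 : ℝ) < q := by exact_mod_cast hq
    exact this.ne'
  unfold tT
  rw [← mul_sum, sum_comm]
  have e : ∀ i ∈ range q, ∑ x : V N, ∑ j ∈ range q, bxT N q h (x - ((i : ZMod N), (j : ZMod N))) =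
      q * ∑ x, h x := by
    intro i _
    rw [sum_comm]
    have e1 : ∀ j ∈ range q, ∑ x : V N, bxT N q h (x - ((i : ZMod N), (j : ZMod N))) =
        ∑ x, h x := fun j _ => by
      have e0 : ∑ x : V N, bxT N q h (x - ((i : ZMod N), (j : ZMod N))) = ∑ x, bxT N q h x :=
        Equiv.sum_comp (Equiv.subRight (((i : ZMod N), (j : ZMod N)) : V N)) (bxT N q h)
      rw [e0]
      exact sum_bxT hq h
    rw [sum_congr rfl e1, sum_const, card_range, nsmul_eq_mul]
  rw [sum_congr rfl e, sum_const, card_range, nsmul_eq_mul]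
  field_simp

/-- the adjoint of the box average -/
lemma bxT_dot (u h : V N → ℝ) : ∑ x, u x * bxT N q h x =
    ∑ x, (((q : ℝ) ^ 2)⁻¹ * ∑ i ∈ range q, ∑ j ∈ range q, u (x - ((i : ZMod N), (j : ZMod N)))) *
      h x := by
  have h1 : ∀ x, u x * bxT N q h x = ∑ i ∈ range q, ∑ j ∈ range q,
      ((q : ℝ) ^ 2)⁻¹ * (u x * h (x + ((i : ZMod N), (j : ZMod N)))) := by
    intro x
    unfold bxT
    rw [mul_left_comm, mul_sum, mul_sum]
    refine Finset.sum_congr rfl fun i _ => ?_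
    rw [mul_sum, mul_sum]
  have h2 : ∀ x, (((q : ℝ) ^ 2)⁻¹ * ∑ i ∈ range q, ∑ j ∈ range q,
      u (x - ((i : ZMod N), (j : ZMod N)))) * h x = ∑ i ∈ range q, ∑ j ∈ range q,
      ((q : ℝ) ^ 2)⁻¹ * (u (x - ((i : ZMod N), (j : ZMod N))) * h x) := by
    intro x
    rw [mul_assoc, sum_mul, mul_sum]
    refine Finset.sum_congr rfl fun i _ => ?_
    rw [sum_mul, mul_sum]
  simp only [h1, h2]
  rw [sum_comm]
  conv_rhs => rw [sum_comm]
  refine Finset.sum_congr rfl fun i _ => ?_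
  rw [sum_comm]
  conv_rhs => rw [sum_comm]
  refine Finset.sum_congr rfl fun j _ => ?_
  rw [← mul_sum, ← mul_sum]
  congr 1
  have e0 : ∑ x : V N, u (x - ((i : ZMod N), (j : ZMod N))) *
      h ((x - ((i : ZMod N), (j : ZMod N))) + ((i : ZMod N), (j : ZMod N))) =
      ∑ x, u x * h (x + ((i : ZMod N), (j : ZMod N))) :=
    Equiv.sum_comp (Equiv.subRight (((i : ZMod N), (j : ZMod N)) : V N))
      fun x => u x * h (x + ((i : ZMod N), (j : ZMod N)))
  rw [← e0]
  refine Finset.sum_congr rfl fun x _ => ?_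
  rw [sub_add_cancel]

/-- the adjoint box average -/
def bxA (N q : ℕ) [NeZero N] (h : V N → ℝ) (x : V N) : ℝ :=
  ((q : ℝ) ^ 2)⁻¹ * ∑ i ∈ range q, ∑ j ∈ range q, h (x - ((i : ZMod N), (j : ZMod N)))

lemma tT_eq (h : V N → ℝ) : tT N q h = bxA N q (bxT N q h) := rfl

lemma bxA_dot (u h : V N → ℝ) : ∑ x, u x * bxT N q h x = ∑ x, bxA N q u x * h x := bxT_dot u h

lemma bx_comm (h : V N → ℝ) : bxA N q (bxT N q h) = bxT N q (bxA N q h) := by
  funext x
  unfold bxA bxT
  simp only [mul_sum]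
  have h1 : ∀ F : ℕ → ℕ → ℕ → ℕ → ℝ, ∑ i ∈ range q, ∑ j ∈ range q, ∑ i' ∈ range q,
      ∑ j' ∈ range q, F i j i' j' = ∑ i' ∈ range q, ∑ j' ∈ range q, ∑ i ∈ range q,
      ∑ j ∈ range q, F i j i' j' := by
    intro F
    have e1 : ∀ i, ∑ j ∈ range q, ∑ i' ∈ range q, ∑ j' ∈ range q, F i j i' j' =
        ∑ i' ∈ range q, ∑ j' ∈ range q, ∑ j ∈ range q, F i j i' j' := by
      intro i
      rw [sum_comm]
      refine Finset.sum_congr rfl fun i' _ => sum_comm
    simp only [e1]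
    rw [sum_comm]
    refine Finset.sum_congr rfl fun i' _ => ?_
    rw [sum_comm]
  rw [h1]
  refine Finset.sum_congr rfl fun i _ => Finset.sum_congr rfl fun j _ =>
    Finset.sum_congr rfl fun i' _ => Finset.sum_congr rfl fun j' _ => ?_
  have e : x - ((i' : ZMod N), (j' : ZMod N)) + ((i : ZMod N), (j : ZMod N)) =
      x + ((i : ZMod N), (j : ZMod N)) - ((i' : ZMod N), (j' : ZMod N)) := by abel
  rw [e]

/-- **symmetry** -/
theorem tT_dot (u h : V N → ℝ) : ∑ x, u x * tT N q h x = ∑ x, tT N q u x * h x := by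
  rw [tT_eq, bx_comm, bxA_dot]
  have h1 : ∑ x, bxA N q u x * bxA N q h x = ∑ x, bxA N q h x * bxA N q u x :=
    Finset.sum_congr rfl fun x _ => mul_comm _ _
  rw [h1]
  have h2 := bxA_dot (q := q) h (bxA N q u)
  rw [← h2, ← bx_comm]
  exact Finset.sum_congr rfl fun x _ => mul_comm _ _

/-! ### norms -/

lemma sq_avg (hq : 0 < q) (f : ℕ → ℕ → ℝ) :
    (((q : ℝ) ^ 2)⁻¹ * ∑ i ∈ range q, ∑ j ∈ range q, f i j) ^ 2 ≤
      ((q : ℝ) ^ 2)⁻¹ * ∑ i ∈ range q, ∑ j ∈ range q, f i j ^ 2 := by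
  have hq0 : (0 : ℝ) < q := by exact_mod_cast hq
  have h1 : (∑ p ∈ range q ×ˢ range q, f p.1 p.2) ^ 2 ≤
      ((range q ×ˢ range q).card : ℝ) * ∑ p ∈ range q ×ˢ range q, f p.1 p.2 ^ 2 :=
    sq_sum_le_card_mul_sum_sq
  rw [Finset.card_product, Finset.card_range, Finset.sum_product, Finset.sum_product] at h1
  push_cast at h1
  rw [mul_pow]
  calc (((q : ℝ) ^ 2)⁻¹) ^ 2 * (∑ i ∈ range q, ∑ j ∈ range q, f i j) ^ 2
      ≤ (((q : ℝ) ^ 2)⁻¹) ^ 2 * (((q : ℝ) * q) * ∑ i ∈ range q, ∑ j ∈ range q, f i j ^ 2) :=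
        mul_le_mul_of_nonneg_left h1 (by positivity)
    _ = _ := by field_simp

/-- Jensen for averages over the offsets -/
lemma sum_sq_avg (hq : 0 < q) (f : V N → ℕ → ℕ → ℝ) {B : ℝ}
    (hB : ∀ i ∈ range q, ∀ j ∈ range q, ∑ x, f x i j ^ 2 ≤ B) :
    ∑ x, (((q : ℝ) ^ 2)⁻¹ * ∑ i ∈ range q, ∑ j ∈ range q, f x i j) ^ 2 ≤ B := by
  have hq0 : (0 : ℝ) < q := by exact_mod_cast hq
  calc ∑ x, (((q : ℝ) ^ 2)⁻¹ * ∑ i ∈ range q, ∑ j ∈ range q, f x i j) ^ 2
      ≤ ∑ x, ((q : ℝ) ^ 2)⁻¹ * ∑ i ∈ range q, ∑ j ∈ range q, f x i j ^ 2 :=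
        Finset.sum_le_sum fun x _ => sq_avg hq _
    _ = ((q : ℝ) ^ 2)⁻¹ * ∑ i ∈ range q, ∑ j ∈ range q, ∑ x, f x i j ^ 2 := by
        rw [← mul_sum, sum_comm]
        congr 1
        refine Finset.sum_congr rfl fun i _ => sum_comm
    _ ≤ ((q : ℝ) ^ 2)⁻¹ * ∑ i ∈ range q, ∑ j ∈ range q, B := by
        refine mul_le_mul_of_nonneg_left (Finset.sum_le_sum fun i hi => Finset.sum_le_sum
          fun j hj => hB i hi j hj) (by positivity)
    _ = B := by
        simp only [sum_const, card_range, nsmul_eq_mul]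
        field_simp

lemma avg_const (hq : 0 < q) (c : ℝ) :
    ((q : ℝ) ^ 2)⁻¹ * ∑ _i ∈ range q, ∑ _j ∈ range q, c = c := by
  have hq0 : (0 : ℝ) < q := by exact_mod_cast hq
  simp only [sum_const, card_range, nsmul_eq_mul]
  field_simp

lemma sub_avg (hq : 0 < q) (c : ℝ) (f : ℕ → ℕ → ℝ) :
    c - ((q : ℝ) ^ 2)⁻¹ * ∑ i ∈ range q, ∑ j ∈ range q, f i j =
      ((q : ℝ) ^ 2)⁻¹ * ∑ i ∈ range q, ∑ j ∈ range q, (c - f i j) := by
  simp only [sum_sub_distrib, mul_sub]
  rw [avg_const hq c]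

lemma grd_shift (h : V N → ℝ) (a : V N) : TM.H764.grd (fun x => h (x - a)) = TM.H764.grd h := by
  rw [← H864.qf_lapM, ← H864.qf_lapM]
  have := H963.Core.qf_tr (H864.ti_lapM (N := N)) (-a) h
  simpa only [← sub_eq_add_neg] using this

/-- **Poincare inequality for the tent average** -/
theorem poin_tT (hq : 0 < q) (hd : q ∣ N) (h : V N → ℝ) :
    ∑ x, (h x - tT N q h x) ^ 2 ≤ 16 * (q : ℝ) ^ 2 * TM.H764.grd h := by
  have : NeZero (N / q) := ⟨(Nat.div_pos (Nat.le_of_dvd (NeZero.pos N) hd) hq).ne'⟩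
  simp only [tT_avg hq hd, sub_avg hq]
  refine sum_sq_avg hq _ fun i _ j _ => ?_
  set a : V N := ((i : ZMod N), (j : ZMod N)) with ha
  have h1 := H859.poin_cellP hd (fun y => h (y - a))
  rw [grd_shift] at h1
  refine le_trans (le_of_eq ?_) h1
  rw [← Equiv.sum_comp (Equiv.addRight a) fun x => ((fun y => h (y - a)) x -
    (cellP N q *ᵥ fun y => h (y - a)) x) ^ 2]
  refine Finset.sum_congr rfl fun x _ => ?_
  simp only [Equiv.coe_addRight, add_sub_cancel_right]
  rfl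

lemma sq_cellP (hq : 0 < q) (hd : q ∣ N) (h : V N → ℝ) :
    ∑ x, (cellP N q *ᵥ h) x ^ 2 ≤ ∑ x, h x ^ 2 := by
  have : NeZero (N / q) := ⟨(Nat.div_pos (Nat.le_of_dvd (NeZero.pos N) hd) hq).ne'⟩
  have h1 : ∀ g : V N → ℝ, ∑ x, g x ^ 2 = g ⬝ᵥ g := fun g =>
    Finset.sum_congr rfl fun x _ => pow_two _
  set P := cellP N q with hP
  have hT : Pᵀ = P := H864.cellP_tr N q
  have hI : P * P = P := H864.cellP_mul_self hd
  have h2 : (P *ᵥ h) ⬝ᵥ (P *ᵥ h) = h ⬝ᵥ (P *ᵥ h) := by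
    rw [Matrix.dotProduct_mulVec, ← Matrix.mulVec_transpose, hT, Matrix.mulVec_mulVec, hI,
      dotProduct_comm]
  have h3 : 0 ≤ (h - P *ᵥ h) ⬝ᵥ (h - P *ᵥ h) := by
    rw [← h1]
    positivity
  rw [sub_dotProduct, dotProduct_sub, dotProduct_sub, h2, dotProduct_comm (P *ᵥ h) h] at h3
  rw [h1, h1, h2]
  linarith

/-- **contraction** -/
theorem sq_tT (hq : 0 < q) (hd : q ∣ N) (h : V N → ℝ) : ∑ x, tT N q h x ^ 2 ≤ ∑ x, h x ^ 2 := by
  simp only [tT_avg hq hd]
  refine sum_sq_avg hq _ fun i _ j _ => ?_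
  set a : V N := ((i : ZMod N), (j : ZMod N)) with ha
  have h1 := sq_cellP hq hd (fun y => h (y - a))
  refine le_trans (le_of_eq ?_) (h1.trans (le_of_eq ?_))
  · rw [← Equiv.sum_comp (Equiv.addRight a) fun x => (cellP N q *ᵥ fun y => h (y - a)) x ^ 2]
    rfl
  · rw [← Equiv.sum_comp (Equiv.subRight a) fun x => h x ^ 2]
    rfl

/-! ### the remainder -/

/-- convexity over the offsets -/
lemma RF_avg {b t : ℝ} (hb : 0 < b) (ht : 0 < t) (hq : 0 < q) (f : ℕ → ℕ → V N → ℝ) :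
    RF N b t (fun x => ((q : ℝ) ^ 2)⁻¹ * ∑ i ∈ range q, ∑ j ∈ range q, f i j x) ≤
      ((q : ℝ) ^ 2)⁻¹ * ∑ i ∈ range q, ∑ j ∈ range q, RF N b t (f i j) := by
  have hq0 : (0 : ℝ) < q := by exact_mod_cast hq
  have hw : ∑ _p ∈ range q ×ˢ range q, ((q : ℝ) ^ 2)⁻¹ = 1 := by
    rw [sum_const, card_product, card_range, nsmul_eq_mul]
    push_cast
    field_simp
  have h1 := (RF_convex (N := N) hb ht).map_sum_le (t := range q ×ˢ range q)
    (w := fun _ => ((q : ℝ) ^ 2)⁻¹) (p := fun p => f p.1 p.2) (fun _ _ => by positivity) hw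
    fun _ _ => Set.mem_univ _
  simp only [smul_eq_mul] at h1
  rw [Finset.sum_product, Finset.sum_product] at h1
  simp only [← mul_sum] at h1
  refine le_trans (le_of_eq ?_) h1
  congr 1
  funext x
  simp only [Finset.sum_apply, Pi.smul_apply, smul_eq_mul, ← mul_sum]

/-- **the remainder of the rough part `F - tT F`** -/
theorem RF_tT {b t : ℝ} (hb : 0 < b) (ht : 0 < t) (hq : 0 < q) (hd : q ∣ N) (c : ℝ)
    (F : V N → ℝ) :
    RF N b t (c • (F - tT N q F)) ≤ ((q : ℝ) ^ 2)⁻¹ * ∑ i ∈ range q, ∑ j ∈ range q,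
      RF N b t (c • ((1 - cellP N q) *ᵥ fun y => F (y - ((i : ZMod N), (j : ZMod N))))) := by
  have h1 : c • (F - tT N q F) = fun x => ((q : ℝ) ^ 2)⁻¹ * ∑ i ∈ range q, ∑ j ∈ range q,
      (fun (i j : ℕ) (x : V N) => c * (F x - ofP N q ((i : ZMod N), (j : ZMod N)) F x)) i j x := by
    funext x
    simp only [Pi.smul_apply, Pi.sub_apply, smul_eq_mul, ← mul_sum, tT_avg hq hd, sub_avg hq]
    ring
  rw [h1]
  refine (RF_avg hb ht hq _).trans (le_of_eq ?_)
  congr 1
  refine Finset.sum_congr rfl fun i _ => Finset.sum_congr rfl fun j _ => ?_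
  set a : V N := ((i : ZMod N), (j : ZMod N)) with ha
  have h2 := RF_tr hb ht a (c • ((1 - cellP N q) *ᵥ fun y => F (y - a)))
  rw [← h2]
  have e : (fun x => c * (F x - ofP N q a F x)) =
      fun x => (c • ((1 - cellP N q) *ᵥ fun y => F (y - a))) (x + a) := by
    funext x
    simp only [Pi.smul_apply, smul_eq_mul, Matrix.sub_mulVec, Matrix.one_mulVec, Pi.sub_apply,
      add_sub_cancel_right, ofP]
  rw [← e]

/-- the same for the coarse part -/
theorem RF_tT' {b t : ℝ} (hb : 0 < b) (ht : 0 < t) (hq : 0 < q) (hd : q ∣ N) (c : ℝ)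
    (F : V N → ℝ) :
    RF N b t (c • tT N q F) ≤ ((q : ℝ) ^ 2)⁻¹ * ∑ i ∈ range q, ∑ j ∈ range q,
      RF N b t (c • (cellP N q *ᵥ fun y => F (y - ((i : ZMod N), (j : ZMod N))))) := by
  have h1 : c • tT N q F = fun x => ((q : ℝ) ^ 2)⁻¹ * ∑ i ∈ range q, ∑ j ∈ range q,
      (fun (i j : ℕ) (x : V N) => c * ofP N q ((i : ZMod N), (j : ZMod N)) F x) i j x := by
    funext x
    simp only [Pi.smul_apply, smul_eq_mul, ← mul_sum, tT_avg hq hd]
    ring
  have h3 := RF_avg (N := N) hb ht hq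
    (fun (i j : ℕ) (x : V N) => c * ofP N q ((i : ZMod N), (j : ZMod N)) F x)
  rw [← h1] at h3
  have h4 : ∀ i j : ℕ, RF N b t (fun (x : V N) => c * ofP N q ((i : ZMod N), (j : ZMod N)) F x) =
      RF N b t (c • (cellP N q *ᵥ fun y => F (y - ((i : ZMod N), (j : ZMod N))))) := by
    intro i j
    set a : V N := ((i : ZMod N), (j : ZMod N)) with ha
    have h2 := RF_tr hb ht a (c • (cellP N q *ᵥ fun y => F (y - a)))
    rw [← h2]
    have e : (fun x => c * ofP N q a F x) =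
        fun x => (c • (cellP N q *ᵥ fun y => F (y - a))) (x + a) := by
      funext x
      simp only [Pi.smul_apply, smul_eq_mul, ofP]
    rw [← e]
  simp only [h4] at h3
  exact h3

end

end Vale.Agent.P159.H663.Dr
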