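import Vale.Agent.P159.H663.Drl2
import Vale.Agent.P159.H447.Sit11
import Vale.Agent.P159.H856.Dl6

/-!
P159 (helper663), S, module DOOR, law half, part 5: **the event of the door**.

`F1 N q g F = tT N q (F + g) - g` (`g` a fixed real field). `DG` : the four conditions of
helper529's `door_nu` for the pair `F`, `F1 F`. `meas_DG`, `door_law_g` : probability of the
complement.
-/

set_option linter.unusedSectionVars false

open Finset Matrix MeasureTheory

namespace Vale.Agent.P159.H663.Dr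

open Vale.Agent.P159.TM.Spec (V)
open Vale.Agent.P159.TM.SpecC (Tor wT)
open Vale.Agent.P159.H37 (cellP Rs qf)
open Vale.Agent.P159.H963 (Anm)
open Vale.Agent.P159.H963.Core (RF RF_nonneg RF_convex)
open Vale.Agent.P159.H447 (door_RF cont_RF cont_tT markov_S nuS prob_nuS)
open Vale.Agent.P159.H770 (Ed eS eT)

noncomputable section

variable {N q : ℕ} [NeZero N] {b t : ℝ}

/-- `R ≤ t |F|² / 2` -/
lemma RF_mass (hb : 0 < b) (ht : 0 < t) (F : V N → ℝ) : RF N b t F ≤ t / 2 * ∑ x, F x ^ 2 := by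
  have h1 := H817.EZ_gr (N := N) hb ht F
  have h2 := H856.Dl.qf_Anm_le_mass (N := N) hb ht F
  have hM := H883.mf_scalar (N := N) ht
  have hw := H770.gwf_wTD (N := N) hb
  have h3 : 0 ≤ H817.EZ N b t (H817.gr F) := by
    have e1 : H817.EZ N b t (H817.gr F) =
        H37.Un (wT b N) (t • (1 : Matrix (V N) (V N) ℝ)) F := by
      unfold H817.EZ H37.Un
      rw [H817.gr_eF, H817.zero_eF, H817.ZE_eF hb, H817.ZE_eF hb, H770.wTD_zero]
    rw [e1]
    exact (H963.gw_wT hb.le).Un_nonneg hM F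
  unfold H963.Core.RF
  linarith

/-- the middle -/
lemma RF_half (hb : 0 < b) (ht : 0 < t) (F G : V N → ℝ) :
    RF N b t (F + G) ≤ (RF N b t ((2 : ℝ) • F) + RF N b t ((2 : ℝ) • G)) / 2 := by
  have h := (RF_convex (N := N) hb ht).2 (Set.mem_univ ((2 : ℝ) • F)) (Set.mem_univ ((2 : ℝ) • G))
    (show (0 : ℝ) ≤ 1 / 2 by norm_num) (show (0 : ℝ) ≤ 1 / 2 by norm_num) (by norm_num)
  have e : (1 / 2 : ℝ) • (2 : ℝ) • F + (1 / 2 : ℝ) • (2 : ℝ) • G = F + G := by
    rw [smul_smul, smul_smul]; norm_num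
  rw [e, smul_eq_mul, smul_eq_mul] at h
  linarith

/-- the fixed field: `R` -/
lemma RF_fix (hb : 0 < b) (ht : 0 < t) (hq : 0 < q) (hd : q ∣ N) (c : ℝ) (g : V N → ℝ) :
    RF N b t (c • (g - tT N q g)) ≤ 8 * c ^ 2 * (t * (q : ℝ) ^ 2) * TM.H764.grd g := by
  refine (RF_mass hb ht _).trans ?_
  have e : ∑ x, (c • (g - tT N q g)) x ^ 2 = c ^ 2 * ∑ x, (g x - tT N q g x) ^ 2 := by
    rw [mul_sum]
    refine sum_congr rfl fun x _ => ?_
    simp only [Pi.smul_apply, Pi.sub_apply, smul_eq_mul, mul_pow]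
  rw [e]
  have h1 := mul_le_mul_of_nonneg_left (poin_tT hq hd g)
    (by positivity : (0 : ℝ) ≤ t / 2 * c ^ 2)
  rw [← mul_assoc]
  refine h1.trans (le_of_eq ?_)
  ring

lemma sum_dg (g : V N → ℝ) : ∑ e : Ed N, (g (eT N e) - g (eS N e)) ^ 2 = TM.H764.grd g := by
  rw [Fintype.sum_prod_type]
  simp only [Fintype.sum_bool]
  rw [sum_add_distrib]
  unfold TM.H764.grd TM.H764.Q
  rw [add_comm]
  rfl

lemma grd_nonneg' (g : V N → ℝ) : 0 ≤ TM.H764.grd g := by
  rw [← sum_dg]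
  positivity

/-- the fixed field: the linear functional -/
lemma ln_fix (hq : 0 < q) (w g : V N → ℝ) :
    |∑ y, w y * (g y - tT N q g y)| ≤
      2 * (q : ℝ) ^ 2 * Real.sqrt (TM.H764.grd w * TM.H764.grd g) := by
  have e1 : ∑ y, w y * (g y - tT N q g y) = ∑ y, (w y - tT N q w y) * g y := by
    simp only [mul_sub, sub_mul, sum_sub_distrib, tT_dot]
  rw [e1, fl_tT hq w g]
  have h1 := Finset.sum_mul_sq_le_sq_mul_sq univ (jT N q w)
    fun e : Ed N => g (eT N e) - g (eS N e)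
  rw [sum_dg] at h1
  have h2 : (∑ e : Ed N, jT N q w e * (g (eT N e) - g (eS N e))) ^ 2 ≤
      (2 * (q : ℝ) ^ 2) ^ 2 * (TM.H764.grd w * TM.H764.grd g) := by
    refine h1.trans ((mul_le_mul_of_nonneg_right (sq_jT hq w) (grd_nonneg' g)).trans
      (le_of_eq ?_))
    ring
  have h3 : 0 ≤ 2 * (q : ℝ) ^ 2 * Real.sqrt (TM.H764.grd w * TM.H764.grd g) := by positivity
  refine abs_le_of_sq_le_sq ?_ h3
  rw [mul_pow (2 * (q : ℝ) ^ 2), Real.sq_sqrt (mul_nonneg (grd_nonneg' w) (grd_nonneg' g))]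
  exact h2

/-! ### the event -/

/-- the smoothed field, seen through a fixed real field -/
def F1 (N q : ℕ) [NeZero N] (g F : V N → ℝ) : V N → ℝ := tT N q (F + g) - g

lemma sub_F1 (g F : V N → ℝ) : F - F1 N q g F = (F - tT N q F) + (g - tT N q g) := by
  unfold F1
  rw [tT_add]
  abel

lemma cont_F1 (g : V N → ℝ) : Continuous fun F : V N → ℝ => F1 N q g F := by
  unfold F1
  exact ((cont_tT q).comp (continuous_id.add continuous_const)).sub continuous_const

/-- the conditions of the door for the pair `F`, `F1 F` -/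
def DG (N q : ℕ) [NeZero N] (b t : ℝ) (w g : V N → ℝ) (r S L μ : ℝ) : Set (V N → ℝ) :=
  {F | RF N b t ((4 : ℝ) • F) ≤ r ∧ RF N b t (S • (F - F1 N q g F)) ≤ r ∧
    |t * ∑ y, w y * F y| ≤ L ∧ |t * ∑ y, w y * (F - F1 N q g F) y| ≤ μ}

lemma meas_DG (hb : 0 < b) (ht : 0 < t) (w g : V N → ℝ) (r S L μ : ℝ) :
    MeasurableSet (DG N q b t w g r S L μ) := by
  have c1 : Continuous fun F : V N → ℝ => RF N b t ((4 : ℝ) • F) :=
    (cont_RF hb.le ht).comp (continuous_id.const_smul (4 : ℝ))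
  have c2 : Continuous fun F : V N → ℝ => F - F1 N q g F := continuous_id.sub (cont_F1 g)
  have c3 : Continuous fun F : V N → ℝ => RF N b t (S • (F - F1 N q g F)) :=
    (cont_RF hb.le ht).comp (c2.const_smul S)
  have hl : ∀ {f : (V N → ℝ) → V N → ℝ}, Continuous f →
      Continuous fun F => |t * ∑ y, w y * f F y| := by
    intro f hf
    exact (continuous_const.mul (continuous_finsetSum _ fun y _ =>
      continuous_const.mul ((continuous_apply y).comp hf))).abs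
  have c4 : Continuous fun F : V N → ℝ => |t * ∑ y, w y * F y| := hl continuous_id
  have c5 : Continuous fun F : V N → ℝ => |t * ∑ y, w y * (F - F1 N q g F) y| := hl c2
  exact (measurableSet_le c1.measurable measurable_const).inter
    ((measurableSet_le c3.measurable measurable_const).inter
    ((measurableSet_le c4.measurable measurable_const).inter
    (measurableSet_le c5.measurable measurable_const)))

/-- **the law half of DOOR**, fixed field `g` -/
theorem door_law_g (hb : 0 < b) : ∃ C c : ℝ, 0 ≤ C ∧ 0 < c ∧ c ≤ 1 ∧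
    ∀ (N : ℕ) [NeZero N] (n p : ℕ), 2 ^ n ∣ N → 2 ^ p ∣ N →
    ∀ t : ℝ, 0 < t → t * ((2 : ℝ) ^ n) ^ 2 ≤ 1 → 1 < t * 4 ^ (p + 1) → 1 ≤ t * (N : ℝ) ^ 2 →
    ∀ (w g : V N → ℝ), ∑ x, w x = 0 → ∀ S r L μ sN sq p0 : ℝ, 0 < r → 0 < sN → 0 < sq →
      16 * (t * (N : ℝ) ^ 2) * TM.H764.grd w + 8 * b * (t * (N : ℝ) ^ 2) ^ 2 * TM.H764.grd w ≤
        sN ^ 2 →
      4 * (t * (N : ℝ) ^ 2) ^ 2 * TM.H764.grd w ≤ sN ^ 2 →
      16 * (t * ((2 : ℝ) ^ n) ^ 2) * TM.H764.grd w +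
        8 * b * (t * ((2 : ℝ) ^ n) ^ 2) ^ 2 * TM.H764.grd w ≤ sq ^ 2 →
      4 * (t * ((2 : ℝ) ^ n) ^ 2) ^ 2 * TM.H764.grd w ≤ sq ^ 2 →
      32 * S ^ 2 * (t * ((2 : ℝ) ^ n) ^ 2) * TM.H764.grd g ≤ r →
      2 * (t * ((2 : ℝ) ^ n) ^ 2) * Real.sqrt (TM.H764.grd w * TM.H764.grd g) ≤ μ / 2 →
      (nuS N b t).real {F | r < RF N b t ((4 : ℝ) • F)} ≤ p0 →
    (nuS N b t).real (DG N (2 ^ n) b t w g r S L μ)ᶜ ≤
      p0 + C * ((t * (N : ℝ) ^ 2) ^ 4 * (1 + (2 * S) ^ 2) ^ 3) * ((2 : ℝ) ^ n * √t) ^ c / r +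
        2 * Real.exp (-(L / (2 * sN))) + 2 * Real.exp (-(μ / (4 * sq))) := by
  obtain ⟨C, c, hC, hc, hc1, h2⟩ := door_RF hb
  refine ⟨C, c, hC, hc, hc1, ?_⟩
  intro N _ n p hn hp t ht htn htp1 htN w g hw S r L μ sN sq p0 hr hsN hsq k1 k2 k3 k4 k5 k6 k7
  have hpr := prob_nuS (N := N) hb ht
  have hl0 : 0 < 2 ^ n := by positivity
  have hlr : (((2 ^ n : ℕ) : ℝ)) = (2 : ℝ) ^ n := by push_cast; rfl
  -- the rough part
  obtain ⟨i3, i4⟩ := h2 N n p hn hp t ht htn htp1 htN (2 * S)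
  have m2 := markov_S hb ht i3 (fun F => RF_nonneg hb ht _) hr i4
  -- the linear functionals
  have m3 := tail_ln hb ht (0 : V N) w hw hsN k1 k2 L
  have m4 := tail_dT hb ht (0 : V N) hl0 hn w (s := sq) hsq (by rw [hlr]; exact k3)
    (by rw [hlr]; exact k4) (μ / 2)
  -- the fixed field
  have g1 : RF N b t ((2 * S) • (g - tT N (2 ^ n) g)) ≤ r := by
    refine (RF_fix hb ht hl0 hn (2 * S) g).trans (le_trans (le_of_eq ?_) k5)
    rw [hlr]
    ring
  have g2 : |t * ∑ y, w y * (g y - tT N (2 ^ n) g y)| ≤ μ / 2 := by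
    rw [abs_mul, abs_of_pos ht]
    refine (mul_le_mul_of_nonneg_left (ln_fix hl0 w g) ht.le).trans (le_trans (le_of_eq ?_) k6)
    rw [hlr]
    ring
  have hsub : (DG N (2 ^ n) b t w g r S L μ)ᶜ ⊆
      (({F | r < RF N b t ((4 : ℝ) • F)} ∪ {F | r < RF N b t ((2 * S) • (F - tT N (2 ^ n) F))}) ∪
        {F | L < |t * ∑ y, w y * F y|}) ∪
        {F | μ / 2 < |t * ∑ y, w y * (F y - tT N (2 ^ n) F y)|} := by
    intro F hF
    by_contra hc'
    simp only [Set.mem_union, not_or] at hc'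
    obtain ⟨⟨⟨c1, c2⟩, c3⟩, c4⟩ := hc'
    simp only [Set.mem_ofPred_eq, not_lt] at c1 c2 c3 c4
    refine hF ⟨c1, ?_, c3, ?_⟩
    · rw [sub_F1, smul_add]
      refine (RF_half hb ht _ _).trans ?_
      rw [smul_smul, smul_smul]
      linarith
    · rw [sub_F1]
      have e : t * ∑ y, w y * ((F - tT N (2 ^ n) F) + (g - tT N (2 ^ n) g)) y =
          t * (∑ y, w y * (F y - tT N (2 ^ n) F y)) + t * ∑ y, w y * (g y - tT N (2 ^ n) g y) := by
        rw [← mul_add, ← sum_add_distrib]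
        congr 1
        refine sum_congr rfl fun y _ => ?_
        simp only [Pi.add_apply, Pi.sub_apply]
        ring
      rw [e]
      refine (abs_add_le _ _).trans ?_
      linarith
  have hfin : ∀ A : Set (V N → ℝ), (nuS N b t) A ≠ ⊤ := fun A => measure_ne_top _ _
  refine (measureReal_mono hsub (hfin _)).trans ?_
  have m5 : μ / 2 / (2 * sq) = μ / (4 * sq) := by
    rw [div_div]
    congr 1
    ring
  rw [m5] at m4
  refine (measureReal_union_le _ _).trans (add_le_add ?_ m4)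
  refine (measureReal_union_le _ _).trans (add_le_add ?_ m3)
  exact (measureReal_union_le _ _).trans (add_le_add k7 m2)

end

end Vale.Agent.P159.H663.Dr
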