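import Vale.Agent.P159.H663.Propag

/-!
P159 / module AP (helper663): propagation of the a-priori bound through one channel step.

* `gau_quad`: the Gaussian integral of the quadratic weight with a source, `e = b - Q G b`;
* `prop_set`: **the set form of the propagation**: if the source `J` of the posterior, started from
  the prior source `e = b - Q G b`, lies with probability `p` in a set on which `Rs <= r`, then
  `Rs μ' e <= r - log p`. No condition in source space, no moment.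
-/

namespace Vale.Agent.P159.H663

open Finset Matrix MeasureTheory ProbabilityTheory
open Vale.Agent.P159.TM.H104 (EM Ex Cv K3 Lg li nh Gr)
open Vale.Agent.P159.H37

noncomputable section

variable {V : Type*} [Fintype V] {I : Type*} [Fintype I]

/-- `<u, G Pᵀ g> = <P G u, g>` -/
lemma bf_obs {G : Matrix V V ℝ} (hG : Gᵀ = G) (P : Matrix I V ℝ) (u : V → ℝ) (g : I → ℝ) :
    bf G u (Pᵀ *ᵥ g) = ∑ i, (P *ᵥ (G *ᵥ u)) i * g i := by
  rw [bf_comm hG, bf_eq]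
  have h1 : (Pᵀ *ᵥ g) ⬝ᵥ (G *ᵥ u) = g ⬝ᵥ (P *ᵥ (G *ᵥ u)) := by
    rw [mulVec_transpose, ← dotProduct_mulVec]
  rw [h1, dotProduct_comm]
  rfl

/-- **Gaussian integral of the quadratic weight**, source `e = b - Q G b` -/
theorem gau_quad {G : Matrix V V ℝ} (hG : Gᵀ = G) (P : Matrix I V ℝ) {b e : V → ℝ}
    (he : e = b - Pᵀ *ᵥ (P *ᵥ (G *ᵥ b))) :
    ∫ g, Real.exp (qf G (e + Pᵀ *ᵥ g) / 2) ∂(gau I) =
      Real.exp (bf G b e / 2) * ∫ g, Real.exp (qf G (Pᵀ *ᵥ g) / 2) ∂(gau I) := by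
  set w : I → ℝ := P *ᵥ (G *ᵥ b) with hw
  have hww : bf G b (Pᵀ *ᵥ w) = ∑ i, w i ^ 2 := by
    rw [bf_obs hG, ← hw]
    exact Finset.sum_congr rfl fun i _ => (sq _).symm
  have e1 : ∀ g : I → ℝ, Real.exp (qf G (e + Pᵀ *ᵥ g) / 2) =
      Real.exp (∑ i, w i * g i) * (Real.exp (qf G e / 2) *
        Real.exp (-bf G (Pᵀ *ᵥ w) (Pᵀ *ᵥ g) + qf G (Pᵀ *ᵥ g) / 2)) := by
    intro g
    rw [← Real.exp_add, ← Real.exp_add]
    congr 1
    have h1 : bf G e (Pᵀ *ᵥ g) = (∑ i, w i * g i) - bf G (Pᵀ *ᵥ w) (Pᵀ *ᵥ g) := by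
      have h2 : bf G e (Pᵀ *ᵥ g) = bf G b (Pᵀ *ᵥ g) - bf G (Pᵀ *ᵥ w) (Pᵀ *ᵥ g) := by
        rw [he, sub_eq_add_neg, bf_add_left]
        have h3 : (-(Pᵀ *ᵥ w)) = (-1 : ℝ) • (Pᵀ *ᵥ w) := by simp
        rw [h3, bf_smul_left]
        ring
      rw [h2, bf_obs hG P b g]
    rw [qf_add_vec hG, h1]
    ring
  simp only [e1]
  rw [gau_exp_mul]
  have e2 : ∀ g : I → ℝ, Real.exp (qf G e / 2) *
      Real.exp (-bf G (Pᵀ *ᵥ w) (Pᵀ *ᵥ (g + w)) + qf G (Pᵀ *ᵥ (g + w)) / 2) =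
      Real.exp (qf G e / 2 - qf G (Pᵀ *ᵥ w) / 2) * Real.exp (qf G (Pᵀ *ᵥ g) / 2) := by
    intro g
    rw [← Real.exp_add, ← Real.exp_add]
    congr 1
    rw [mulVec_add, qf_add_vec hG, bf_add_right, bf_self, bf_comm hG (Pᵀ *ᵥ g) (Pᵀ *ᵥ w)]
    ring
  simp only [e2]
  rw [integral_const_mul, ← mul_assoc, ← Real.exp_add]
  congr 2
  have h4 : qf G e = qf G b - 2 * bf G b (Pᵀ *ᵥ w) + qf G (Pᵀ *ᵥ w) := by
    rw [he, qf_sub_vec hG]
  have h5 : bf G b e = qf G b - bf G b (Pᵀ *ᵥ w) := by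
    rw [he, sub_eq_add_neg, bf_add_right]
    have h3 : (-(Pᵀ *ᵥ w)) = (-1 : ℝ) • (Pᵀ *ᵥ w) := by simp
    rw [h3, bf_smul_right, bf_self]
    ring
  rw [h4, h5, hww]
  ring

/-- the quadratic weight is integrable when the free energy dominates it -/
lemma int_quad {μ' : (V → ℤ) → ℝ} (hμ : EM μ') (P : Matrix I V ℝ)
    (h0 : ∀ J, 0 ≤ Rs (post μ' P) J) (J₁ : V → ℝ) :
    Integrable (fun g : I → ℝ => Real.exp (qf (Gm (post μ' P)) (J₁ + Pᵀ *ᵥ g) / 2)) (gau I) := by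
  have hpost := em_post hμ P
  have hz := Zs_pos hpost 0
  have h1 := (ch_int hμ J₁ P (EGr.const (V := V) 1)).const_mul (Zs (post μ' P) 0)⁻¹
  refine h1.mono' ?_ (Filter.Eventually.of_forall fun g => ?_)
  · exact (Real.continuous_exp.comp (((H114.continuous_qf _).comp
      (continuous_obs' J₁ P)).div_const 2)).aestronglyMeasurable
  · rw [Real.norm_eq_abs, abs_of_pos (Real.exp_pos _), one_mul, H114.Zs_eq hpost (J₁ + Pᵀ *ᵥ g),
      ← mul_assoc, inv_mul_cancel₀ hz.ne', one_mul]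
    have h2 : 1 ≤ Real.exp (Rs (post μ' P) (J₁ + Pᵀ *ᵥ g)) := Real.one_le_exp (h0 _)
    nlinarith [Real.exp_pos (qf (Gm (post μ' P)) (J₁ + Pᵀ *ᵥ g) / 2)]

lemma log_ratio {μ : (V → ℤ) → ℝ} (hμ : EM μ) (J : V → ℝ) :
    Lg μ J - Lg μ 0 = Real.log (Zs μ J / Zs μ 0) := by
  rw [Real.log_div (Zs_pos hμ J).ne' (Zs_pos hμ 0).ne']
  rfl

/-- **propagation, set form, before comparing the covariances**: `p * Z'(e) <= e^r Z'(0)
exp (<b, G e> / 2)` -/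
theorem prop_set0 {μ' : (V → ℤ) → ℝ} (hμ : EM μ') (P : Matrix I V ℝ)
    (h0 : ∀ J, 0 ≤ Rs (post μ' P) J) {b e : V → ℝ}
    (he : e = b - Pᵀ *ᵥ (P *ᵥ (Gm (post μ' P) *ᵥ b))) {S : Set (V → ℝ)} (hS : MeasurableSet S)
    {r : ℝ} (hr : ∀ J ∈ S, Rs (post μ' P) J ≤ r) :
    Ech μ' e P (ind S) * (Zs μ' e / Zs μ' 0) ≤
      Real.exp (r + bf (Gm (post μ' P)) b e / 2) := by
  set μ := post μ' P with hm
  set G := Gm μ with hGd
  have hpost : EM μ := em_post hμ P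
  have hz := Zs_pos hpost 0
  have hz0 := Zs_pos hμ 0
  have hze := Zs_pos hμ e
  -- numerator
  have hnum : ∫ g, ind S (e + Pᵀ *ᵥ g) * Zs μ (e + Pᵀ *ᵥ g) ∂(gau I) ≤
      Zs μ 0 * Real.exp r * ∫ g, Real.exp (qf G (e + Pᵀ *ᵥ g) / 2) ∂(gau I) := by
    rw [← integral_const_mul]
    refine integral_mono (ch_int hμ e P (EGr.ind hS)) ((int_quad hμ P h0 e).const_mul _)
      fun g => ?_
    simp only
    by_cases hg : (e + Pᵀ *ᵥ g) ∈ S
    · have h1 : ind S (e + Pᵀ *ᵥ g) = 1 := by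
        unfold ind
        rw [Set.indicator_of_mem hg]
      rw [h1, one_mul, H114.Zs_eq hpost (e + Pᵀ *ᵥ g), mul_assoc]
      refine mul_le_mul_of_nonneg_left ?_ hz.le
      exact mul_le_mul_of_nonneg_right (Real.exp_le_exp.2 (hr _ hg)) (Real.exp_pos _).le
    · have h1 : ind S (e + Pᵀ *ᵥ g) = 0 := by
        unfold ind
        rw [Set.indicator_of_notMem hg]
      rw [h1, zero_mul]
      exact mul_nonneg (mul_nonneg hz.le (Real.exp_pos _).le) (Real.exp_pos _).le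
  rw [gau_quad (Gm_symm μ) P he] at hnum
  -- the partition function at zero
  have hden : Zs μ 0 * ∫ g, Real.exp (qf G (Pᵀ *ᵥ g) / 2) ∂(gau I) ≤ Zs μ' 0 := by
    rw [← ch_norm hμ 0 P, ← integral_const_mul]
    have h1 := int_quad hμ P h0 0
    have h2 := ch_int hμ 0 P (EGr.const (V := V) 1)
    simp only [zero_add, one_mul] at h1 h2 ⊢
    refine integral_mono (h1.const_mul _) h2 fun g => ?_
    simp only
    rw [H114.Zs_eq hpost (Pᵀ *ᵥ g)]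
    refine mul_le_mul_of_nonneg_left ?_ hz.le
    have h3 : 1 ≤ Real.exp (Rs μ (Pᵀ *ᵥ g)) := Real.one_le_exp (h0 _)
    have h4 := Real.exp_pos (qf G (Pᵀ *ᵥ g) / 2)
    nlinarith
  have hE : Ech μ' e P (ind S) * Zs μ' e =
      ∫ g, ind S (e + Pᵀ *ᵥ g) * Zs μ (e + Pᵀ *ᵥ g) ∂(gau I) := by
    unfold Ech
    rw [ch_norm hμ, div_mul_cancel₀ _ hze.ne']
  rw [← mul_div_assoc, hE, div_le_iff₀ hz0, Real.exp_add]
  refine hnum.trans ?_
  have h5 := mul_le_mul_of_nonneg_left hden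
    (mul_pos (Real.exp_pos r) (Real.exp_pos (bf G b e / 2))).le
  refine le_trans (le_of_eq ?_) h5
  ring

/-- **(A) propagation of the a-priori bound, set form** -/
theorem prop_set {μ' : (V → ℤ) → ℝ} (hμ : EM μ') (P : Matrix I V ℝ)
    (hK : GC (post μ' P)) (h0 : ∀ J, 0 ≤ Rs (post μ' P) J) {b e : V → ℝ}
    (he : e = b - Pᵀ *ᵥ (P *ᵥ (Gm (post μ' P) *ᵥ b))) {S : Set (V → ℝ)} (hS : MeasurableSet S)
    {r : ℝ} (hr : ∀ J ∈ S, Rs (post μ' P) J ≤ r) {p : ℝ} (hp : 0 < p)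
    (hpS : p ≤ Ech μ' e P (ind S)) :
    Rs μ' e ≤ r - Real.log p := by
  have h1 := prop_set0 hμ P h0 he hS hr
  have hz0 := Zs_pos hμ 0
  have hze := Zs_pos hμ e
  have hq : 0 < Zs μ' e / Zs μ' 0 := div_pos hze hz0
  have h2 : p * (Zs μ' e / Zs μ' 0) ≤ Real.exp (r + bf (Gm (post μ' P)) b e / 2) :=
    (mul_le_mul_of_nonneg_right hpS hq.le).trans h1
  have h3 := (Real.log_le_log (mul_pos hp hq) h2)
  rw [Real.log_exp, Real.log_mul hp.ne' hq.ne', ← log_ratio hμ] at h3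
  have h4 := Gm_ge hμ P hK he
  unfold Rs
  linarith

/-- the complement form: bad probability `<= p` -/
theorem prop_set' {μ' : (V → ℤ) → ℝ} (hμ : EM μ') (P : Matrix I V ℝ)
    (hK : GC (post μ' P)) (h0 : ∀ J, 0 ≤ Rs (post μ' P) J) {b e : V → ℝ}
    (he : e = b - Pᵀ *ᵥ (P *ᵥ (Gm (post μ' P) *ᵥ b))) {S : Set (V → ℝ)} (hS : MeasurableSet S)
    {r : ℝ} (hr : ∀ J ∈ S, Rs (post μ' P) J ≤ r) {p : ℝ} (hp : p < 1)
    (hpS : Ech μ' e P (ind Sᶜ) ≤ p) :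
    Rs μ' e ≤ r - Real.log (1 - p) := by
  refine prop_set hμ P hK h0 he hS hr (by linarith) ?_
  have h1 : Ech μ' e P (ind S) + Ech μ' e P (ind Sᶜ) = 1 := by
    rw [← Ech_add hμ e P (EGr.ind hS) (EGr.ind hS.compl), ← Ech_const hμ e P 1]
    congr 1
    funext J
    unfold ind
    by_cases hJ : J ∈ S <;> simp [hJ]
  linarith

end

end Vale.Agent.P159.H663
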