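import Vale.Agent.P159.H663.GsA

/-!
P159 / module GS (helper663), part 4: **the offset and the size of the typical block source**
`e = c Pn (1_B g)` (item (T0) of the typical source; the mean parts are helper276's).

* `off_tail` : `P(d ≤ qf (Rk s κ) e) ≤ exp (s |B| (1/(s n²) + (1 + log n)/κ)/2 - s d/(4 c²))`;
* `nrm_tail` : `P(v ≤ |e|²) ≤ exp (|B|/2 - v/(4 c²))`;
* `off_src`  : off these events the hypotheses `hd`, `he` of `gs_class` hold.
-/

namespace Vale.Agent.P159.H663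

open Finset Matrix MeasureTheory ProbabilityTheory
open Vale.Agent.P159.TM.H104 (EM Ex Cv K3 Lg li nh Gr)
open Vale.Agent.P159.TM.H764 (EE grd)
open Vale.Agent.P159.TM.Spec (V)
open Vale.Agent.P159.TM.SpecC (Tor wT)
open Vale.Agent.P159.H37
open Vale.Agent.P159.H864
open Vale.Agent.P159.H612 (om0)
open Vale.Agent.P159.H859 (Rk Avg dB ravg)
open Vale.Agent.P159.H816 (Gam Hb)
open Vale.Agent.P159.H963 (Neu pin nM nMC MF Pn Gnc obsN)

noncomputable section

section gen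

variable {n : ℕ} [NeZero n]

/-- the block source -/
def bsrc (c : ℝ) (B : Finset (V n)) (g : V n → ℝ) : V n → ℝ :=
  c • ((Pn : Matrix (V n) (V n) ℝ) *ᵥ (dB B *ᵥ g))

lemma bsrc_neu (c : ℝ) (B : Finset (V n)) (g : V n → ℝ) : Neu (bsrc c B g) :=
  (H963.neu_Pn _).smul c

/-- Markov for a quadratic form, real measure -/
lemma gau_tail_real {K : Matrix (V n) (V n) ℝ} (hK : Kᵀ = K) (h0 : ∀ x, 0 ≤ qf K x)
    {lam : ℝ} (hl : 0 ≤ lam) (h1 : ∀ x : V n → ℝ, lam * qf K x ≤ 1 / 2 * ∑ i, x i ^ 2) (a : ℝ) :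
    (gau (V n)).real {g | a ≤ qf K g} ≤ Real.exp (lam * trace K - lam * a / 2) := by
  have h := gau_tail hK h0 hl h1 a
  have hm : MeasurableSet {g : V n → ℝ | a ≤ qf K g} := by
    have : Measurable fun g : V n → ℝ => qf K g := by
      unfold H37.qf
      fun_prop
    exact measurableSet_le measurable_const this
  rw [integral_indicator hm] at h
  simpa only [integral_const, smul_eq_mul, mul_one, measureReal_restrict_apply_univ] using h

lemma TC_Pn : TC (Pn : Matrix (V n) (V n) ℝ) := by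
  refine TC.of_nonneg H963.ti_Pn (fun k => ?_) fun k => ?_
  · rw [H963.sym_Pn]
    split_ifs
    · exact le_rfl
    · exact zero_le_one
  · rw [H963.sym_Pn]
    split_ifs
    · exact zero_le_one
    · exact le_rfl

lemma Pn_sq_le (v : V n → ℝ) :
    ∑ x, ((Pn : Matrix (V n) (V n) ℝ) *ᵥ v) x ^ 2 ≤ ∑ x, v x ^ 2 := TC_Pn.contr v

lemma qf_Rk_nonneg {s κ : ℝ} (hs : 0 < s) (hκ : 0 < κ) (u : V n → ℝ) :
    0 ≤ qf (Rk s κ : Matrix (V n) (V n) ℝ) u := by
  have h := (qf_le_iff (TI.one.smul 0) (H859.ti_Rk (n := n) s κ)).2 (fun k => by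
    rw [sym_smul, zero_mul, H859.sym_Rk hs hκ.le]
    exact (inv_pos.2 (H859.op_pos hs hκ.le k)).le) u
  have e : qf ((0 : ℝ) • (1 : Matrix (V n) (V n) ℝ)) u = 0 := by
    rw [H864.qf_smul_mat, zero_mul]
  rwa [e] at h

lemma qf_Rk_le {s κ : ℝ} (hs : 0 < s) (hκ : 0 < κ) (u : V n → ℝ) :
    qf (Rk s κ : Matrix (V n) (V n) ℝ) u ≤ s⁻¹ * ∑ x, u x ^ 2 := by
  have h := (qf_le_iff (H859.ti_Rk (n := n) s κ) (TI.one.smul s⁻¹)).2 (fun k => by
    rw [sym_smul, sym_one, mul_one, H859.sym_Rk hs hκ.le]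
    have h1 : 0 ≤ κ * EE k := mul_nonneg hκ.le (TM.H764.EE_nonneg k)
    exact inv_anti₀ hs (by linarith)) u
  refine h.trans (le_of_eq ?_)
  rw [H864.qf_smul_mat]
  congr 1
  unfold H37.qf
  refine Finset.sum_congr rfl fun x _ => ?_
  rw [Finset.sum_eq_single x]
  · rw [one_apply_eq]
    ring
  · intro y _ hy
    rw [one_apply_ne (Ne.symm hy)]
    ring
  · intro hx
    exact absurd (Finset.mem_univ x) hx

/-- the form of the source -/
lemma qf_bsrc_le {s κ : ℝ} (hs : 0 < s) (hκ : 0 < κ) (c : ℝ) (B : Finset (V n)) (g : V n → ℝ) :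
    qf (Rk s κ : Matrix (V n) (V n) ℝ) (bsrc c B g) ≤ qf (c ^ 2 • (dB B * Rk s κ * dB B)) g := by
  have hsR : ∀ k : V n, 0 ≤ sym (Rk s κ) k := fun k => by
    rw [H859.sym_Rk hs hκ.le]
    exact (inv_pos.2 (H859.op_pos hs hκ.le k)).le
  unfold bsrc
  rw [H37.qf_smul, H864.qf_smul_mat]
  refine mul_le_mul_of_nonneg_left ?_ (sq_nonneg c)
  refine (TC_Pn.form (H859.ti_Rk s κ) hsR _).trans (le_of_eq ?_)
  rw [qf_eq, qf_eq, ← mulVec_mulVec, ← mulVec_mulVec, dotProduct_mulVec g, ← mulVec_transpose,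
    dB_tr]

lemma trace_dB_R {s κ : ℝ} (B : Finset (V n)) :
    (dB B * (Rk s κ : Matrix (V n) (V n) ℝ) * dB B).trace = B.card * H859.gd n s κ := by
  have h1 : ∀ x : V n, (dB B * (Rk s κ : Matrix (V n) (V n) ℝ) * dB B) x x =
      if x ∈ B then H859.gd n s κ else 0 := by
    intro x
    unfold dB
    rw [mul_diagonal, diagonal_mul]
    have h : (Rk s κ : Matrix (V n) (V n) ℝ) x x = H859.gd n s κ := by
      unfold H859.gd
      rw [(H859.ti_Rk s κ).eq x x, sub_self]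
    split_ifs
    · rw [h]
      ring
    · ring
  unfold Matrix.trace
  simp only [diag_apply, h1]
  rw [Finset.sum_ite_mem, Finset.univ_inter, Finset.sum_const, nsmul_eq_mul]

/-- **the offset** -/
theorem off_tail {s κ : ℝ} (hs : 0 < s) (hκ : 0 < κ) {c : ℝ} (hc : 0 < c) (B : Finset (V n))
    (d : ℝ) :
    (gau (V n)).real {g | d ≤ qf (Rk s κ : Matrix (V n) (V n) ℝ) (bsrc c B g)} ≤
      Real.exp (B.card * (1 / (n : ℝ) ^ 2 + s * (1 + Real.log n) / κ) / 2 -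
        s * d / (4 * c ^ 2)) := by
  have hK : (c ^ 2 • (dB B * Rk s κ * dB B))ᵀ = c ^ 2 • (dB B * Rk s κ * dB B) := by
    rw [transpose_smul, transpose_mul, transpose_mul, dB_tr, (H859.ti_Rk s κ).transpose,
      Matrix.mul_assoc]
  have hq : ∀ g : V n → ℝ, qf (c ^ 2 • (dB B * Rk s κ * dB B)) g =
      c ^ 2 * qf (Rk s κ : Matrix (V n) (V n) ℝ) (dB B *ᵥ g) := by
    intro g
    rw [H864.qf_smul_mat]
    congr 1
    rw [qf_eq, qf_eq, ← mulVec_mulVec, ← mulVec_mulVec, dotProduct_mulVec g, ← mulVec_transpose,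
      dB_tr]
  have h := gau_tail_real hK (fun g => by
    rw [hq]
    exact mul_nonneg (sq_nonneg c) (qf_Rk_nonneg hs hκ _)) (lam := s / (2 * c ^ 2))
    (by positivity) (fun g => by
      rw [hq]
      have h1 := (qf_Rk_le hs hκ (dB B *ᵥ g)).trans
        (mul_le_mul_of_nonneg_left (dB_sq_le B g) (inv_pos.2 hs).le)
      calc s / (2 * c ^ 2) * (c ^ 2 * qf (Rk s κ : Matrix (V n) (V n) ℝ) (dB B *ᵥ g))
          ≤ s / (2 * c ^ 2) * (c ^ 2 * (s⁻¹ * ∑ x, g x ^ 2)) :=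
            mul_le_mul_of_nonneg_left (mul_le_mul_of_nonneg_left h1 (sq_nonneg c))
              (by positivity)
        _ = 1 / 2 * ∑ i, g i ^ 2 := by field_simp) d
  refine le_trans (measureReal_mono ?_ (measure_ne_top _ _)) (h.trans (Real.exp_le_exp.2 ?_))
  · intro g hg
    exact le_trans hg (qf_bsrc_le hs hκ c B g)
  · rw [trace_smul, trace_dB_R, smul_eq_mul]
    have h2 := H859.gd_le (n := n) hs hκ
    have hn : (0 : ℝ) < n := by exact_mod_cast NeZero.pos n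
    have h3 : s / (2 * c ^ 2) * (c ^ 2 * (B.card * H859.gd n s κ)) ≤
        s / (2 * c ^ 2) * (c ^ 2 * (B.card * (1 / (s * (n : ℝ) ^ 2) +
          (1 + Real.log n) / κ))) := by
      refine mul_le_mul_of_nonneg_left (mul_le_mul_of_nonneg_left
        (mul_le_mul_of_nonneg_left h2 (Nat.cast_nonneg _)) (sq_nonneg c)) (by positivity)
    refine sub_le_sub (h3.trans (le_of_eq ?_)) (le_of_eq ?_)
    · field_simp
    · field_simp
      ring

/-- **the size** -/
theorem nrm_tail {c : ℝ} (hc : 0 < c) (B : Finset (V n)) (v : ℝ) :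
    (gau (V n)).real {g | v ≤ ∑ x, bsrc c B g x ^ 2} ≤
      Real.exp (B.card / 2 - v / (4 * c ^ 2)) := by
  have hK : (c ^ 2 • dB B)ᵀ = c ^ 2 • dB B := by rw [transpose_smul, dB_tr]
  have hdd : ∀ g : V n → ℝ, g ⬝ᵥ (dB B *ᵥ g) = ∑ x, (dB B *ᵥ g) x ^ 2 := by
    intro g
    refine Finset.sum_congr rfl fun x _ => ?_
    unfold dB
    rw [mulVec_diagonal]
    split_ifs <;> ring
  have hq : ∀ g : V n → ℝ, qf (c ^ 2 • dB B) g = c ^ 2 * ∑ x, (dB B *ᵥ g) x ^ 2 := by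
    intro g
    rw [H864.qf_smul_mat, qf_eq, hdd]
  have h := gau_tail_real hK (fun g => by
    rw [hq]
    exact mul_nonneg (sq_nonneg c) (sq_vec_nonneg _)) (lam := 1 / (2 * c ^ 2))
    (by positivity) (fun g => by
      rw [hq]
      calc 1 / (2 * c ^ 2) * (c ^ 2 * ∑ x, (dB B *ᵥ g) x ^ 2)
          ≤ 1 / (2 * c ^ 2) * (c ^ 2 * ∑ x, g x ^ 2) :=
            mul_le_mul_of_nonneg_left (mul_le_mul_of_nonneg_left (dB_sq_le B g) (sq_nonneg c))
              (by positivity)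
        _ = 1 / 2 * ∑ i, g i ^ 2 := by field_simp) v
  refine le_trans (measureReal_mono ?_ (measure_ne_top _ _)) (h.trans (Real.exp_le_exp.2 ?_))
  · intro g hg
    have hg' : v ≤ ∑ x, bsrc c B g x ^ 2 := hg
    refine hg'.trans ?_
    rw [hq]
    have e : ∑ x, bsrc c B g x ^ 2 =
        c ^ 2 * ∑ x, ((Pn : Matrix (V n) (V n) ℝ) *ᵥ (dB B *ᵥ g)) x ^ 2 := by
      unfold bsrc
      rw [Finset.mul_sum]
      exact Finset.sum_congr rfl fun x _ => by rw [Pi.smul_apply, smul_eq_mul, mul_pow]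
    rw [e]
    exact mul_le_mul_of_nonneg_left (Pn_sq_le _) (sq_nonneg c)
  · have ht : (dB B : Matrix (V n) (V n) ℝ).trace = B.card := by
      unfold Matrix.trace dB
      simp only [diag_apply, diagonal_apply_eq]
      rw [Finset.sum_ite_mem, Finset.univ_inter, Finset.sum_const, nsmul_eq_mul, mul_one]
    rw [trace_smul, ht, smul_eq_mul]
    refine le_of_eq ?_
    field_simp
    ring

end gen

section cell

variable {N l : ℕ} [NeZero N] [NeZero (N / l)] {b t s κ cs : ℝ}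

/-- **(T0)**: offset and size of the typical block source, in the letters of `gs_class` -/
theorem off_src (hb : 0 < b) (hl : l ∣ N) (hs : 0 < s) (h : s < t) (hκ : 0 < κ) (x₀ : V N)
    {c : ℝ} (hc : 0 < c) (B : Finset (V (N / l))) (d v : ℝ)
    (hv : 4 * Gam N t s κ * v ≤ cs ^ 2) (hG : 0 ≤ Gam N t s κ) :
    (gau (V (N / l))).real {g | ¬ (qf (Rk s (κ / (l : ℝ) ^ 2)) (bsrc c B g) -
        qf (Gm (nMC N l b t s x₀)) ((cobV N l)ᵀ *ᵥ bsrc c B g) ≤ d ∧
        4 * Gam N t s κ * ∑ i, bsrc c B g i ^ 2 ≤ cs ^ 2)} ≤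
      Real.exp (B.card * ((l : ℝ) ^ 2 / (N : ℝ) ^ 2 +
        s * (l : ℝ) ^ 2 * (1 + Real.log ((N / l : ℕ) : ℝ)) / κ) / 2 - s * d / (4 * c ^ 2)) +
      Real.exp (B.card / 2 - v / (4 * c ^ 2)) := by
  have hlR : (0 : ℝ) < l := by exact_mod_cast l_pos hl
  have hE := H963.em_nMC (N := N) hb.le hl hs h.le x₀
  have h1 := off_tail (n := N / l) hs (show 0 < κ / (l : ℝ) ^ 2 by positivity) hc B d
  have h2 := nrm_tail (n := N / l) hc B v
  have e1 : 1 / ((N / l : ℕ) : ℝ) ^ 2 = (l : ℝ) ^ 2 / (N : ℝ) ^ 2 := by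
    rw [Nat.cast_div hl hlR.ne', div_pow, one_div_div]
  have e2 : s * (1 + Real.log ((N / l : ℕ) : ℝ)) / (κ / (l : ℝ) ^ 2) =
      s * (l : ℝ) ^ 2 * (1 + Real.log ((N / l : ℕ) : ℝ)) / κ := by
    field_simp
  rw [e1, e2] at h1
  refine le_trans ?_ (add_le_add h1 h2)
  refine le_trans (measureReal_mono ?_ (measure_ne_top _ _)) (measureReal_union_le _ _)
  intro g hg
  by_contra hc2
  simp only [Set.mem_union, Set.mem_ofPred_eq, not_or, not_le] at hc2
  refine hg ⟨?_, ?_⟩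
  · have h3 := H114.qf_Cm_nonneg hE 0 ((cobV N l)ᵀ *ᵥ bsrc c B g)
    have h4 := hc2.1
    unfold H37.Gm
    linarith
  · exact (mul_le_mul_of_nonneg_left hc2.2.le (by positivity)).trans hv

end cell

end

end Vale.Agent.P159.H663
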