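import Vale.Agent.P159.H663.ApF
import Vale.Agent.P159.H276.Nu5
import Vale.Agent.P159.H239.ApS

/-!
P159 / module APT (B) (helper663), part 4: the numbers (helper276) give `NumB`; **`BlkT` (helper239) as a
family**.
-/

set_option linter.unusedSectionVars false

namespace Vale.Agent.P159.H663

open Vale.Agent.P159.H972
open Vale.Agent.P159.H447 (cl)
open Vale.Agent.P159.H730 (AptN QD)
open Vale.Agent.P159.H276 (BL BNum bM bR bX bXm bD bQ bL bLam bd bD4)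
open Vale.Agent.P159.H239 (Fam Sel BlkT)

noncomputable section

variable {b b1 b2 pf sg : ℝ}

lemma en_le {ε Y : ℝ} (hε : 0 < ε) (hε1 : ε ≤ 1) (hsg : 0 ≤ sg) (hY : Y ^ 2 ≤ ε) :
    en sg ε Y ≤ ε ^ (1 - sg) := by
  have h0 : ε ^ (1 - sg) = ε ^ (-sg) * ε := by
    rw [← Real.rpow_add_one hε.ne']
    congr 1
    ring
  unfold H972.en
  refine max_le ?_ ?_
  · have h1 : ε ≤ ε ^ (1 - sg) := by
      conv_lhs => rw [← Real.rpow_one ε]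
      exact Real.rpow_le_rpow_of_exponent_ge hε hε1 (by linarith)
    linarith
  · rw [h0]
    exact mul_le_mul_of_nonneg_left hY (Real.rpow_nonneg hε.le _)

lemma lev_le {e : ℝ} (he : 0 < e) (h : e ≤ 1 / 2 ^ 42) :
    e ^ (1 / 6 : ℝ) ≤ e ^ (1 / 7 : ℝ) / 2 := by
  have h1 : e ^ (1 / 6 : ℝ) = e ^ (1 / 7 : ℝ) * e ^ (1 / 42 : ℝ) := by
    rw [← Real.rpow_add he]
    norm_num
  have h2 : e ^ (1 / 42 : ℝ) ≤ 1 / 2 := by
    have h3 : e ^ (1 / 42 : ℝ) ≤ (1 / 2 ^ 42 : ℝ) ^ (1 / 42 : ℝ) :=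
      Real.rpow_le_rpow he.le h (by norm_num)
    refine h3.trans (le_of_eq ?_)
    have h4 : (1 / 2 ^ 42 : ℝ) = (1 / 2 : ℝ) ^ (42 : ℕ) := by norm_num
    rw [h4, ← Real.rpow_natCast, ← Real.rpow_mul (by norm_num)]
    norm_num
  rw [h1]
  have h5 : 0 ≤ e ^ (1 / 7 : ℝ) := Real.rpow_nonneg he.le _
  nlinarith

/-- the numbers of helper276 in the letters of `BNr` -/
theorem BNr.of_bnum {P : Par} {K0 K2 : ℝ} {n m r s : ℕ} {ε e τ w Y : ℝ}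
    (h : BNum P b K0 K2 n m r s ε e τ w) (hsm : s ≤ m) (hY0 : 0 ≤ Y) (hY : Y ^ 2 ≤ ε)
    (he : 0 < e) (he42 : e ≤ 1 / 2 ^ 42) :
    BNr b K2 (2 * P.C0 + 3) ε (max Y ε) τ w (2 ^ P.xE ε / 6) (2 * ε ^ (1 / 8 : ℝ))
      (100 * (K0 * 2 ^ P.xE e)) (e ^ (1 / 7 : ℝ) / 2) n m r s (2 ^ (n - s - (m - n))) (bD K2 ε) 10
      (bM n m) (bM n m) (bd P b K0 n m r s e) (bL P n m ε) H276.bu (bLam P n ε) (bR n m) ε where
  hN := h.aptN
  hs := h.om Y hY0 hY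
  G := h.G
  hXm := h.Xm0
  hE := h.R0
  hd := le_rfl
  hn := h.hn (4 ^ (m - s)) (by positivity) (by
    have e1 : (((2 ^ s : ℕ)) : ℝ) ^ 2 = 4 ^ s := by
      push_cast
      rw [← pow_mul, mul_comm, pow_mul]
      norm_num
    have e2 : (4 : ℝ) ^ m = 4 ^ (m - s) * 4 ^ s := by
      rw [← pow_add]
      congr 1
      omega
    unfold H972.tn
    rw [e1, e2]
    refine le_of_eq ?_
    field_simp)
  hu1 := h.hu1
  hu2 := h.hu2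
  hu3 := h.hu3
  cA := h.cA
  cL := h.cL
  cU := h.cU
  cΛ := h.cΛ
  hu := h.eta
  hq := h.hq
  hq1 := h.hq1
  hcl := h.hcl
  hP := h.hP
  hlev := h.out.trans (lev_le he he42)

/-- **the numbers**, order of the constants of `Fam` -/
theorem numB (hb : 0 < b) (hpf : 0 < pf) (hsg0 : 0 ≤ sg) (hsg : sg ≤ 1 / 4) {K0 : ℝ} (hK0 : 1 ≤ K0)
    {C c : ℝ} (hC : 0 < C) (hc : 0 < c) : NumB b pf sg K0 C c := by
  obtain ⟨r1, hr1, h⟩ := H276.bnum (b := b) (cw := c) (Cw := C) (pf := pf) (sg := sg) hb hc hC.le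
    hpf hsg
  refine ⟨r1, hr1, fun x1 hx1 hx1' => ⟨0, fun Q _ => ⟨x1 / 400, by positivity, fun thp ht1 ht2 =>
    ⟨thp, ht1, fun th ht3 ht4 => ⟨1, fun C0 _ hC0 => ⟨2 * C0 + 3, by linarith, fun K2 hK2 => ?_⟩⟩⟩⟩⟩⟩
  obtain ⟨E0, hE0, h⟩ := h x1 hx1 hx1' thp ht1 ht2 th ht3 ht4 C0 hC0 K0 K2 hK0 hK2.le
  refine ⟨min E0 (1 / 2 ^ 42), by positivity, fun P hA h1 h2 h3 h4 h5 _ hes => ⟨12, fun N0 hN0 => ?_⟩⟩
  intro n m ε Y hS hEs τ t1 t2 r s hr hs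
  have hε := hS.εpos
  have hε1 := hS.ε1
  have he : ε / 2 ≤ en sg ε Y := hS.half le_rfl
  have he0 : 0 < en sg ε Y := lt_of_lt_of_le (by positivity) he
  have he42 : en sg ε Y ≤ 1 / 2 ^ 42 := hEs.trans (hes.trans (min_le_right _ _))
  have hB : BL P n m r s ε (en sg ε Y) :=
    ⟨hε, hS.εes, he, hA.x11, hA.thp1, hS.lo, hS.up, hS.nE, hr, hs⟩
  have htn : 0 < tn n := H789.tn_pos n
  have hw0 : 0 < C * (1 + ((r - n : ℕ) : ℝ)) * ((2 : ℝ) ^ (r - n)) ^ 2 * ε ^ (c * P.pf) / tn n := by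
    have : (0 : ℝ) < 1 + ((r - n : ℕ) : ℝ) := by positivity
    positivity
  have hw : tn n * (C * (1 + ((r - n : ℕ) : ℝ)) * ((2 : ℝ) ^ (r - n)) ^ 2 * ε ^ (c * P.pf) / tn n) ≤
      C * (1 + ((r - n : ℕ) : ℝ)) * ((2 : ℝ) ^ (r - n)) ^ 2 * ε ^ (c * P.pf) := by
    rw [mul_div_cancel₀ _ htn.ne']
  have hN := h P h1 h2 h3 h4 h5 (hes.trans (min_le_left _ _)) n m r s ε (en sg ε Y) τ _ hB
    (en_le hε hε1 hsg0 hS.yε) t1 t2 hw0 hw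
  have hsm : s ≤ m := by
    have := hB.hsn
    have := hB.nm
    omega
  have hBN := BNr.of_bnum hN hsm hS.yb.1.le hS.yε he0 he42
  rw [h4] at hBN
  exact ⟨hN0.trans hS.n0, hN.tor, _, _, _, _, _, _, _, _, _, _, _, hBN⟩

/-- **`BlkT` as a family** -/
theorem fam_blkT (hb : 0 < b) (hb1 : 0 < b1) (hpf : 0 < pf) (hsg0 : 0 ≤ sg) (hsg : sg ≤ 1 / 4) :
    Fam b1 b2 pf fun P N0 => BlkT P b sg N0 :=
  (fam_blk hb hb1 hpf fun _ _ hC hc _ => numB hb hpf hsg0 hsg (by norm_num) hC hc).imp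
    fun _ _ _ _ _ _ h n m ε Y _ hS _ _ hE => h n m ε Y hS hE

end

end Vale.Agent.P159.H663
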