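import Vale.Agent.P159.H663.Drl1
import Vale.Agent.P159.H883.Lin2

/-!
P159 (helper663), S, module DOOR, law half, part 2: **tails of the linear functionals**.

* `fl_tT` : `w - tT w` is the divergence of the explicit flow `jT N q w`,
  `∑ (jT)² ≤ 4 q⁴ grd w` (`sq_jT`);
* `lin_exp` : exponential tail `2 exp (-x / (2 s))` for every level `x`;
* `tail_tT`, `tail_dT` : tails of `t ⟨w, (1 - tT) F⟩`; `tail_ln` : tails of `t ⟨w, F⟩`, `∑ w = 0`.
-/

open Finset Matrix MeasureTheory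

namespace Vale.Agent.P159.H663.Dr

open Vale.Agent.P159.TM.Spec (V)
open Vale.Agent.P159.TM.SpecC (Tor wT)
open Vale.Agent.P159.H276 (bxT bxT_add bxT_smul bxT_neg bxT_sub bxT_const bxT_addc sum_bxT)
open Vale.Agent.P159.H770 (Ed eS eT)
open Vale.Agent.P159.H883 (FlJ lin_tail nuM)
open Vale.Agent.P159.TM.H764 (Q Q_nonneg Q_par Q_shift Q_zsmul)

noncomputable section

variable {N q : ℕ} [NeZero N]

/-! ### increments -/

lemma Q_zpt_le (h : V N → ℝ) {i j i' j' : ℕ} (hi : i < q) (hj : j < q) (hi' : i' < q)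
    (hj' : j' < q) :
    Q h (((i : ZMod N), (j : ZMod N)) - ((i' : ZMod N), (j' : ZMod N))) ≤
      2 * (q : ℝ) ^ 2 * TM.H764.grd h := by
  have e : ((((i : ZMod N), (j : ZMod N)) - ((i' : ZMod N), (j' : ZMod N))) : V N) =
      ((i : ℤ) - i') • ((1 : ZMod N), (0 : ZMod N)) + ((j : ℤ) - j') • ((0 : ZMod N), (1 : ZMod N)) := by
    ext <;> simp
  have h1 := Q_par h (((i : ℤ) - i') • ((1 : ZMod N), (0 : ZMod N)))
    (((j : ℤ) - j') • ((0 : ZMod N), (1 : ZMod N)))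
  have h2 := Q_nonneg h (((j : ℤ) - j') • ((0 : ZMod N), (1 : ZMod N)) -
    ((i : ℤ) - i') • ((1 : ZMod N), (0 : ZMod N)))
  have h3 := Q_zsmul h ((1 : ZMod N), (0 : ZMod N)) ((i : ℤ) - i')
  have h4 := Q_zsmul h ((0 : ZMod N), (1 : ZMod N)) ((j : ℤ) - j')
  have key : ∀ {m m' : ℕ}, m < q → m' < q → (((m : ℤ) - m' : ℤ) : ℝ) ^ 2 ≤ (q : ℝ) ^ 2 := by
    intro m m' hm hm'
    have k1 : (m : ℝ) < q := by exact_mod_cast hm
    have k2 : (m' : ℝ) < q := by exact_mod_cast hm'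
    have k3 : (0 : ℝ) ≤ m := Nat.cast_nonneg m
    have k4 : (0 : ℝ) ≤ m' := Nat.cast_nonneg m'
    push_cast
    nlinarith
  have h5 := mul_le_mul_of_nonneg_right (key hi hi') (Q_nonneg h ((1 : ZMod N), (0 : ZMod N)))
  have h6 := mul_le_mul_of_nonneg_right (key hj hj') (Q_nonneg h ((0 : ZMod N), (1 : ZMod N)))
  rw [e]
  unfold TM.H764.grd
  linarith

/-- deviation of a translate from the box average -/
def dvn (N q : ℕ) [NeZero N] (w : V N → ℝ) (i j : ℕ) (x : V N) : ℝ :=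
  w (x + ((i : ZMod N), (j : ZMod N))) - bxT N q w x

lemma sum_dvn (hq : 0 < q) (w : V N → ℝ) (x : V N) :
    ∑ i ∈ range q, ∑ j ∈ range q, dvn N q w i j x = 0 := by
  have hq0 : (q : ℝ) ≠ 0 := by
    have : (0 : ℝ) < q := by exact_mod_cast hq
    exact this.ne'
  have h1 : ((q : ℝ) ^ 2)⁻¹ * ∑ i ∈ range q, ∑ j ∈ range q, dvn N q w i j x = 0 := by
    unfold dvn
    simp only [sum_sub_distrib, mul_sub]
    rw [avg_const hq]
    unfold bxT
    ring
  rcases mul_eq_zero.1 h1 with h2 | h2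
  · exact absurd h2 (by positivity)
  · exact h2

lemma sq_dvn (hq : 0 < q) (w : V N → ℝ) {i j : ℕ} (hi : i < q) (hj : j < q) :
    ∑ x, dvn N q w i j x ^ 2 ≤ 2 * (q : ℝ) ^ 2 * TM.H764.grd w := by
  have h1 : ∀ x, dvn N q w i j x = ((q : ℝ) ^ 2)⁻¹ * ∑ i' ∈ range q, ∑ j' ∈ range q,
      (w (x + ((i : ZMod N), (j : ZMod N))) - w (x + ((i' : ZMod N), (j' : ZMod N)))) := by
    intro x
    unfold dvn bxT
    exact sub_avg hq _ _
  simp only [h1]
  refine sum_sq_avg hq _ fun i' hi' j' hj' => ?_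
  rw [Q_shift]
  exact Q_zpt_le w hi hj (mem_range.1 hi') (mem_range.1 hj')

/-! ### paths -/

lemma sum_shift (f g : V N → ℝ) (a : V N) : ∑ x, f (x - a) * g x = ∑ x, f x * g (x + a) := by
  have := Equiv.sum_comp (Equiv.addRight a) fun x => f (x - a) * g x
  simp only [Equiv.coe_addRight, add_sub_cancel_right] at this
  exact this.symm

lemma sum_path (f D : V N → ℝ) (m : ℕ) (a : ℕ → V N) :
    ∑ x, (∑ k ∈ range m, f (x - a k)) * D x = ∑ x, f x * ∑ k ∈ range m, D (x + a k) := by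
  simp only [sum_mul, mul_sum]
  rw [sum_comm]
  conv_rhs => rw [sum_comm]
  exact sum_congr rfl fun k _ => sum_shift f D (a k)

lemma sq_path (f : V N → ℝ) (m : ℕ) (a : ℕ → V N) :
    ∑ x, (∑ k ∈ range m, f (x - a k)) ^ 2 ≤ (m : ℝ) ^ 2 * ∑ x, f x ^ 2 := by
  calc ∑ x, (∑ k ∈ range m, f (x - a k)) ^ 2
      ≤ ∑ x, (m : ℝ) * ∑ k ∈ range m, f (x - a k) ^ 2 := by
        refine sum_le_sum fun x _ => ?_
        have h1 : (∑ k ∈ range m, f (x - a k)) ^ 2 ≤
            ((range m).card : ℝ) * ∑ k ∈ range m, f (x - a k) ^ 2 := sq_sum_le_card_mul_sum_sq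
        rwa [card_range] at h1
    _ = (m : ℝ) * ∑ k ∈ range m, ∑ x, f (x - a k) ^ 2 := by
        rw [← mul_sum, sum_comm]
    _ = (m : ℝ) ^ 2 * ∑ x, f x ^ 2 := by
        have h2 : ∀ k ∈ range m, ∑ x, f (x - a k) ^ 2 = ∑ x, f x ^ 2 := fun k _ =>
          Equiv.sum_comp (Equiv.subRight (a k)) fun x => f x ^ 2
        rw [sum_congr rfl h2, sum_const, card_range, nsmul_eq_mul]
        ring

lemma tele1 (g : V N → ℝ) (x : V N) (i : ℕ) :
    ∑ k ∈ range i, (g (x + ((k : ZMod N), 0) + (1, 0)) - g (x + ((k : ZMod N), 0))) =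
      g (x + ((i : ZMod N), 0)) - g x := by
  have h := Finset.sum_range_sub (fun k : ℕ => g (x + ((k : ZMod N), 0))) i
  have e0 : x + (((0 : ℕ) : ZMod N), (0 : ZMod N)) = x := by ext <;> simp
  simp only [e0] at h
  rw [← h]
  refine sum_congr rfl fun k _ => ?_
  have e1 : x + ((k : ZMod N), (0 : ZMod N)) + (1, 0) = x + (((k + 1 : ℕ) : ZMod N), (0 : ZMod N)) := by
    rw [add_assoc]
    congr 1
    ext <;> simp
  rw [e1]

lemma tele2 (g : V N → ℝ) (x : V N) (i j : ℕ) :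
    ∑ k ∈ range j, (g (x + ((i : ZMod N), (k : ZMod N)) + (0, 1)) -
      g (x + ((i : ZMod N), (k : ZMod N)))) =
      g (x + ((i : ZMod N), (j : ZMod N))) - g (x + ((i : ZMod N), 0)) := by
  have h := Finset.sum_range_sub (fun k : ℕ => g (x + ((i : ZMod N), (k : ZMod N)))) j
  simp only [Nat.cast_zero] at h
  rw [← h]
  refine sum_congr rfl fun k _ => ?_
  have e1 : x + ((i : ZMod N), (k : ZMod N)) + (0, 1) =
      x + ((i : ZMod N), ((k + 1 : ℕ) : ZMod N)) := by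
    rw [add_assoc]
    congr 1
    ext <;> simp
  rw [e1]

/-- the flow of `w - tT w` -/
def jT (N q : ℕ) [NeZero N] (w : V N → ℝ) (e : Ed N) : ℝ :=
  if e.2 then ((q : ℝ) ^ 2)⁻¹ * ∑ i ∈ range q, ∑ j ∈ range q, ∑ k ∈ range j,
      dvn N q w i j (e.1 - ((i : ZMod N), (k : ZMod N)))
  else ((q : ℝ) ^ 2)⁻¹ * ∑ i ∈ range q, ∑ j ∈ range q, ∑ k ∈ range i,
      dvn N q w i j (e.1 - ((k : ZMod N), 0))

lemma jT_true (w : V N → ℝ) (x : V N) : jT N q w (x, true) =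
    ((q : ℝ) ^ 2)⁻¹ * ∑ i ∈ range q, ∑ j ∈ range q, ∑ k ∈ range j,
      dvn N q w i j (x - ((i : ZMod N), (k : ZMod N))) := rfl

lemma jT_false (w : V N → ℝ) (x : V N) : jT N q w (x, false) =
    ((q : ℝ) ^ 2)⁻¹ * ∑ i ∈ range q, ∑ j ∈ range q, ∑ k ∈ range i,
      dvn N q w i j (x - ((k : ZMod N), 0)) := rfl

/-- **norm of the flow** -/
theorem sq_jT (hq : 0 < q) (w : V N → ℝ) :
    ∑ e, jT N q w e ^ 2 ≤ 4 * (q : ℝ) ^ 4 * TM.H764.grd w := by
  rw [Fintype.sum_prod_type]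
  simp only [Fintype.sum_bool]
  rw [sum_add_distrib]
  simp only [jT_true, jT_false]
  have hB : ∀ i ∈ range q, ∀ j ∈ range q, ∀ m : ℕ, m < q → ∀ a : ℕ → V N,
      ∑ x, (∑ k ∈ range m, dvn N q w i j (x - a k)) ^ 2 ≤
        (q : ℝ) ^ 2 * (2 * (q : ℝ) ^ 2 * TM.H764.grd w) := by
    intro i hi j hj m hm a
    refine (sq_path _ m a).trans ?_
    have h1 := sq_dvn hq w (mem_range.1 hi) (mem_range.1 hj)
    have h2 : (m : ℝ) ^ 2 ≤ (q : ℝ) ^ 2 := by
      have : (m : ℝ) ≤ q := by exact_mod_cast hm.le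
      have h0 : (0 : ℝ) ≤ m := Nat.cast_nonneg m
      nlinarith
    have h3 : 0 ≤ ∑ x, dvn N q w i j x ^ 2 := sum_nonneg fun x _ => sq_nonneg _
    exact mul_le_mul h2 h1 h3 (by positivity)
  have h1 := sum_sq_avg hq (fun (x : V N) i j => ∑ k ∈ range j,
    dvn N q w i j (x - ((i : ZMod N), (k : ZMod N)))) fun i hi j hj =>
    hB i hi j hj j (mem_range.1 hj) fun k => ((i : ZMod N), (k : ZMod N))
  have h2 := sum_sq_avg hq (fun (x : V N) i j => ∑ k ∈ range i,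
    dvn N q w i j (x - ((k : ZMod N), 0))) fun i hi j hj =>
    hB i hi j hj i (mem_range.1 hi) fun k => ((k : ZMod N), 0)
  refine (add_le_add h1 h2).trans (le_of_eq ?_)
  ring

lemma bxT_dot_bxT (w g : V N → ℝ) :
    ∑ x, bxT N q w x * bxT N q g x = ∑ x, tT N q w x * g x := by
  rw [bxA_dot, ← tT_eq]

/-- **the flow** -/
theorem fl_tT (hq : 0 < q) (w : V N → ℝ) : FlJ (fun x => w x - tT N q w x) (jT N q w) := by
  have hq0 : (q : ℝ) ≠ 0 := by
    have : (0 : ℝ) < q := by exact_mod_cast hq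
    exact this.ne'
  intro g
  have hR : ∑ e : Ed N, jT N q w e * (g (eT N e) - g (eS N e)) =
      (∑ x, jT N q w (x, true) * (g (x + (0, 1)) - g x)) +
        ∑ x, jT N q w (x, false) * (g (x + (1, 0)) - g x) := by
    rw [Fintype.sum_prod_type]
    simp only [Fintype.sum_bool]
    rw [sum_add_distrib]
    rfl
  rw [hR]
  simp only [jT_true, jT_false]
  have swap : ∀ (Φ : ℕ → ℕ → V N → ℝ) (D : V N → ℝ),
      ∑ x, (((q : ℝ) ^ 2)⁻¹ * ∑ i ∈ range q, ∑ j ∈ range q, Φ i j x) * D x =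
        ((q : ℝ) ^ 2)⁻¹ * ∑ i ∈ range q, ∑ j ∈ range q, ∑ x, Φ i j x * D x := by
    intro Φ D
    have e1 : ∀ x, (((q : ℝ) ^ 2)⁻¹ * ∑ i ∈ range q, ∑ j ∈ range q, Φ i j x) * D x =
        ((q : ℝ) ^ 2)⁻¹ * ∑ i ∈ range q, ∑ j ∈ range q, Φ i j x * D x := by
      intro x
      rw [mul_assoc, sum_mul]
      congr 1
      refine sum_congr rfl fun i _ => ?_
      rw [sum_mul]
    simp only [e1]
    rw [← mul_sum, sum_comm]
    congr 1
    refine sum_congr rfl fun i _ => ?_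
    rw [sum_comm]
  rw [swap (fun i j x => ∑ k ∈ range j, dvn N q w i j (x - ((i : ZMod N), (k : ZMod N)))),
    swap (fun i j x => ∑ k ∈ range i, dvn N q w i j (x - ((k : ZMod N), 0)))]
  have p1 : ∀ i j : ℕ, ∑ x, (∑ k ∈ range j, dvn N q w i j (x - ((i : ZMod N), (k : ZMod N)))) *
      (g (x + (0, 1)) - g x) = ∑ x, dvn N q w i j x *
        (g (x + ((i : ZMod N), (j : ZMod N))) - g (x + ((i : ZMod N), 0))) := by
    intro i j
    rw [sum_path (dvn N q w i j) (fun x => g (x + (0, 1)) - g x) j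
      fun k => ((i : ZMod N), (k : ZMod N))]
    refine sum_congr rfl fun x _ => ?_
    rw [tele2]
  have p2 : ∀ i j : ℕ, ∑ x, (∑ k ∈ range i, dvn N q w i j (x - ((k : ZMod N), 0))) *
      (g (x + (1, 0)) - g x) = ∑ x, dvn N q w i j x * (g (x + ((i : ZMod N), 0)) - g x) := by
    intro i j
    rw [sum_path (dvn N q w i j) (fun x => g (x + (1, 0)) - g x) i fun k => ((k : ZMod N), 0)]
    refine sum_congr rfl fun x _ => ?_
    rw [tele1]
  simp only [p1, p2]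
  rw [← mul_add, ← sum_add_distrib]
  have p3 : ∀ i j : ℕ, (∑ x, dvn N q w i j x *
      (g (x + ((i : ZMod N), (j : ZMod N))) - g (x + ((i : ZMod N), 0)))) +
      ∑ x, dvn N q w i j x * (g (x + ((i : ZMod N), 0)) - g x) =
      (∑ x, dvn N q w i j x * g (x + ((i : ZMod N), (j : ZMod N)))) -
        ∑ x, dvn N q w i j x * g x := by
    intro i j
    rw [← sum_add_distrib, ← sum_sub_distrib]
    refine sum_congr rfl fun x _ => ?_
    ring
  simp only [← sum_add_distrib, p3, sum_sub_distrib]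
  -- the second sum vanishes
  have z1 : ∑ i ∈ range q, ∑ j ∈ range q, ∑ x, dvn N q w i j x * g x = 0 := by
    have e1 : ∑ i ∈ range q, ∑ j ∈ range q, ∑ x, dvn N q w i j x * g x =
        ∑ x, (∑ i ∈ range q, ∑ j ∈ range q, dvn N q w i j x) * g x := by
      simp only [sum_mul]
      rw [sum_comm (s := univ)]
      refine sum_congr rfl fun i _ => ?_
      rw [sum_comm]
    rw [e1]
    refine sum_eq_zero fun x _ => ?_
    rw [sum_dvn hq, zero_mul]
  rw [z1, sub_zero]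
  -- the first sum
  have z2 : ∀ i j : ℕ, ∑ x, dvn N q w i j x * g (x + ((i : ZMod N), (j : ZMod N))) =
      (∑ x, w x * g x) - ∑ x, bxT N q w x * g (x + ((i : ZMod N), (j : ZMod N))) := by
    intro i j
    have e1 : ∑ x, w (x + ((i : ZMod N), (j : ZMod N))) * g (x + ((i : ZMod N), (j : ZMod N))) =
        ∑ x, w x * g x :=
      Equiv.sum_comp (Equiv.addRight (((i : ZMod N), (j : ZMod N)) : V N)) fun x => w x * g x
    rw [← e1, ← sum_sub_distrib]
    refine sum_congr rfl fun x _ => ?_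
    unfold dvn
    ring
  simp only [z2, sum_sub_distrib, mul_sub]
  rw [avg_const hq]
  have z3 : ((q : ℝ) ^ 2)⁻¹ * ∑ i ∈ range q, ∑ j ∈ range q,
      ∑ x, bxT N q w x * g (x + ((i : ZMod N), (j : ZMod N))) = ∑ x, tT N q w x * g x := by
    rw [← bxT_dot_bxT]
    have e1 : ∀ x, bxT N q w x * bxT N q g x = ((q : ℝ) ^ 2)⁻¹ * ∑ i ∈ range q,
        ∑ j ∈ range q, bxT N q w x * g (x + ((i : ZMod N), (j : ZMod N))) := by
      intro x
      simp only [← mul_sum]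
      conv_lhs => rw [show bxT N q g x = ((q : ℝ) ^ 2)⁻¹ * ∑ i ∈ range q, ∑ j ∈ range q,
        g (x + ((i : ZMod N), (j : ZMod N))) from rfl]
      ring
    simp only [e1]
    rw [← mul_sum]
    congr 1
    rw [sum_comm (s := univ)]
    refine sum_congr rfl fun i _ => ?_
    rw [sum_comm (s := univ)]
  rw [z3, ← sum_sub_distrib]
  refine sum_congr rfl fun x _ => ?_
  ring

/-! ### tails -/

variable {b t : ℝ}

/-- **exponential tail of a linear functional** -/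
theorem lin_exp (hb : 0 < b) (ht : 0 < t) (x₀ : V N) {u : V N → ℝ} {j : Ed N → ℝ}
    (h : FlJ u j) {s : ℝ} (hs : 0 < s)
    (h1 : (∑ y, u y ^ 2) / t + 2 * b * ∑ e, j e ^ 2 ≤ s ^ 2) (h2 : ∑ e, j e ^ 2 ≤ s ^ 2) (x : ℝ) :
    (nuM (wT b N) (t • (1 : Matrix (V N) (V N) ℝ)) x₀).real {F | x < |∑ y, u y * F y|} ≤
      2 * Real.exp (-(x / (2 * s))) := by
  have := H883.prob_nuM (H963.gw_wT (N := N) hb.le) (H883.bw_wT hb) (H883.mf_scalar ht) x₀
  by_cases hx : x < s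
  · have h3 : -(1 / 2 : ℝ) ≤ -(x / (2 * s)) := by
      rw [neg_le_neg_iff, div_le_div_iff₀ (by positivity) two_pos]
      linarith
    have h4 : (1 : ℝ) ≤ 2 * Real.exp (-(x / (2 * s))) := by
      have h5 := Real.exp_le_exp.2 h3
      have h6 := Real.add_one_le_exp (-(1 / 2 : ℝ))
      linarith
    exact measureReal_le_one.trans h4
  · rw [not_lt] at hx
    have hx0 : 0 < x := hs.trans_le hx
    have h3 : s ^ 2 ≤ x * s := by nlinarith
    have h4 := lin_tail hb ht x₀ h (x := x) (V := x * s) hx0.le (by positivity) (h1.trans h3)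
      fun e => by
        refine mul_le_mul_of_nonneg_left ?_ hx0.le
        refine abs_le_of_sq_le_sq ?_ hs.le
        exact (single_le_sum (f := fun e => j e ^ 2) (fun e _ => sq_nonneg _) (mem_univ e)).trans h2
    refine h4.trans (le_of_eq ?_)
    congr 3
    field_simp

/-- **tail of `t ⟨w - tT w, F⟩`** -/
theorem tail_tT (hb : 0 < b) (ht : 0 < t) (x₀ : V N) (hq : 0 < q) (hd : q ∣ N) (w : V N → ℝ)
    {s : ℝ} (hs : 0 < s)
    (h1 : 16 * (t * (q : ℝ) ^ 2) * TM.H764.grd w + 8 * b * (t * (q : ℝ) ^ 2) ^ 2 * TM.H764.grd w ≤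
      s ^ 2) (h2 : 4 * (t * (q : ℝ) ^ 2) ^ 2 * TM.H764.grd w ≤ s ^ 2) (x : ℝ) :
    (nuM (wT b N) (t • (1 : Matrix (V N) (V N) ℝ)) x₀).real
      {F | x < |t * ∑ y, (w y - tT N q w y) * F y|} ≤ 2 * Real.exp (-(x / (2 * s))) := by
  have hf := (fl_tT hq w).smul t
  have hj : ∑ e, (t • jT N q w) e ^ 2 ≤ 4 * (t * (q : ℝ) ^ 2) ^ 2 * TM.H764.grd w := by
    have e1 : ∑ e, (t • jT N q w) e ^ 2 = t ^ 2 * ∑ e, jT N q w e ^ 2 := by
      rw [mul_sum]
      refine sum_congr rfl fun e _ => ?_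
      simp only [Pi.smul_apply, smul_eq_mul, mul_pow]
    rw [e1]
    have h3 := mul_le_mul_of_nonneg_left (sq_jT hq w) (sq_nonneg t)
    refine h3.trans (le_of_eq ?_)
    ring
  have hu : (∑ y, (t • fun x => w x - tT N q w x) y ^ 2) / t ≤
      16 * (t * (q : ℝ) ^ 2) * TM.H764.grd w := by
    have e1 : ∑ y, (t • fun x => w x - tT N q w x) y ^ 2 =
        t ^ 2 * ∑ y, (w y - tT N q w y) ^ 2 := by
      rw [mul_sum]
      refine sum_congr rfl fun e _ => ?_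
      simp only [Pi.smul_apply, smul_eq_mul, mul_pow]
    rw [e1, div_le_iff₀ ht]
    have h3 := mul_le_mul_of_nonneg_left (poin_tT hq hd w) (sq_nonneg t)
    refine h3.trans (le_of_eq ?_)
    ring
  have h3 := lin_exp hb ht x₀ hf hs (by
    have h4 : 2 * b * ∑ e, (t • jT N q w) e ^ 2 ≤
        8 * b * (t * (q : ℝ) ^ 2) ^ 2 * TM.H764.grd w := by
      have h5 := mul_le_mul_of_nonneg_left hj (by positivity : (0 : ℝ) ≤ 2 * b)
      refine h5.trans (le_of_eq ?_)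
      ring
    linarith) (hj.trans h2) x
  have e : {F : V N → ℝ | x < |t * ∑ y, (w y - tT N q w y) * F y|} =
      {F | x < |∑ y, (t • fun x => w x - tT N q w x) y * F y|} := by
    ext F
    simp only [Set.mem_ofPred_eq, Pi.smul_apply, smul_eq_mul, mul_assoc, ← mul_sum]
  rw [e]
  exact h3

/-- the same on the side of the field -/
theorem tail_dT (hb : 0 < b) (ht : 0 < t) (x₀ : V N) (hq : 0 < q) (hd : q ∣ N) (w : V N → ℝ)
    {s : ℝ} (hs : 0 < s)
    (h1 : 16 * (t * (q : ℝ) ^ 2) * TM.H764.grd w + 8 * b * (t * (q : ℝ) ^ 2) ^ 2 * TM.H764.grd w ≤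
      s ^ 2) (h2 : 4 * (t * (q : ℝ) ^ 2) ^ 2 * TM.H764.grd w ≤ s ^ 2) (x : ℝ) :
    (nuM (wT b N) (t • (1 : Matrix (V N) (V N) ℝ)) x₀).real
      {F | x < |t * ∑ y, w y * (F y - tT N q F y)|} ≤ 2 * Real.exp (-(x / (2 * s))) := by
  have e : {F : V N → ℝ | x < |t * ∑ y, w y * (F y - tT N q F y)|} =
      {F | x < |t * ∑ y, (w y - tT N q w y) * F y|} := by
    ext F
    simp only [Set.mem_ofPred_eq, mul_sub, sub_mul, sum_sub_distrib, tT_dot]
  rw [e]
  exact tail_tT hb ht x₀ hq hd w hs h1 h2 x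

/-! ### the full box -/

lemma sum_nat_zmod (f : ZMod N → ℝ) : ∑ i ∈ range N, f (i : ZMod N) = ∑ z, f z := by
  refine Finset.sum_bij (fun i _ => (i : ZMod N)) (fun _ _ => mem_univ _) ?_ ?_ fun _ _ => rfl
  · intro i hi j hj h
    rw [mem_range] at hi hj
    have := congrArg ZMod.val h
    rwa [ZMod.val_cast_of_lt hi, ZMod.val_cast_of_lt hj] at this
  · intro z _
    exact ⟨z.val, mem_range.2 (ZMod.val_lt z), ZMod.natCast_zmod_val z⟩

lemma bxT_full (h : V N → ℝ) (x : V N) : bxT N N h x = ((N : ℝ) ^ 2)⁻¹ * ∑ y, h y := by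
  unfold bxT
  congr 1
  rw [← Equiv.sum_comp (Equiv.addLeft x) h, Fintype.sum_prod_type]
  rw [sum_nat_zmod (fun a => ∑ j ∈ range N, h (x + (a, (j : ZMod N))))]
  refine sum_congr rfl fun a _ => ?_
  exact sum_nat_zmod (fun c => h (x + (a, c)))

lemma tT_full (h : V N → ℝ) (x : V N) : tT N N h x = ((N : ℝ) ^ 2)⁻¹ * ∑ y, h y := by
  unfold tT
  simp only [bxT_full]
  exact avg_const (NeZero.pos N) _

/-- **tail of `t ⟨w, F⟩`, `w` neutral** -/
theorem tail_ln (hb : 0 < b) (ht : 0 < t) (x₀ : V N) (w : V N → ℝ) (hw : ∑ y, w y = 0)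
    {s : ℝ} (hs : 0 < s)
    (h1 : 16 * (t * (N : ℝ) ^ 2) * TM.H764.grd w + 8 * b * (t * (N : ℝ) ^ 2) ^ 2 * TM.H764.grd w ≤
      s ^ 2) (h2 : 4 * (t * (N : ℝ) ^ 2) ^ 2 * TM.H764.grd w ≤ s ^ 2) (x : ℝ) :
    (nuM (wT b N) (t • (1 : Matrix (V N) (V N) ℝ)) x₀).real {F | x < |t * ∑ y, w y * F y|} ≤
      2 * Real.exp (-(x / (2 * s))) := by
  have h3 := tail_tT hb ht x₀ (NeZero.pos N) (dvd_refl N) w hs h1 h2 x
  simp only [tT_full, hw, mul_zero, sub_zero] at h3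
  exact h3

end

end Vale.Agent.P159.H663.Dr
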