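import Vale.Agent.P159.H663.Drl4

/-!
P159 (helper663), flows of box means (helper773's `Jn2`).

* `FB u S A` : `u` is the divergence of a flow `j` with `∑ j² ≤ S²`, `|j| ≤ A`; closed under sums,
  multiples, averages, translations, the box averages and the tent average;
* `km N l a` : kernel of the box mean `F ↦ bxT N l F a`; `km2` : kernel of the double mean;
* `fb_step` : `FB (km a - km (a + (i, j))) (√(i² + j²)/l) (max i j / l²)`;
* `fb_far` : `FB (km q - km p) (3 (K + 1)) (4 / l)` for `q`, `p` at sup distance `≤ 2 ^ K l ≤ N`;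
* `sq_km`, `sq_km2_grad` : `∑ (km2 (a + e) - km2 a)² ≤ 8 / l⁴`.
-/

set_option linter.unusedSectionVars false

open Finset Matrix MeasureTheory

namespace Vale.Agent.P159.H663.Dr

open Vale.Agent.P159.TM.Spec (V)
open Vale.Agent.P159.TM.SpecC (Tor wT)
open Vale.Agent.P159.H276 (bxT bxT_add bxT_smul bxT_neg bxT_sub bxT_const bxT_addc sum_bxT)
open Vale.Agent.P159.H770 (Ed eS eT)
open Vale.Agent.P159.H883 (FlJ lin_tail nuM)
open Vale.Agent.P159.TM.H764 (Q)

noncomputable section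

variable {N l q : ℕ} [NeZero N]

/-- functional with a bounded flow -/
def FB (u : V N → ℝ) (S A : ℝ) : Prop :=
  ∃ j : Ed N → ℝ, FlJ u j ∧ ∑ e, j e ^ 2 ≤ S ^ 2 ∧ ∀ e, |j e| ≤ A

lemma FB.mono {u : V N → ℝ} {S A S' A' : ℝ} (h : FB u S A) (hS : 0 ≤ S) (h1 : S ≤ S')
    (h2 : A ≤ A') : FB u S' A' := by
  obtain ⟨j, a, b, c⟩ := h
  exact ⟨j, a, b.trans (pow_le_pow_left₀ hS h1 2), fun e => (c e).trans h2⟩

lemma FB.add {u v : V N → ℝ} {S A S' A' : ℝ} (h : FB u S A) (h' : FB v S' A') (hS : 0 ≤ S)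
    (hS' : 0 ≤ S') : FB (u + v) (S + S') (A + A') := by
  obtain ⟨j, a, b, c⟩ := h
  obtain ⟨k, a', b', c'⟩ := h'
  refine ⟨j + k, ?_, ?_, fun e => (abs_add_le _ _).trans (add_le_add (c e) (c' e))⟩
  · intro g
    simp only [Pi.add_apply, add_mul, sum_add_distrib]
    rw [a g, a' g]
  · have h1 := Finset.sum_mul_sq_le_sq_mul_sq univ j k
    have h2 : (∑ e, j e * k e) ^ 2 ≤ (S * S') ^ 2 := by
      rw [mul_pow]
      exact h1.trans (mul_le_mul b b' (by positivity) (by positivity))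
    have h3 : ∑ e, j e * k e ≤ S * S' :=
      (le_abs_self _).trans (abs_le_of_sq_le_sq h2 (mul_nonneg hS hS'))
    have h4 : ∑ e, (j + k) e ^ 2 = ∑ e, j e ^ 2 + 2 * ∑ e, j e * k e + ∑ e, k e ^ 2 := by
      rw [mul_sum, ← sum_add_distrib, ← sum_add_distrib]
      refine sum_congr rfl fun e _ => ?_
      simp only [Pi.add_apply]
      ring
    rw [h4]
    nlinarith

lemma FB.neg {u : V N → ℝ} {S A : ℝ} (h : FB u S A) : FB (-u) S A := by
  obtain ⟨j, a, b, c⟩ := h
  refine ⟨-j, ?_, ?_, fun e => ?_⟩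
  · intro g
    simp only [Pi.neg_apply, neg_mul, sum_neg_distrib]
    rw [a g]
  · simpa only [Pi.neg_apply, neg_sq] using b
  · rw [Pi.neg_apply, abs_neg]
    exact c e

lemma FB.sub {u v : V N → ℝ} {S A S' A' : ℝ} (h : FB u S A) (h' : FB v S' A') (hS : 0 ≤ S)
    (hS' : 0 ≤ S') : FB (u - v) (S + S') (A + A') := by
  rw [sub_eq_add_neg]
  exact h.add h'.neg hS hS'

lemma FB.smul {u : V N → ℝ} {S A : ℝ} (h : FB u S A) (c : ℝ) : FB (c • u) (|c| * S) (|c| * A) := by
  obtain ⟨j, a, b, d⟩ := h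
  refine ⟨c • j, a.smul c, ?_, fun e => ?_⟩
  · rw [mul_pow, sq_abs]
    have e1 : ∑ e, (c • j) e ^ 2 = c ^ 2 * ∑ e, j e ^ 2 := by
      rw [mul_sum]
      refine sum_congr rfl fun e _ => ?_
      simp only [Pi.smul_apply, smul_eq_mul, mul_pow]
    rw [e1]
    exact mul_le_mul_of_nonneg_left b (sq_nonneg c)
  · rw [Pi.smul_apply, smul_eq_mul, abs_mul]
    exact mul_le_mul_of_nonneg_left (d e) (abs_nonneg c)

lemma FB.zero : FB (0 : V N → ℝ) 0 0 :=
  ⟨0, fun g => by simp, by simp, fun e => by simp⟩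

/-- averages -/
lemma FB.avg {ι : Type*} (s : Finset ι) {w : ι → ℝ} (hw : ∀ i ∈ s, 0 ≤ w i)
    (hw1 : ∑ i ∈ s, w i = 1) {u : ι → V N → ℝ} {S A : ℝ} (h : ∀ i ∈ s, FB (u i) S A) :
    FB (fun x => ∑ i ∈ s, w i * u i x) S A := by
  classical
  have hA : ∀ i : ι, ∃ j : Ed N → ℝ, i ∈ s → (FlJ (u i) j ∧ ∑ e, j e ^ 2 ≤ S ^ 2 ∧
      ∀ e, |j e| ≤ A) := by
    intro i
    by_cases hi : i ∈ s
    · obtain ⟨j, hj⟩ := h i hi
      exact ⟨j, fun _ => hj⟩
    · exact ⟨0, fun hi' => absurd hi' hi⟩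
  choose j hj using hA
  refine ⟨fun e => ∑ i ∈ s, w i * j i e, ?_, ?_, fun e => ?_⟩
  · intro g
    have e1 : ∑ x, (∑ i ∈ s, w i * u i x) * g x = ∑ i ∈ s, w i * ∑ x, u i x * g x := by
      simp only [sum_mul, mul_sum, mul_assoc]
      exact sum_comm
    have e2 : ∑ e, (∑ i ∈ s, w i * j i e) * (g (eT N e) - g (eS N e)) =
        ∑ i ∈ s, w i * ∑ e, j i e * (g (eT N e) - g (eS N e)) := by
      simp only [sum_mul, mul_sum, mul_assoc]
      exact sum_comm
    rw [e1, e2]
    exact sum_congr rfl fun i hi => by rw [(hj i hi).1 g]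
  · have h1 : ∀ e, (∑ i ∈ s, w i * j i e) ^ 2 ≤ ∑ i ∈ s, w i * j i e ^ 2 := by
      intro e
      have := (convexOn_pow (𝕜 := ℝ) 2).map_sum_le (t := s) (w := w)
        (p := fun i => |j i e|) hw hw1 fun i _ => Set.mem_Ici.2 (abs_nonneg _)
      simp only [smul_eq_mul, sq_abs] at this
      refine le_trans ?_ this
      rw [← sq_abs]
      refine pow_le_pow_left₀ (abs_nonneg _) ?_ 2
      refine (abs_sum_le_sum_abs _ _).trans (sum_le_sum fun i hi => ?_)
      rw [abs_mul, abs_of_nonneg (hw i hi)]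
    calc ∑ e, (∑ i ∈ s, w i * j i e) ^ 2 ≤ ∑ e, ∑ i ∈ s, w i * j i e ^ 2 :=
          sum_le_sum fun e _ => h1 e
      _ = ∑ i ∈ s, w i * ∑ e, j i e ^ 2 := by
          simp only [mul_sum]
          exact sum_comm
      _ ≤ ∑ i ∈ s, w i * S ^ 2 :=
          sum_le_sum fun i hi => mul_le_mul_of_nonneg_left (hj i hi).2.1 (hw i hi)
      _ = S ^ 2 := by rw [← sum_mul, hw1, one_mul]
  · calc |∑ i ∈ s, w i * j i e| ≤ ∑ i ∈ s, |w i * j i e| := abs_sum_le_sum_abs _ _
      _ ≤ ∑ i ∈ s, w i * A := sum_le_sum fun i hi => by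
          rw [abs_mul, abs_of_nonneg (hw i hi)]
          exact mul_le_mul_of_nonneg_left ((hj i hi).2.2 e) (hw i hi)
      _ = A := by rw [← sum_mul, hw1, one_mul]

/-- translations -/
lemma FB.tr {u : V N → ℝ} {S A : ℝ} (h : FB u S A) (z : V N) : FB (fun x => u (x + z)) S A := by
  obtain ⟨j, a, b, c⟩ := h
  have hb : Function.Bijective fun e : Ed N => ((e.1 + z, e.2) : Ed N) := by
    constructor
    · rintro ⟨x, s⟩ ⟨y, s'⟩ h
      simp only [Prod.mk.injEq] at h
      obtain ⟨h1, rfl⟩ := h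
      rw [add_right_cancel h1]
    · rintro ⟨x, s⟩
      exact ⟨(x - z, s), by simp⟩
  refine ⟨fun e => j (e.1 + z, e.2), ?_, ?_, fun e => c _⟩
  · intro g
    have h1 := a fun x => g (x - z)
    have e1 : ∑ x, u (x + z) * g x = ∑ x, u x * g (x - z) := by
      rw [← Equiv.sum_comp (Equiv.addRight z) fun x => u x * g (x - z)]
      simp only [Equiv.coe_addRight, add_sub_cancel_right]
    rw [e1, h1]
    rw [← hb.sum_comp fun e : Ed N => j e * (g (eT N e - z) - g (eS N e - z))]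
    refine sum_congr rfl fun e _ => ?_
    have e2 : eT N ((e.1 + z, e.2) : Ed N) - z = eT N e := by
      unfold H770.eT
      by_cases h : e.2
      · simp only [h, if_true]
        abel
      · simp only [h, if_false, Bool.false_eq_true]
        abel
    have e3 : eS N ((e.1 + z, e.2) : Ed N) - z = eS N e := by
      unfold H770.eS
      exact add_sub_cancel_right _ _
    rw [e2, e3]
  · rw [hb.sum_comp fun e : Ed N => j e ^ 2]
    exact b

lemma avg_wt (hl : 0 < l) : ∑ _p ∈ range l ×ˢ range l, ((l : ℝ) ^ 2)⁻¹ = 1 := by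
  have h : (0 : ℝ) < l := by exact_mod_cast hl
  rw [sum_const, card_product, card_range, nsmul_eq_mul]
  push_cast
  field_simp

lemma FB.bxT {u : V N → ℝ} {S A : ℝ} (h : FB u S A) (hl : 0 < l) : FB (bxT N l u) S A := by
  have h1 := FB.avg (range l ×ˢ range l) (w := fun _ => ((l : ℝ) ^ 2)⁻¹)
    (u := fun p x => u (x + ((p.1 : ZMod N), (p.2 : ZMod N)))) (fun _ _ => by positivity)
    (avg_wt hl) fun p _ => h.tr _
  have e : (fun x => ∑ p ∈ range l ×ˢ range l, ((l : ℝ) ^ 2)⁻¹ *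
      u (x + ((p.1 : ZMod N), (p.2 : ZMod N)))) = H276.bxT N l u := by
    funext x
    unfold H276.bxT
    rw [sum_product, mul_sum]
    refine sum_congr rfl fun i _ => ?_
    rw [mul_sum]
  rwa [e] at h1

lemma FB.bxA {u : V N → ℝ} {S A : ℝ} (h : FB u S A) (hl : 0 < l) : FB (bxA N l u) S A := by
  have h1 := FB.avg (range l ×ˢ range l) (w := fun _ => ((l : ℝ) ^ 2)⁻¹)
    (u := fun p x => u (x + -((p.1 : ZMod N), (p.2 : ZMod N)))) (fun _ _ => by positivity)
    (avg_wt hl) fun p _ => h.tr _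
  have e : (fun x => ∑ p ∈ range l ×ˢ range l, ((l : ℝ) ^ 2)⁻¹ *
      u (x + -((p.1 : ZMod N), (p.2 : ZMod N)))) = Dr.bxA N l u := by
    funext x
    unfold Dr.bxA
    rw [sum_product, mul_sum]
    refine sum_congr rfl fun i _ => ?_
    rw [mul_sum]
    refine sum_congr rfl fun j _ => ?_
    rw [sub_eq_add_neg]
  rwa [e] at h1

lemma FB.tT {u : V N → ℝ} {S A : ℝ} (h : FB u S A) (hq : 0 < q) : FB (tT N q u) S A := by
  rw [tT_eq]
  exact (h.bxT hq).bxA hq

/-! ### kernels of the box means -/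

/-- kernel of the box mean -/
def km (N l : ℕ) [NeZero N] (a : V N) : V N → ℝ := bxA N l (dl a)

/-- kernel of the double mean -/
def km2 (N l : ℕ) [NeZero N] (a : V N) : V N → ℝ := bxA N l (km N l a)

lemma km_dot (a : V N) (F : V N → ℝ) : ∑ y, km N l a y * F y = bxT N l F a := by
  unfold km
  rw [← bxA_dot, sum_dl]

lemma km2_dot (a : V N) (F : V N → ℝ) : ∑ y, km2 N l a y * F y = bxT N l (bxT N l F) a := by
  unfold km2
  rw [← bxA_dot, km_dot]

lemma km_nonneg (a y : V N) : 0 ≤ km N l a y := by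
  unfold km bxA dl
  refine mul_nonneg (by positivity) (sum_nonneg fun i _ => sum_nonneg fun j _ => ?_)
  split_ifs <;> norm_num

lemma km_le (hlN : l ≤ N) (a y : V N) : km N l a y ≤ ((l : ℝ) ^ 2)⁻¹ := by
  unfold km bxA
  have h1 : ∑ i ∈ range l, ∑ j ∈ range l, dl a (y - ((i : ZMod N), (j : ZMod N))) ≤ 1 := by
    rw [← Finset.sum_product']
    have h2 : ∀ p ∈ range l ×ˢ range l, dl a (y - ((p.1 : ZMod N), (p.2 : ZMod N))) =
        if p = ((y - a).1.val, (y - a).2.val) then (1 : ℝ) else 0 := by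
      intro p hp
      rw [mem_product, mem_range, mem_range] at hp
      unfold dl
      have hiff : y - ((p.1 : ZMod N), (p.2 : ZMod N)) = a ↔
          p = ((y - a).1.val, (y - a).2.val) := by
        constructor
        · intro h
          have h3 : ((p.1 : ZMod N), (p.2 : ZMod N)) = y - a := by rw [← h]; abel
          have h4 : (y - a).1.val = p.1 := by
            rw [← h3]
            exact ZMod.val_cast_of_lt (hp.1.trans_le hlN)
          have h5 : (y - a).2.val = p.2 := by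
            rw [← h3]
            exact ZMod.val_cast_of_lt (hp.2.trans_le hlN)
          rw [h4, h5]
        · intro h
          rw [h]
          simp only [ZMod.natCast_val, ZMod.cast_id', id_eq]
          exact sub_sub_cancel y a
      simp only [hiff]
    rw [sum_congr rfl h2, Finset.sum_ite_eq']
    split_ifs <;> norm_num
  have h3 := mul_le_mul_of_nonneg_left h1 (by positivity : (0 : ℝ) ≤ ((l : ℝ) ^ 2)⁻¹)
  linarith

lemma sum_bxA (hl : 0 < l) (h : V N → ℝ) : ∑ x, bxA N l h x = ∑ x, h x := by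
  have e := tT_const (N := N) hl 1
  have h1 := bxA_dot (q := l) h (fun _ => (1 : ℝ))
  rw [bxT_const hl] at h1
  simpa using h1.symm

lemma sum_km (hl : 0 < l) (a : V N) : ∑ y, km N l a y = 1 := by
  unfold km
  rw [sum_bxA hl]
  have := sum_dl a fun _ => (1 : ℝ)
  simpa using this

lemma sq_km (hl : 0 < l) (hlN : l ≤ N) (a : V N) : ∑ y, km N l a y ^ 2 ≤ ((l : ℝ) ^ 2)⁻¹ := by
  calc ∑ y, km N l a y ^ 2 ≤ ∑ y, ((l : ℝ) ^ 2)⁻¹ * km N l a y := by
        refine sum_le_sum fun y _ => ?_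
        rw [pow_two]
        exact mul_le_mul_of_nonneg_right (km_le hlN a y) (km_nonneg a y)
    _ = ((l : ℝ) ^ 2)⁻¹ := by rw [← mul_sum, sum_km hl, mul_one]

lemma sq_km_sub (hl : 0 < l) (hlN : l ≤ N) (a c : V N) :
    ∑ y, (km N l a y - km N l c y) ^ 2 ≤ 2 * ((l : ℝ) ^ 2)⁻¹ := by
  have h1 := sq_km hl hlN a
  have h2 := sq_km hl hlN c
  have h3 : ∑ y, (km N l a y - km N l c y) ^ 2 ≤ ∑ y, (km N l a y ^ 2 + km N l c y ^ 2) := by
    refine sum_le_sum fun y _ => ?_
    have := mul_nonneg (km_nonneg (l := l) a y) (km_nonneg (l := l) c y)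
    nlinarith
  rw [sum_add_distrib] at h3
  linarith

lemma km_add (a z y : V N) : km N l (a + z) y = km N l a (y - z) := by
  unfold km bxA dl
  congr 1
  refine sum_congr rfl fun i _ => sum_congr rfl fun j _ => ?_
  congr 1
  rw [eq_iff_iff, ← sub_eq_iff_eq_add, sub_right_comm]

lemma bxA_shift (h : V N → ℝ) (z : V N) : bxA N l (fun y => h (y - z)) = fun x => bxA N l h (x - z) := by
  funext x
  unfold bxA
  congr 1
  refine sum_congr rfl fun i _ => sum_congr rfl fun j _ => ?_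
  show h (x - ((i : ZMod N), (j : ZMod N)) - z) = h (x - z - ((i : ZMod N), (j : ZMod N)))
  rw [sub_right_comm]

lemma km2_add (a z y : V N) : km2 N l (a + z) y = km2 N l a (y - z) := by
  unfold km2
  have e : km N l (a + z) = fun y => km N l a (y - z) := funext fun y => km_add a z y
  rw [e, bxA_shift]

/-- **gradient of the kernel of the double mean** -/
theorem sq_km2_grad (hl : 0 < l) (hlN : l ≤ N) (a : V N) {d : V N}
    (hd : d = (1, 0) ∨ d = (0, 1)) :
    ∑ y, (km2 N l (a + d) y - km2 N l a y) ^ 2 ≤ 8 * ((l : ℝ) ^ 4)⁻¹ := by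
  simp only [km2_add]
  have e1 : ∑ y, (km2 N l a (y - d) - km2 N l a y) ^ 2 = Q (km2 N l a) (-d) := by
    unfold TM.H764.Q
    simp only [sub_eq_add_neg]
  rw [e1, TM.H764.Q_neg]
  have h1 : Q (km2 N l a) d ≤ TM.H764.grd (km2 N l a) := by
    unfold TM.H764.grd
    rcases hd with rfl | rfl
    · linarith [TM.H764.Q_nonneg (km2 N l a) ((0 : ZMod N), (1 : ZMod N))]
    · linarith [TM.H764.Q_nonneg (km2 N l a) ((1 : ZMod N), (0 : ZMod N))]
  refine h1.trans ?_
  unfold km2
  refine (grd_bxA hl _).trans ?_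
  refine (mul_le_mul_of_nonneg_left (sq_km hl hlN a) (by positivity)).trans (le_of_eq ?_)
  rw [mul_assoc, ← mul_inv]
  ring

/-! ### the flows -/

lemma grad_km (a : V N) (g : V N → ℝ) (d : V N) :
    bxT N l g (a + d) - bxT N l g a = ∑ y, km N l a y * (g (y + d) - g y) := by
  rw [km_dot a (fun y => g (y + d) - g y)]
  have e : (fun y => g (y + d) - g y) = (fun y => g (y + d)) - g := rfl
  rw [e, bxT_sub, Pi.sub_apply]
  congr 1
  have := bxT_shift (q := l) g (-d) a
  simp only [sub_neg_eq_add] at this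
  exact this.symm

/-- **the elementary flow** -/
theorem fb_step (hl : 0 < l) (hlN : l ≤ N) (a : V N) (i j : ℕ) {S A : ℝ}
    (h1 : ((i : ℝ) ^ 2 + (j : ℝ) ^ 2) / (l : ℝ) ^ 2 ≤ S ^ 2) (h2 : (i : ℝ) / (l : ℝ) ^ 2 ≤ A)
    (h3 : (j : ℝ) / (l : ℝ) ^ 2 ≤ A) :
    FB (km N l a - km N l (a + ((i : ZMod N), (j : ZMod N)))) S A := by
  have hl0 : (0 : ℝ) < l := by exact_mod_cast hl
  refine ⟨fun e => if e.2 then -∑ k ∈ range j, km N l (a + ((i : ZMod N), (k : ZMod N))) e.1
    else -∑ k ∈ range i, km N l (a + ((k : ZMod N), 0)) e.1, ?_, ?_, fun e => ?_⟩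
  · intro g
    have hR : ∑ e : Ed N, (if e.2 then -∑ k ∈ range j,
          km N l (a + ((i : ZMod N), (k : ZMod N))) e.1
        else -∑ k ∈ range i, km N l (a + ((k : ZMod N), 0)) e.1) * (g (eT N e) - g (eS N e)) =
        (∑ x, (-∑ k ∈ range j, km N l (a + ((i : ZMod N), (k : ZMod N))) x) *
          (g (x + (0, 1)) - g x)) +
        ∑ x, (-∑ k ∈ range i, km N l (a + ((k : ZMod N), 0)) x) * (g (x + (1, 0)) - g x) := by
      rw [Fintype.sum_prod_type]
      simp only [Fintype.sum_bool]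
      rw [sum_add_distrib]
      rfl
    have hL : ∑ x, (km N l a - km N l (a + ((i : ZMod N), (j : ZMod N)))) x * g x =
        bxT N l g a - bxT N l g (a + ((i : ZMod N), (j : ZMod N))) := by
      simp only [Pi.sub_apply, sub_mul, sum_sub_distrib]
      rw [km_dot, km_dot]
    have q1 : ∑ x, (-∑ k ∈ range j, km N l (a + ((i : ZMod N), (k : ZMod N))) x) *
        (g (x + (0, 1)) - g x) = -(bxT N l g (a + ((i : ZMod N), (j : ZMod N))) -
          bxT N l g (a + ((i : ZMod N), 0))) := by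
      rw [← tele2 (bxT N l g) a i j]
      simp only [neg_mul, sum_neg_distrib, sum_mul, neg_inj]
      rw [sum_comm]
      refine sum_congr rfl fun k _ => ?_
      rw [grad_km]
    have q2 : ∑ x, (-∑ k ∈ range i, km N l (a + ((k : ZMod N), 0)) x) *
        (g (x + (1, 0)) - g x) = -(bxT N l g (a + ((i : ZMod N), 0)) - bxT N l g a) := by
      rw [← tele1 (bxT N l g) a i]
      simp only [neg_mul, sum_neg_distrib, sum_mul, neg_inj]
      rw [sum_comm]
      refine sum_congr rfl fun k _ => ?_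
      rw [grad_km]
    rw [hL]
    refine Eq.trans ?_ hR.symm
    rw [q1, q2]
    ring
  · have key : ∀ (m : ℕ) (c : ℕ → V N), ∑ x, (-∑ k ∈ range m, km N l (c k) x) ^ 2 ≤
        (m : ℝ) ^ 2 * ((l : ℝ) ^ 2)⁻¹ := by
      intro m c
      calc ∑ x, (-∑ k ∈ range m, km N l (c k) x) ^ 2
          ≤ ∑ x, (m : ℝ) * ∑ k ∈ range m, km N l (c k) x ^ 2 := by
            refine sum_le_sum fun x _ => ?_
            have h4 : (∑ k ∈ range m, km N l (c k) x) ^ 2 ≤
                ((range m).card : ℝ) * ∑ k ∈ range m, km N l (c k) x ^ 2 :=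
              sq_sum_le_card_mul_sum_sq
            rw [card_range] at h4
            rwa [neg_sq]
        _ = (m : ℝ) * ∑ k ∈ range m, ∑ x, km N l (c k) x ^ 2 := by rw [← mul_sum, sum_comm]
        _ ≤ (m : ℝ) * ∑ _k ∈ range m, ((l : ℝ) ^ 2)⁻¹ :=
            mul_le_mul_of_nonneg_left (sum_le_sum fun k _ => sq_km hl hlN _) (Nat.cast_nonneg m)
        _ = (m : ℝ) ^ 2 * ((l : ℝ) ^ 2)⁻¹ := by
            rw [sum_const, card_range, nsmul_eq_mul]
            ring
    have e : ∑ e : Ed N, (if e.2 then -∑ k ∈ range j,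
          km N l (a + ((i : ZMod N), (k : ZMod N))) e.1
        else -∑ k ∈ range i, km N l (a + ((k : ZMod N), 0)) e.1) ^ 2 =
        (∑ x, (-∑ k ∈ range j, km N l (a + ((i : ZMod N), (k : ZMod N))) x) ^ 2) +
        ∑ x, (-∑ k ∈ range i, km N l (a + ((k : ZMod N), 0)) x) ^ 2 := by
      rw [Fintype.sum_prod_type]
      simp only [Fintype.sum_bool]
      rw [sum_add_distrib]
      rfl
    rw [e]
    refine (add_le_add (key j _) (key i _)).trans (le_trans (le_of_eq ?_) h1)
    rw [div_eq_mul_inv]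
    ring
  · have key : ∀ (m : ℕ) (c : ℕ → V N) (x : V N), |-∑ k ∈ range m, km N l (c k) x| ≤
        (m : ℝ) / (l : ℝ) ^ 2 := by
      intro m c x
      rw [abs_neg]
      calc |∑ k ∈ range m, km N l (c k) x| ≤ ∑ k ∈ range m, |km N l (c k) x| :=
            abs_sum_le_sum_abs _ _
        _ ≤ ∑ _k ∈ range m, ((l : ℝ) ^ 2)⁻¹ := sum_le_sum fun k _ => by
            rw [abs_of_nonneg (km_nonneg _ _)]
            exact km_le hlN _ _
        _ = (m : ℝ) / (l : ℝ) ^ 2 := by
            rw [sum_const, card_range, nsmul_eq_mul, div_eq_mul_inv]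
    by_cases he : e.2
    · simp only [he, if_true]
      exact (key j _ _).trans h3
    · simp only [he, if_false, Bool.false_eq_true]
      exact (key i _ _).trans h2

/-- the step, distance at most `l` -/
theorem fb_one (hl : 0 < l) (hlN : l ≤ N) (a : V N) {i j : ℕ} (hi : i ≤ l) (hj : j ≤ l) :
    FB (km N l a - km N l (a + ((i : ZMod N), (j : ZMod N)))) (3 / 2) (1 / l) := by
  have hl0 : (0 : ℝ) < l := by exact_mod_cast hl
  have hi' : (i : ℝ) ≤ l := by exact_mod_cast hi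
  have hj' : (j : ℝ) ≤ l := by exact_mod_cast hj
  have h0i : (0 : ℝ) ≤ i := Nat.cast_nonneg i
  have h0j : (0 : ℝ) ≤ j := Nat.cast_nonneg j
  refine fb_step hl hlN a i j ?_ ?_ ?_
  · rw [div_le_iff₀ (by positivity)]
    nlinarith
  · rw [div_le_div_iff₀ (by positivity) hl0]
    nlinarith
  · rw [div_le_div_iff₀ (by positivity) hl0]
    nlinarith

/-- doubling the side -/
lemma bxT_two (hl : 0 < l) (g : V N → ℝ) (a : V N) :
    bxT N (2 * l) g a = ∑ p ∈ range 2 ×ˢ range 2, (1 / 4 : ℝ) *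
      bxT N l g (a + (((p.1 * l : ℕ) : ZMod N), ((p.2 * l : ℕ) : ZMod N))) := by
  have hl0 : (0 : ℝ) < l := by exact_mod_cast hl
  have key : ∀ f : ℕ → ℝ, ∑ i ∈ range (2 * l), f i =
      ∑ s ∈ range 2, ∑ i ∈ range l, f (s * l + i) := by
    intro f
    rw [two_mul, sum_range_add, sum_range_succ, sum_range_succ, sum_range_zero, zero_add]
    simp only [zero_mul, zero_add, one_mul]
  have e1 : ∀ p : ℕ × ℕ, (1 / 4 : ℝ) *
      bxT N l g (a + (((p.1 * l : ℕ) : ZMod N), ((p.2 * l : ℕ) : ZMod N))) =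
      (((2 * l : ℕ) : ℝ) ^ 2)⁻¹ * ∑ i ∈ range l, ∑ j ∈ range l,
        g (a + (((p.1 * l + i : ℕ) : ZMod N), ((p.2 * l + j : ℕ) : ZMod N))) := by
    intro p
    unfold H276.bxT
    rw [← mul_assoc]
    congr 1
    · push_cast
      field_simp
      norm_num
    · refine sum_congr rfl fun i _ => sum_congr rfl fun j _ => ?_
      congr 1
      rw [add_assoc]
      congr 1
      ext <;> simp
  rw [sum_congr rfl fun p _ => e1 p, ← mul_sum, sum_product]
  unfold H276.bxT
  congr 1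
  rw [key]
  refine sum_congr rfl fun s _ => ?_
  rw [sum_comm' (s := range 2) (t := fun _ => range l) (s' := fun _ => range 2) (t' := range l)
    (fun _ _ => by simp [and_comm])]
  refine sum_congr rfl fun i _ => ?_
  rw [key]

/-- **dyadic step** -/
theorem fb_two (hl : 0 < l) (hlN : l ≤ N) (a : V N) :
    FB (km N l a - km N (2 * l) a) (3 / 2) (1 / l) := by
  have h1 := FB.avg (range 2 ×ˢ range 2) (w := fun _ => (1 / 4 : ℝ))
    (u := fun p => km N l a - km N l (a + (((p.1 * l : ℕ) : ZMod N), ((p.2 * l : ℕ) : ZMod N))))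
    (S := 3 / 2) (A := 1 / l) (fun _ _ => by norm_num) (by
      rw [sum_const, card_product, card_range, nsmul_eq_mul]
      norm_num) fun p hp => by
        rw [mem_product, mem_range, mem_range] at hp
        refine fb_one hl hlN a ?_ ?_
        · nlinarith [hp.1]
        · nlinarith [hp.2]
  obtain ⟨j, a1, a2, a3⟩ := h1
  refine ⟨j, fun g => ?_, a2, a3⟩
  rw [← a1 g]
  have e1 : ∑ x, (km N l a - km N (2 * l) a) x * g x = bxT N l g a - bxT N (2 * l) g a := by
    simp only [Pi.sub_apply, sub_mul, sum_sub_distrib]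
    rw [km_dot, km_dot]
  have e2 : ∑ x, (∑ p ∈ range 2 ×ˢ range 2, (1 / 4 : ℝ) * (km N l a - km N l (a +
      (((p.1 * l : ℕ) : ZMod N), ((p.2 * l : ℕ) : ZMod N)))) x) * g x =
      ∑ p ∈ range 2 ×ˢ range 2, (1 / 4 : ℝ) * (bxT N l g a -
        bxT N l g (a + (((p.1 * l : ℕ) : ZMod N), ((p.2 * l : ℕ) : ZMod N)))) := by
    simp only [sum_mul, mul_assoc]
    rw [sum_comm]
    refine sum_congr rfl fun p _ => ?_
    rw [← mul_sum]
    congr 1
    simp only [Pi.sub_apply, sub_mul, sum_sub_distrib]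
    rw [km_dot, km_dot]
  rw [e1, e2, bxT_two hl]
  simp only [mul_sub, sum_sub_distrib]
  rw [sum_const, card_product, card_range, nsmul_eq_mul]
  push_cast
  ring

/-- **dyadic chain** -/
theorem fb_chain (hl : 0 < l) (a : V N) (K : ℕ) (hK : 2 ^ K * l ≤ N) :
    FB (km N l a - km N (2 ^ K * l) a) (3 / 2 * K) ((2 - 2 / 2 ^ K) / l) := by
  have hl0 : (0 : ℝ) < l := by exact_mod_cast hl
  induction K with
  | zero =>
    have e : km N l a - km N (2 ^ 0 * l) a = (0 : V N → ℝ) := by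
      rw [pow_zero, one_mul, sub_self]
    rw [e]
    refine FB.zero.mono le_rfl (by simp) ?_
    norm_num
  | succ K ih =>
    have hK' : 2 ^ K * l ≤ N := by
      refine le_trans ?_ hK
      exact Nat.mul_le_mul_right l (Nat.pow_le_pow_right (by norm_num) (Nat.le_succ K))
    have h1 := ih hK'
    have hL : 0 < 2 ^ K * l := by positivity
    have h2 := fb_two hL hK' a
    have h3 := h1.add h2 (by positivity) (by norm_num)
    have e : km N l a - km N (2 ^ (K + 1) * l) a =
        (km N l a - km N (2 ^ K * l) a) + (km N (2 ^ K * l) a - km N (2 * (2 ^ K * l)) a) := by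
      rw [sub_add_sub_cancel]
      congr 2
      ring
    rw [e]
    refine h3.mono (by positivity) (le_of_eq ?_) (le_of_eq ?_)
    · push_cast
      ring
    · push_cast
      rw [pow_succ]
      field_simp
      ring

/-- the same side, distance at most `l`, any direction -/
theorem fb_same (hl : 0 < l) (hlN : l ≤ N) (p : V N) {a c : ℤ} (ha : |a| ≤ l) (hc : |c| ≤ l) :
    FB (km N l (p + ((a : ZMod N), (c : ZMod N))) - km N l p) 3 (2 / l) := by
  have hl0 : (0 : ℝ) < l := by exact_mod_cast hl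
  -- the corner `p + (max a 0, max c 0)`
  set m1 : ℕ := (max a 0).toNat with hm1
  set m2 : ℕ := (max c 0).toNat with hm2
  set k1 : ℕ := (max (-a) 0).toNat with hk1
  set k2 : ℕ := (max (-c) 0).toNat with hk2
  have b1 : m1 ≤ l := by have := abs_le.1 ha; omega
  have b2 : m2 ≤ l := by have := abs_le.1 hc; omega
  have b3 : k1 ≤ l := by have := abs_le.1 ha; omega
  have b4 : k2 ≤ l := by have := abs_le.1 hc; omega
  have e1 : (a : ZMod N) + (k1 : ZMod N) = (m1 : ZMod N) := by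
    have : a + (k1 : ℤ) = (m1 : ℤ) := by omega
    exact_mod_cast congrArg (fun z : ℤ => (z : ZMod N)) this
  have e2 : (c : ZMod N) + (k2 : ZMod N) = (m2 : ZMod N) := by
    have : c + (k2 : ℤ) = (m2 : ℤ) := by omega
    exact_mod_cast congrArg (fun z : ℤ => (z : ZMod N)) this
  have h1 := fb_one hl hlN (p + ((a : ZMod N), (c : ZMod N))) b3 b4
  have h2 := fb_one hl hlN p b1 b2
  have e3 : p + ((a : ZMod N), (c : ZMod N)) + ((k1 : ZMod N), (k2 : ZMod N)) =
      p + ((m1 : ZMod N), (m2 : ZMod N)) := by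
    have e5 : ((a : ZMod N), (c : ZMod N)) + ((k1 : ZMod N), (k2 : ZMod N)) =
        ((m1 : ZMod N), (m2 : ZMod N)) := Prod.ext e1 e2
    rw [add_assoc, e5]
  rw [e3] at h1
  have h3 := h1.sub h2 (by norm_num) (by norm_num)
  have e4 : km N l (p + ((a : ZMod N), (c : ZMod N))) - km N l p =
      (km N l (p + ((a : ZMod N), (c : ZMod N))) - km N l (p + ((m1 : ZMod N), (m2 : ZMod N)))) -
        (km N l p - km N l (p + ((m1 : ZMod N), (m2 : ZMod N)))) := by abel
  rw [e4]
  refine h3.mono (by norm_num) (by norm_num) (le_of_eq ?_)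
  ring

/-- **two distant boxes** -/
theorem fb_far (hl : 0 < l) (K : ℕ) (hK : 2 ^ K * l ≤ N) (p : V N) {a c : ℤ}
    (ha : |a| ≤ ((2 ^ K * l : ℕ) : ℤ)) (hc : |c| ≤ ((2 ^ K * l : ℕ) : ℤ)) :
    FB (km N l (p + ((a : ZMod N), (c : ZMod N))) - km N l p) (3 * (K + 1)) (4 / l) := by
  have hl0 : (0 : ℝ) < l := by exact_mod_cast hl
  have hL : 0 < 2 ^ K * l := by positivity
  set z := p + ((a : ZMod N), (c : ZMod N)) with hz
  have h1 := fb_chain hl z K hK
  have h2 := fb_chain hl p K hK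
  have h3 := fb_same hL hK p ha hc
  have h4 := (h1.add h3 (by positivity) (by norm_num)).sub h2 (by positivity) (by positivity)
  have e : km N l z - km N l p = (km N l z - km N (2 ^ K * l) z) +
      (km N (2 ^ K * l) z - km N (2 ^ K * l) p) - (km N l p - km N (2 ^ K * l) p) := by abel
  rw [e]
  refine h4.mono (by positivity) (le_of_eq ?_) ?_
  · ring
  · push_cast
    have h5 : (2 : ℝ) / (2 ^ K * l) = 2 / 2 ^ K / l := by rw [div_div]
    rw [h5, ← add_div, ← add_div]
    refine div_le_div_of_nonneg_right ?_ hl0.le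
    have : (0 : ℝ) < 2 / 2 ^ K := by positivity
    linarith

/-- the same, sup norm of the torus -/
theorem fb_sz (hl : 0 < l) (K : ℕ) (hK : 2 ^ K * l ≤ N) (p z : V N)
    (h : H817.sz (z - p) ≤ 2 ^ K * l) :
    FB (km N l z - km N l p) (3 * (K + 1)) (4 / l) := by
  have h1 : (z - p).1.valMinAbs.natAbs ≤ 2 ^ K * l := (le_max_left _ _).trans h
  have h2 : (z - p).2.valMinAbs.natAbs ≤ 2 ^ K * l := (le_max_right _ _).trans h
  have e : z = p + (((z - p).1.valMinAbs : ZMod N), ((z - p).2.valMinAbs : ZMod N)) := by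
    rw [ZMod.coe_valMinAbs, ZMod.coe_valMinAbs]
    exact (add_sub_cancel p z).symm
  have h3 := fb_far hl K hK p (a := (z - p).1.valMinAbs) (c := (z - p).2.valMinAbs)
    (by rw [Int.abs_eq_natAbs]; exact_mod_cast h1) (by rw [Int.abs_eq_natAbs]; exact_mod_cast h2)
  rwa [← e] at h3

/-! ### the double mean -/

lemma bxA_sub (h g : V N → ℝ) : bxA N l (h - g) = bxA N l h - bxA N l g := by
  funext x
  simp only [bxA, Pi.sub_apply, sum_sub_distrib, mul_sub]

/-- gradient of the double mean -/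
theorem fb_km2 (hl : 0 < l) (hlN : l ≤ N) (a : V N) {d : V N} (hd : d = (1, 0) ∨ d = (0, 1)) :
    FB ((l : ℝ) • (km2 N l (a + d) - km2 N l a)) 1 (1 / l) := by
  have hl0 : (0 : ℝ) < l := by exact_mod_cast hl
  have hone : (1 : ℝ) ≤ l := by exact_mod_cast hl
  have h1 : FB (km N l a - km N l (a + d)) (1 / l) (1 / (l : ℝ) ^ 2) := by
    rcases hd with rfl | rfl
    · have := fb_step hl hlN a 1 0 (S := 1 / l) (A := 1 / (l : ℝ) ^ 2)
        (by rw [div_pow]; norm_num) (by norm_num) (by norm_num)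
      simpa using this
    · have := fb_step hl hlN a 0 1 (S := 1 / l) (A := 1 / (l : ℝ) ^ 2)
        (by rw [div_pow]; norm_num) (by norm_num) (by norm_num)
      simpa using this
  have h2 := ((h1.bxA hl).neg).smul (l : ℝ)
  have e : (l : ℝ) • (km2 N l (a + d) - km2 N l a) =
      (l : ℝ) • -(bxA N l (km N l a - km N l (a + d))) := by
    rw [bxA_sub, neg_sub]
    rfl
  rw [e]
  refine h2.mono (by positivity) (le_of_eq ?_) (le_of_eq ?_)
  · rw [abs_of_pos hl0]
    field_simp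
  · rw [abs_of_pos hl0]
    field_simp

/-- noise part of the gradient of the double mean -/
theorem sq_km2 (hl : 0 < l) (hlN : l ≤ N) (a : V N) {d : V N} (hd : d = (1, 0) ∨ d = (0, 1)) :
    ∑ y, ((l : ℝ) • (km2 N l (a + d) - km2 N l a)) y ^ 2 ≤ 8 * ((l : ℝ) ^ 2)⁻¹ := by
  have hl0 : (0 : ℝ) < l := by exact_mod_cast hl
  have e : ∑ y, ((l : ℝ) • (km2 N l (a + d) - km2 N l a)) y ^ 2 =
      (l : ℝ) ^ 2 * ∑ y, (km2 N l (a + d) y - km2 N l a y) ^ 2 := by
    rw [mul_sum]
    refine sum_congr rfl fun y _ => ?_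
    simp only [Pi.smul_apply, Pi.sub_apply, smul_eq_mul, mul_pow]
  rw [e]
  refine (mul_le_mul_of_nonneg_left (sq_km2_grad hl hlN a hd) (by positivity)).trans
    (le_of_eq ?_)
  field_simp

end

end Vale.Agent.P159.H663.Dr
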