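import Vale.Agent.P159.H663.GsR
import Vale.Agent.P159.H239.Ap4

/-!
P159 / module GS (helper663), part 3: the whole class of sources and the bootstrap in set form.

* `cls`      : the class (range of the neutral cell channel, block conditions S1, ball conditions
  S2, S3, norm);
* `rowM`     : a row as a matrix (S2);
* `gs_class` : probability of the complement at the sources `σ e`, `0 ≤ σ ≤ 1`, as long as
  `Rs μ' (σ e) ≤ 1`;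
* `ap4S`     : `H239.ap4` with an arbitrary measurable good set.
-/

namespace Vale.Agent.P159.H663

open Finset Matrix MeasureTheory ProbabilityTheory
open Vale.Agent.P159.TM.H104 (EM Ex Cv K3 Lg li nh Gr)
open Vale.Agent.P159.TM.H764 (EE grd)
open Vale.Agent.P159.TM.Spec (V)
open Vale.Agent.P159.TM.SpecC (Tor wT)
open Vale.Agent.P159.H37
open Vale.Agent.P159.H864
open Vale.Agent.P159.H612 (om0)
open Vale.Agent.P159.H859 (Rk Avg dB ravg psd_of)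
open Vale.Agent.P159.H239 (indh tail_split ap_boot bad_src neg_log_le)
open Vale.Agent.P159.H816 (Gam Hb)
open Vale.Agent.P159.H963 (Neu pin nM nMC MF Pn Gnc obsN)
open Vale.Agent.P159.H730 (RL)
open Vale.Agent.P159.H447 (K4S Gs cl K4_diag_nonneg K4_meas K4_smul4 cl_mono cl_nonneg)

noncomputable section

/-! ### rows -/

section rows

variable {n : ℕ} [NeZero n]

/-- a row as a matrix -/
def rowM (r : V n → ℝ) : Matrix (V n) (V n) ℝ := Matrix.of fun w x => if w = 0 then r x else 0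

lemma rowM_mulVec (r v : V n → ℝ) :
    rowM r *ᵥ v = Pi.single (0 : V n) (r ⬝ᵥ v) := by
  funext w
  unfold rowM mulVec dotProduct
  by_cases h : w = 0
  · subst h
    simp
  · simp [h]

lemma rowM_sq (r v : V n → ℝ) : ∑ w, (rowM r *ᵥ v) w ^ 2 = (r ⬝ᵥ v) ^ 2 := by
  rw [rowM_mulVec, Finset.sum_eq_single (0 : V n)]
  · simp
  · intro w _ hw
    simp [hw]
  · intro h
    exact absurd (Finset.mem_univ _) h

lemma rowM_neu {r : V n → ℝ} (hr : Neu r) (w : V n) : Neu (rowM r w) := by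
  unfold H963.Neu rowM
  by_cases h : w = 0
  · simp only [Matrix.of_apply, h, if_true]
    exact hr
  · simp [Matrix.of_apply, h]

lemma rowM_tr_sq (r φ : V n → ℝ) :
    ∑ i, ((rowM r)ᵀ *ᵥ φ) i ^ 2 ≤ (∑ i, r i ^ 2) * ∑ i, φ i ^ 2 := by
  have e : (rowM r)ᵀ *ᵥ φ = φ 0 • r := by
    funext x
    unfold rowM mulVec dotProduct
    simp [Matrix.transpose_apply, mul_comm]
  rw [e]
  have e2 : ∑ i, (φ 0 • r) i ^ 2 = (∑ i, r i ^ 2) * φ 0 ^ 2 := by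
    rw [Finset.sum_mul]
    exact Finset.sum_congr rfl fun i _ => by rw [Pi.smul_apply, smul_eq_mul]; ring
  rw [e2]
  exact mul_le_mul_of_nonneg_left
    (Finset.single_le_sum (f := fun i => φ i ^ 2) (fun i _ => sq_nonneg _) (Finset.mem_univ 0))
    (sq_vec_nonneg r)

lemma rowM_trace (r : V n → ℝ) : (rowM r * (rowM r)ᵀ).trace = ∑ i, r i ^ 2 := by
  rw [trace_gram, Finset.sum_eq_single (0 : V n)]
  · simp [rowM]
  · intro w _ hw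
    simp [rowM, hw]
  · intro h
    exact absurd (Finset.mem_univ _) h

end rows

/-! ### the class -/

section cls

variable {N l : ℕ} [NeZero N] [NeZero (N / l)] {b t s κ cs : ℝ} {ι₁ ι₂ : Type*}

/-- **the class of sources** -/
def cls (N l : ℕ) [NeZero N] [NeZero (N / l)] (b t₀ Q₁ δ : ℝ) (q : ℕ)
    (T : Matrix (V (N / l)) (V (N / l)) ℝ) (Bl : ι₁ → Finset (V (N / l)))
    (F : ι₂ → Matrix (V (N / l)) (V (N / l)) ℝ) (u : ι₂ → ℝ) : Set (V N → ℝ) :=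
  {J | ((cobV N l)ᵀ *ᵥ (cobV N l *ᵥ J) = J ∧ ∑ x, J x = 0) ∧
    (∀ i, rsC N l b t₀ (Q₁ • (bE (Bl i) q T *ᵥ (cobV N l *ᵥ J))) ≤ δ) ∧
    ∀ j, ∑ w, (F j *ᵥ (cobV N l *ᵥ J)) w ^ 2 ≤ u j}

/-- the class without the range condition -/
def cls0 (N l : ℕ) [NeZero N] [NeZero (N / l)] (b t₀ Q₁ δ : ℝ) (q : ℕ)
    (T : Matrix (V (N / l)) (V (N / l)) ℝ) (Bl : ι₁ → Finset (V (N / l)))
    (F : ι₂ → Matrix (V (N / l)) (V (N / l)) ℝ) (u : ι₂ → ℝ) : Set (V N → ℝ) :=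
  {J | (∀ i, rsC N l b t₀ (Q₁ • (bE (Bl i) q T *ᵥ (cobV N l *ᵥ J))) ≤ δ) ∧
    ∀ j, ∑ w, (F j *ᵥ (cobV N l *ᵥ J)) w ^ 2 ≤ u j}

/-- the bad events -/
def bad₁ (N l : ℕ) [NeZero N] [NeZero (N / l)] (b t₀ Q₁ δ : ℝ) (q : ℕ)
    (T : Matrix (V (N / l)) (V (N / l)) ℝ) (B : Finset (V (N / l))) : Set (V N → ℝ) :=
  {J | δ < rsC N l b t₀ (Q₁ • ((bE B q T * cobV N l) *ᵥ J))}

/-- the bad events -/
def bad₂ (N l : ℕ) [NeZero N] [NeZero (N / l)]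
    (F : Matrix (V (N / l)) (V (N / l)) ℝ) (u : ℝ) : Set (V N → ℝ) :=
  {J | u < ∑ w, ((F * cobV N l) *ᵥ J) w ^ 2}

lemma bad₁_meas (hb : 0 ≤ b) {t₀ : ℝ} (ht : 0 < t₀) (Q₁ δ : ℝ) (q : ℕ)
    (T : Matrix (V (N / l)) (V (N / l)) ℝ) (B : Finset (V (N / l))) :
    MeasurableSet (bad₁ N l b t₀ Q₁ δ q T B) := by
  have h1 : Measurable fun J : V N → ℝ => Q₁ • ((bE B q T * cobV N l) *ᵥ J) := by fun_prop
  exact measurableSet_lt measurable_const ((rsC_meas hb ht).comp h1)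

lemma bad₂_meas (F : Matrix (V (N / l)) (V (N / l)) ℝ) (u : ℝ) :
    MeasurableSet (bad₂ N l F u) := by
  have h1 : Measurable fun J : V N → ℝ => ∑ w, ((F * cobV N l) *ᵥ J) w ^ 2 := by fun_prop
  exact measurableSet_lt measurable_const h1

variable [Fintype ι₁] [Fintype ι₂]

lemma cls0_meas (hb : 0 ≤ b) {t₀ : ℝ} (ht : 0 < t₀) (Q₁ δ : ℝ) (q : ℕ)
    (T : Matrix (V (N / l)) (V (N / l)) ℝ) (Bl : ι₁ → Finset (V (N / l)))
    (F : ι₂ → Matrix (V (N / l)) (V (N / l)) ℝ) (u : ι₂ → ℝ) :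
    MeasurableSet (cls0 N l b t₀ Q₁ δ q T Bl F u) := by
  have e : cls0 N l b t₀ Q₁ δ q T Bl F u =
      (⋂ i, (bad₁ N l b t₀ Q₁ δ q T (Bl i))ᶜ) ∩ ⋂ j, (bad₂ N l (F j) (u j))ᶜ := by
    ext J
    simp only [cls0, bad₁, bad₂, Set.mem_ofPred_eq, Set.mem_inter_iff, Set.mem_iInter,
      Set.mem_compl_iff, not_lt, mulVec_mulVec]
  rw [e]
  exact (MeasurableSet.iInter fun i => (bad₁_meas hb ht _ _ _ _ _).compl).inter
    (MeasurableSet.iInter fun j => (bad₂_meas _ _).compl)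

theorem cls_meas (hb : 0 ≤ b) {t₀ : ℝ} (ht : 0 < t₀) (Q₁ δ : ℝ) (q : ℕ)
    (T : Matrix (V (N / l)) (V (N / l)) ℝ) (Bl : ι₁ → Finset (V (N / l)))
    (F : ι₂ → Matrix (V (N / l)) (V (N / l)) ℝ) (u : ι₂ → ℝ) :
    MeasurableSet (cls N l b t₀ Q₁ δ q T Bl F u) := by
  have e : cls N l b t₀ Q₁ δ q T Bl F u =
      ({J : V N → ℝ | (cobV N l)ᵀ *ᵥ (cobV N l *ᵥ J) = J} ∩ {J | ∑ x, J x = 0}) ∩
        cls0 N l b t₀ Q₁ δ q T Bl F u := by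
    ext J
    simp only [cls, cls0, Set.mem_ofPred_eq, Set.mem_inter_iff]
  rw [e]
  have h1 : Measurable fun J : V N → ℝ => (cobV N l)ᵀ *ᵥ (cobV N l *ᵥ J) := by fun_prop
  have h2 : Measurable fun J : V N → ℝ => ∑ x, J x := by fun_prop
  exact ((measurableSet_eq_fun h1 measurable_id).inter
    (measurableSet_eq_fun h2 measurable_const)).inter (cls0_meas hb ht _ _ _ _ _ _ _)

omit [Fintype ι₁] [Fintype ι₂] in
/-- every source of the channel is in the range -/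
lemma range_src (hl : l ∣ N) (c : ℝ) {e : V (N / l) → ℝ} (he : Neu e) (g : V (N / l) → ℝ) :
    (cobV N l)ᵀ *ᵥ (cobV N l *ᵥ ((cobV N l)ᵀ *ᵥ e + (obsN N l c)ᵀ *ᵥ g)) =
      (cobV N l)ᵀ *ᵥ e + (obsN N l c)ᵀ *ᵥ g ∧
    ∑ x, ((cobV N l)ᵀ *ᵥ e + (obsN N l c)ᵀ *ᵥ g) x = 0 := by
  have h1 : (obsN N l c)ᵀ *ᵥ g =
      (cobV N l)ᵀ *ᵥ (√c • ((Pn : Matrix (V (N / l)) (V (N / l)) ℝ) *ᵥ g)) := by
    unfold H963.obsN
    rw [transpose_smul, transpose_mul, H963.Pn_transpose, smul_mulVec, mulVec_smul,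
      mulVec_mulVec]
  have h2 : Neu (e + √c • ((Pn : Matrix (V (N / l)) (V (N / l)) ℝ) *ᵥ g)) :=
    he.add ((H963.neu_Pn g).smul _)
  rw [h1, ← mulVec_add]
  refine ⟨?_, H963.neu_cobV_tr hl h2⟩
  rw [mulVec_mulVec, mulVec_mulVec, Matrix.mul_assoc, cobV_mul_tr hl, Matrix.mul_one]

omit [Fintype ι₁] [Fintype ι₂] in
lemma rsC_ray (hb : 0 ≤ b) {t₀ : ℝ} (ht : 0 < t₀) (v : V (N / l) → ℝ) {σ : ℝ} (h0 : 0 ≤ σ)
    (h1 : σ ≤ 1) : rsC N l b t₀ (σ • v) ≤ rsC N l b t₀ v := by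
  unfold rsC
  rw [mulVec_smul]
  have h := H789.Rs_ray_mono (H789.em_wt (N := N) hb ht) H789.ev_wt (H789.pk_wt hb ht)
    ((cobV N l)ᵀ *ᵥ v) h0 h1
  rwa [one_smul] at h

/-- the number of one block condition -/
def gsA (N l : ℕ) (s t κ X Q₁ t₀ d : ℝ) (l₀ m : ℕ) : ℝ :=
  (Real.exp (m / (2 * (l₀ : ℝ) ^ 2) - s * (X ^ 2 * t₀ / (12 * Q₁ ^ 2)) / (512 * (t - s) ^ 2)) +
    2 * Real.exp (d / 2 +
      m * (κ / (s * (N : ℝ) ^ 2) + (1 + Real.log ((N / l : ℕ) : ℝ))) / (8 * (l₀ : ℝ) ^ 2) -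
      κ * (X ^ 2 * t₀ / (12 * Q₁ ^ 2)) / (1024 * (t - s) ^ 2 * ((l₀ : ℝ) * l) ^ 2))) +
    2 * Real.exp (-(X ^ 2 * t₀ / (63 * Q₁ ^ 2 * (t - s))))

/-- the number of one ball condition -/
def gsB (s t k r u : ℝ) : ℝ :=
  Real.exp (r / (2 * k) - s * u / (1152 * (t - s) ^ 2 * k)) +
    Real.exp (r / (2 * k) - u / (36 * (t - s) * k))

/-- **probability of the complement of the class, exact law at the sources `σ e₁`** -/
theorem gs_class (hb : 0 < b) (hl : l ∣ N) (hs : 0 < s) (h : s < t)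
    (hω : om0 N b (MC N l t (2 * s)) ≤ 1 / 16) (hκ : 0 < κ)
    (hcs0 : 0 ≤ cs) (hcs : κ * (b + 12 * max b 1 ^ 2 * cs ^ 2) ≤ 1) (hcs1 : cs ≤ 1) (x₀ : V N)
    {l₀ q : ℕ} (h0 : l₀ ∣ q) (hq : q ∣ N / l) (Bl : ι₁ → Finset (V (N / l)))
    {T : Matrix (V (N / l)) (V (N / l)) ℝ} (hT : TC T)
    {t₀ : ℝ} (ht₀ : 0 < t₀) {X Q₁ δ : ℝ} (hX : 0 < X) (hQ : 0 < Q₁)
    (hAP : ∀ i, (gau (V (N / l))).real
      {g | δ < rsC N l b t₀ ((X * √t₀) • (dB (Bl i) *ᵥ g))} ≤ 1 / 30)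
    (ha : 9 * Q₁ ^ 2 * (t - s) ≤ X ^ 2 * t₀)
    {e : V (N / l) → ℝ} (hen : Neu e)
    (hm : ∀ i, rsC N l b t₀ ((3 * Q₁) • (bE (Bl i) q T *ᵥ (cobV N l *ᵥ ((cobV N l)ᵀ *ᵥ e +
      (t - s) • (Gm (nMC N l b t s x₀) *ᵥ ((cobV N l)ᵀ *ᵥ e)))))) ≤ δ)
    {d : ℝ} (hd0 : 0 ≤ d) (hd : qf (Rk s (κ / (l : ℝ) ^ 2)) e -
      qf (Gm (nMC N l b t s x₀)) ((cobV N l)ᵀ *ᵥ e) ≤ d)
    (he : 4 * Gam N t s κ * ∑ i, e i ^ 2 ≤ cs ^ 2)
    (hsd : 4 * Gam N t s κ * (κ / (16 * ((l₀ : ℝ) * l) ^ 2) *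
      (κ * (X ^ 2 * t₀ / (12 * Q₁ ^ 2)) / (512 * (t - s) ^ 2 * ((l₀ : ℝ) * l) ^ 2) +
        2 * ((N / l : ℕ) : ℝ) ^ 2)) ≤ cs ^ 2)
    (hρ : ∀ i, 64 * (t - s) ^ 2 * (Bl i).card / (s * (l₀ : ℝ) ^ 2) +
      64 * (t - s) ^ 2 * ((l₀ : ℝ) * l) ^ 2 / κ * d ≤ X ^ 2 * t₀ / (12 * Q₁ ^ 2) / 2)
    (F : ι₂ → Matrix (V (N / l)) (V (N / l)) ℝ) (hF : ∀ j w, Neu (F j w)) {k r u : ι₂ → ℝ}
    (hk : ∀ j, 0 < k j) (hFk : ∀ j, ∀ φ : V (N / l) → ℝ,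
      ∑ i, ((F j)ᵀ *ᵥ φ) i ^ 2 ≤ k j * ∑ i, φ i ^ 2)
    (hFr : ∀ j, (F j * (F j)ᵀ).trace ≤ r j) (hu : ∀ j, 0 < u j)
    (hm2 : ∀ j, 9 * ∑ w, (F j *ᵥ (cobV N l *ᵥ ((cobV N l)ᵀ *ᵥ e +
      (t - s) • (Gm (nMC N l b t s x₀) *ᵥ ((cobV N l)ᵀ *ᵥ e))))) w ^ 2 ≤ u j)
    (hr : ∀ j, 288 * (t - s) ^ 2 * r j / s ≤ u j)
    {p : ℝ} (hp : ∑ i, gsA N l s t κ X Q₁ t₀ d l₀ (Bl i).card + ∑ j, gsB s t (k j) (r j) (u j) ≤ p)
    {σ : ℝ} (hσ : σ ∈ Set.Icc (0 : ℝ) 1)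
    (hR : Rs (nMC N l b t s x₀) (σ • ((cobV N l)ᵀ *ᵥ e)) ≤ 1) :
    Ech (nMC N l b t s x₀) (σ • ((cobV N l)ᵀ *ᵥ e)) (obsN N l (t - s))
      (ind (cls N l b t₀ Q₁ δ q T Bl F u)ᶜ) ≤ p := by
  have hE := H963.em_nMC (N := N) hb.le hl hs h.le x₀
  have hc : 0 < t - s := sub_pos.2 h
  have hσn : Neu (σ • e) := hen.smul σ
  have hce : σ • ((cobV N l)ᵀ *ᵥ e) = (cobV N l)ᵀ *ᵥ (σ • e) := by rw [mulVec_smul]
  rw [hce] at hR ⊢
  -- the range condition holds almost surely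
  have h1 : Ech (nMC N l b t s x₀) ((cobV N l)ᵀ *ᵥ (σ • e)) (obsN N l (t - s))
      (ind (cls N l b t₀ Q₁ δ q T Bl F u)ᶜ) =
      Ech (nMC N l b t s x₀) ((cobV N l)ᵀ *ᵥ (σ • e)) (obsN N l (t - s))
      (ind (cls0 N l b t₀ Q₁ δ q T Bl F u)ᶜ) := by
    unfold H37.Ech
    congr 2
    funext g
    congr 1
    have h2 := range_src hl (t - s) hσn g
    by_cases h3 : (cobV N l)ᵀ *ᵥ (σ • e) + (obsN N l (t - s))ᵀ *ᵥ g ∈
        cls0 N l b t₀ Q₁ δ q T Bl F u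
    · have h4 : (cobV N l)ᵀ *ᵥ (σ • e) + (obsN N l (t - s))ᵀ *ᵥ g ∈
          cls N l b t₀ Q₁ δ q T Bl F u := ⟨h2, h3⟩
      have h5 : (cobV N l)ᵀ *ᵥ (σ • e) + (obsN N l (t - s))ᵀ *ᵥ g ∉
          (cls N l b t₀ Q₁ δ q T Bl F u)ᶜ := fun hh => hh h4
      have h6 : (cobV N l)ᵀ *ᵥ (σ • e) + (obsN N l (t - s))ᵀ *ᵥ g ∉
          (cls0 N l b t₀ Q₁ δ q T Bl F u)ᶜ := fun hh => hh h3
      unfold H663.ind
      rw [Set.indicator_of_notMem h5, Set.indicator_of_notMem h6]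
    · have h4 : (cobV N l)ᵀ *ᵥ (σ • e) + (obsN N l (t - s))ᵀ *ᵥ g ∉
          cls N l b t₀ Q₁ δ q T Bl F u := fun hh => h3 hh.2
      unfold H663.ind
      rw [Set.indicator_of_mem (show _ ∈ (cls N l b t₀ Q₁ δ q T Bl F u)ᶜ from h4),
        Set.indicator_of_mem (show _ ∈ (cls0 N l b t₀ Q₁ δ q T Bl F u)ᶜ from h3)]
  rw [h1]
  -- union bound
  set BB : ι₁ ⊕ ι₂ → Set (V N → ℝ) :=
    Sum.elim (fun i => bad₁ N l b t₀ Q₁ δ q T (Bl i)) (fun j => bad₂ N l (F j) (u j)) with hBB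
  have hBm : ∀ a, MeasurableSet (BB a) := by
    rintro (i | j)
    · exact bad₁_meas hb.le ht₀ _ _ _ _ _
    · exact bad₂_meas _ _
  have h2 := Ech_union hE ((cobV N l)ᵀ *ᵥ (σ • e)) (obsN N l (t - s)) Finset.univ hBm
    (cls0_meas hb.le ht₀ Q₁ δ q T Bl F u).compl (fun J hJ => by
      by_contra hc2
      refine hJ ⟨fun i => ?_, fun j => ?_⟩
      · by_contra h3
        refine hc2 ⟨Sum.inl i, Finset.mem_univ _, ?_⟩
        show δ < rsC N l b t₀ (Q₁ • ((bE (Bl i) q T * cobV N l) *ᵥ J))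
        rw [← mulVec_mulVec]
        exact not_le.1 h3
      · by_contra h3
        refine hc2 ⟨Sum.inr j, Finset.mem_univ _, ?_⟩
        show u j < ∑ w, ((F j * cobV N l) *ᵥ J) w ^ 2
        rw [← mulVec_mulVec]
        exact not_le.1 h3)
  refine h2.trans (le_trans ?_ hp)
  rw [Fintype.sum_sum_type]
  refine add_le_add (Finset.sum_le_sum fun i _ => ?_) (Finset.sum_le_sum fun j _ => ?_)
  · -- block condition
    refine gs_rs hb hl hs h hω hκ hcs0 hcs hcs1 x₀ h0 hq (Bl i) hT ht₀ hX hQ (hAP i) ha hσn hR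
      ?_ (d := d) ?_ ?_ hsd (hρ i)
    · have e1 : (3 * Q₁) • ((bE (Bl i) q T * cobV N l) *ᵥ ((cobV N l)ᵀ *ᵥ (σ • e) +
          (t - s) • (Gm (nMC N l b t s x₀) *ᵥ ((cobV N l)ᵀ *ᵥ (σ • e))))) =
          σ • ((3 * Q₁) • (bE (Bl i) q T *ᵥ (cobV N l *ᵥ ((cobV N l)ᵀ *ᵥ e +
          (t - s) • (Gm (nMC N l b t s x₀) *ᵥ ((cobV N l)ᵀ *ᵥ e)))))) := by
        rw [mulVec_smul, mulVec_smul, smul_comm (t - s) σ, ← smul_add, mulVec_smul,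
          smul_comm (3 * Q₁) σ, ← mulVec_mulVec]
      rw [e1]
      exact (rsC_ray hb.le ht₀ _ hσ.1 hσ.2).trans (hm i)
    · rw [mulVec_smul, H37.qf_smul, H37.qf_smul, ← mul_sub]
      have h3 : σ ^ 2 ≤ 1 := pow_le_one₀ hσ.1 hσ.2
      have h4 := mul_le_mul_of_nonneg_left hd (sq_nonneg σ)
      nlinarith [sq_nonneg σ]
    · have e1 : ∑ i, (σ • e) i ^ 2 = σ ^ 2 * ∑ i, e i ^ 2 := by
        rw [Finset.mul_sum]
        exact Finset.sum_congr rfl fun i _ => by rw [Pi.smul_apply, smul_eq_mul, mul_pow]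
      rw [e1]
      have h3 : σ ^ 2 ≤ 1 := pow_le_one₀ hσ.1 hσ.2
      have e2 : 4 * Gam N t s κ * (σ ^ 2 * ∑ i, e i ^ 2) =
          σ ^ 2 * (4 * Gam N t s κ * ∑ i, e i ^ 2) := by ring
      rw [e2]
      have h4 := mul_le_mul_of_nonneg_left he (sq_nonneg σ)
      nlinarith [sq_nonneg σ, sq_nonneg cs]
  · -- ball condition
    refine gs_ball hb hl hs h hω x₀ (hF j) (hk j) (hFk j) (hFr j) hR (hu j) ?_ (hr j)
    have e1 : (F j * cobV N l) *ᵥ ((cobV N l)ᵀ *ᵥ (σ • e) +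
        (t - s) • (Gm (nMC N l b t s x₀) *ᵥ ((cobV N l)ᵀ *ᵥ (σ • e)))) =
        σ • (F j *ᵥ (cobV N l *ᵥ ((cobV N l)ᵀ *ᵥ e +
        (t - s) • (Gm (nMC N l b t s x₀) *ᵥ ((cobV N l)ᵀ *ᵥ e))))) := by
      rw [mulVec_smul, mulVec_smul, smul_comm (t - s) σ, ← smul_add, mulVec_smul,
        ← mulVec_mulVec]
    rw [e1]
    have e2 : ∀ v : V (N / l) → ℝ, ∑ w, (σ • v) w ^ 2 = σ ^ 2 * ∑ w, v w ^ 2 := by
      intro v
      rw [Finset.mul_sum]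
      exact Finset.sum_congr rfl fun i _ => by rw [Pi.smul_apply, smul_eq_mul, mul_pow]
    rw [e2]
    have h3 : σ ^ 2 ≤ 1 := pow_le_one₀ hσ.1 hσ.2
    have h4 := mul_le_mul_of_nonneg_left (hm2 j) (sq_nonneg σ)
    have h5 := hu j
    nlinarith [sq_nonneg σ]

end cls

/-! ### the bootstrap in set form -/

section boot

variable {V : Type} [Fintype V] {I I' : Type*} [Fintype I] [Fintype I'] [DecidableEq I]
  {μ' : (V → ℤ) → ℝ} {P : Matrix I V ℝ} {X : Matrix V I' ℝ}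

/-- **AP, one step with closure, arbitrary measurable good set** -/
theorem ap4S (hX : RL μ' P X) (hE : Ev (post μ' P)) (hK : PK (post μ' P)) {b e : V → ℝ}
    (he : e = b - Pᵀ *ᵥ (P *ᵥ (Gm (post μ' P) *ᵥ b))) {S : Set (V → ℝ)}
    (hS : MeasurableSet S) {n : ℕ}
    (hη : ∀ J ∈ S, Rs (post μ' P) ((2 : ℝ) ^ (n + 1) • J) ≤ 1) {p : ℝ}
    (hp : ∀ s ∈ Set.Icc (0 : ℝ) 1, Rs μ' (s • e) ≤ 1 → Ech μ' (s • e) P (ind Sᶜ) ≤ p)
    {D lam q : ℝ} (hD : 0 < D) (hKS : K4S (post μ' P) (X * Xᵀ) (X * Xᵀ) ≤ D) (hlam : 0 ≤ lam)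
    (hb4 : K4 (post μ' P) b b b b ≤ lam * D / 16)
    (hq : p + Real.exp 1 * (6 * Real.exp (-(√(lam / 16) / 10))) ≤ q) (hq1 : q ≤ 1 / 4)
    (hcl : cl n (8 * (lam * D)) ≤ 1 / 4) :
    ∀ s ∈ Set.Icc (0 : ℝ) 1, Rs μ' (s • e) ≤ cl n (8 * (lam * D)) + 2 * q ∧
      Ech μ' (s • e) P (ind (Gs (post μ' P) n (lam * D))ᶜ) ≤ q := by
  have hpost := em_post hX.em P
  set μ := post μ' P with hμ
  have hGm : MeasurableSet (Gs μ n (lam * D)) := by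
    have h1 : Measurable fun F : V → ℝ => Rs μ ((2 : ℝ) ^ (n + 1) • F) :=
      (H114.continuous_Rs hpost).measurable.comp (measurable_const_smul _)
    exact (measurableSet_le h1 measurable_const).inter
      (measurableSet_le (K4_meas hpost hE hK) measurable_const)
  -- the probability of the bad set, as long as `R'(s e) ≤ 1`
  have hbad : ∀ s ∈ Set.Icc (0 : ℝ) 1, Rs μ' (s • e) ≤ 1 →
      Ech μ' (s • e) P (ind (Gs μ n (lam * D))ᶜ) ≤ q := by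
    intro s hs hR
    have he' : s • e = s • b - Pᵀ *ᵥ (P *ᵥ (Gm μ *ᵥ (s • b))) := by
      rw [he, mulVec_smul, mulVec_smul, mulVec_smul, smul_sub]
    have h4 : K4 μ (s • b) (s • b) (s • b) (s • b) ≤ lam * D / 16 := by
      rw [K4_smul4 hpost hE hK]
      have h5 := K4_diag_nonneg hpost hE hK b
      have h6 : s ^ 4 ≤ 1 := pow_le_one₀ hs.1 hs.2
      nlinarith
    exact (bad_src hX hE hK he' hS hη hD hKS hlam h4 (hp s hs hR)).trans hq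
  have hq0 : 0 ≤ q := by
    have h1 := hbad 0 (Set.left_mem_Icc.2 zero_le_one) (by
      rw [zero_smul, H789.Rs_zero]; norm_num)
    exact (H37.Ech_nonneg hX.em _ _ fun J => ind_nonneg _ J).trans h1
  have hlg := neg_log_le hq0 (by linarith)
  have hRS : ∀ J ∈ Gs μ n (lam * D), Rs μ J ≤ cl n (8 * (lam * D)) := by
    intro J hJ
    obtain ⟨h1, h2⟩ := hJ
    have e1 : (2 : ℝ) ^ n • ((2 : ℝ) • J) = (2 : ℝ) ^ (n + 1) • J := by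
      rw [smul_smul, pow_succ]
    have h3 := H789.Rs_closure hpost hE hK ((2 : ℝ) • J) n (by rw [e1]; exact h1)
    rw [K4_smul4 hpost hE hK] at h3
    have h4 : Rs μ ((2 : ℝ) • J) ≤ cl n (8 * (lam * D)) := by
      refine h3.trans (cl_mono n (y := 8 * (lam * D)) ?_)
      linarith
    have m1 : Rs μ J ≤ Rs μ ((2 : ℝ) • J) := by
      have := H789.Rs_ray_mono hpost hE hK J zero_le_one (one_le_two (α := ℝ))
      rwa [one_smul] at this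
    exact m1.trans h4
  have hfin := ap_boot hX.em P hE hK he hGm hRS hbad (by linarith)
    (r := cl n (8 * (lam * D)) + 2 * q) (by linarith) (by linarith)
  intro s hs
  have h1 := hfin s hs
  exact ⟨h1, hbad s hs (by linarith)⟩

end boot

end

end Vale.Agent.P159.H663
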