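import Vale.Agent.P159.H663.GsN
import Vale.Agent.P159.H816.Zs3
import Vale.Agent.P159.H276.Te4
import Vale.Agent.P159.H447.Cg9
import Vale.Agent.P159.H730.Apt1
import Vale.Agent.P159.H340.Vb6
import Vale.Agent.P159.H43.OscP

/-!
P159 / module APT (B) (helper663), assembly on one torus `2 ^ r`: the a priori bound at a typical
block source of the level `m > n`, neutral two-mass model, posterior mass `τ ∈ [t_n, 4 t_n]`, prior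
mass `t_m`.

* `blk_near`  : neighbour blocks are near;
* `om_post`   : the oscillation of the cell mass from `yt` at the mass `4 t_n`;
* `apA_det`   : `Rs (nMC N l b τ t_m 0) (cobVᵀ e) ≤ cl k (8 λ D) + 2 q` for every typical `e`;
* `apA`       : the same with probability `≥ 29/30` for the block source.
-/

set_option linter.unusedSectionVars false

namespace Vale.Agent.P159.H663

open Finset Matrix MeasureTheory ProbabilityTheory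
open Vale.Agent.P159.TM.H104 (EM Ex Cv K3 Lg li nh Gr)
open Vale.Agent.P159.TM.H764 (EE grd nrm)
open Vale.Agent.P159.TM.Spec (V)
open Vale.Agent.P159.TM.SpecC (Tor wT)
open Vale.Agent.P159.TM.H459 (bk)
open Vale.Agent.P159.H37
open Vale.Agent.P159.H864
open Vale.Agent.P159.H612 (om0)
open Vale.Agent.P159.H859 (Rk Avg dB ravg Sgn)
open Vale.Agent.P159.H816 (Gam Hb bS av FG uG Jx kG rG clsG clsG_meas card_bS av_sub_sq neu_av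
  neu_TPn tc_TPn tr_op card_Jx av_nonneg sum_av ib_eq)
open Vale.Agent.P159.H963 (Neu pin nM nMC MF Pn Gnc obsN nwt)
open Vale.Agent.P159.H447 (K4S SN CN cl Ful)
open Vale.Agent.P159.H276 (MeanOK)
open Vale.Agent.P159.H972 (tn)

noncomputable section

section geo

variable {n nb q : ℕ} [NeZero n] [NeZero nb]

/-- the corner of a block -/
def crn (n nb q : ℕ) (β : V nb) : V n := (((β.1.val * q : ℕ) : ZMod n), ((β.2.val * q : ℕ) : ZMod n))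

lemma bk1_crn (hq : 0 < q) (hn : n = nb * q) (β : ZMod nb) :
    TM.H459.bk1 nb q ((β.val * q : ℕ) : ZMod n) = β := by
  unfold TM.H459.bk1
  have h1 : β.val * q < n := by
    rw [hn]
    exact Nat.mul_lt_mul_of_pos_right (ZMod.val_lt β) hq
  rw [ZMod.val_natCast, Nat.mod_eq_of_lt h1, Nat.mul_div_cancel _ hq, ZMod.natCast_zmod_val]

lemma near1 (hq : 0 < q) (hn : n = nb * q) {β β' : ZMod nb} {y : ZMod n}
    (hy : TM.H459.bk1 nb q y = β') (h : (β' - β).valMinAbs.natAbs ≤ 1) :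
    (y - ((β.val * q : ℕ) : ZMod n)).valMinAbs.natAbs ≤ 2 * q := by
  have h1 := TM.H459.le_bk1 hq hn y ((β.val * q : ℕ) : ZMod n)
  rw [hy, bk1_crn hq hn] at h1
  refine h1.trans ?_
  have h2 : q * (β' - β).valMinAbs.natAbs ≤ q * 1 := Nat.mul_le_mul_left q h
  omega

/-- the blocks near `β` are near its corner -/
lemma blk_near (hq : 0 < q) (hn : n = nb * q) {β β' : V nb} (h : TM.H459.sd β β' ≤ 1) {y : V n}
    (hy : av n nb q β' y ≠ 0) : nrm (y - crn n nb q β) ≤ 2 * q := by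
  have hy' : y ∈ bS n nb q β' := by
    by_contra hc
    refine hy ?_
    unfold H816.av
    rw [ib_eq, if_neg hc, mul_zero]
  have hb : bk nb q y = β' := (Finset.mem_filter.1 hy').2
  unfold TM.H459.sd TM.H459.sn at h
  unfold TM.H764.nrm
  refine max_le ?_ ?_
  · exact near1 hq hn (congrArg Prod.fst hb) ((le_max_left _ _).trans h)
  · exact near1 hq hn (congrArg Prod.snd hb) ((le_max_right _ _).trans h)

lemma sd_self (β : V nb) : TM.H459.sd β β ≤ 1 := by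
  unfold TM.H459.sd
  rw [sub_self, TM.H459.sn_zero]
  exact zero_le_one

end geo

/-! ### the oscillation -/

/-- the oscillation of the cell mass from `yt` at the mass `4 t_n` -/
theorem om_post {b : ℝ} (hb : 0 < b) {n r s : ℕ} (hnr : n ≤ r) (hsr : s ≤ r) {τ a Y : ℝ}
    (h1 : tn n ≤ τ) (h2 : τ ≤ 4 * tn n) (ha : 0 < a) (haτ : a ≤ τ)
    (hy : yt (2 ^ r) b (4 * tn n) ≤ Y) (hs : 32 * ((2 ^ (r - n)) ^ 2 * Y) ≤ 1) (hY : 0 ≤ Y) :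
    om0 (2 ^ r) b (MC (2 ^ r) (2 ^ s) τ a) ≤ 1 / 16 := by
  have hl : 2 ^ s ∣ 2 ^ r := pow_dvd_pow 2 hsr
  have : NeZero (2 ^ r / 2 ^ s) := H864.ne_div hl
  have hW := H363.wm_MC (N := 2 ^ r) (t := τ) hb.le hl ha haτ
  have h3 := H340.omT_mono (H363.chn_MC (N := 2 ^ r) hl ha haτ (le_refl τ)) hW
  rw [H864.MC_self] at h3
  have hp : 0 ≤ (2 ^ (r - n)) ^ 2 * Y := by positivity
  have h4 := H43.osc_post hb hnr h1 h2 hy (by linarith)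
  have hτ : 0 < τ := ha.trans_le haτ
  have hO := h4 0 0 (Set.left_mem_Icc.2 zero_le_one)
  rw [H145.cs_zero] at hO
  have hE : EM (wM (wT b (2 ^ r)) (H145.mt (2 ^ r) τ)) := H145.em_mt hb.le hτ
  have hZ := H145.Zn_pos H145.mt_symm hE (0 : V (2 ^ r) → ℝ)
  have h5 : H43.omT (wT b (2 ^ r)) (τ • (1 : Matrix (V (2 ^ r)) (V (2 ^ r)) ℝ)) ≤
      2 * ((2 ^ (r - n)) ^ 2 * Y) := by
    unfold H43.omT
    have h6 := (abs_le.1 hO).2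
    have h7 : ZM (wT b (2 ^ r)) (H145.mt (2 ^ r) τ) 0 ≤
        (2 * ((2 ^ (r - n)) ^ 2 * Y) + 1) * Zn (wT b (2 ^ r)) (H145.mt (2 ^ r) τ) 0 := by
      linarith
    have h8 := (div_le_iff₀ hZ).2 h7
    have e : (H145.mt (2 ^ r) τ) = τ • (1 : Matrix (V (2 ^ r)) (V (2 ^ r)) ℝ) := rfl
    rw [e] at h8
    linarith
  have h6 : om0 (2 ^ r) b (MC (2 ^ r) (2 ^ s) τ a) =
      H43.omT (wT b (2 ^ r)) (MC (2 ^ r) (2 ^ s) τ a) := rfl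
  rw [h6]
  linarith

/-! ### the deterministic part -/

section det

variable {b : ℝ} {n r s : ℕ} [NeZero (2 ^ r / 2 ^ s)] {τ a M A X Q₁ d w δ Lip u Λ : ℝ} {l₀ : ℕ}
  {T W₃ : Matrix (V (2 ^ r / 2 ^ s)) (V (2 ^ r / 2 ^ s)) ℝ}

/-- the number of conditions of the class times their probabilities -/
def pG (b : ℝ) (n r : ℕ) (M X Q₁ E : ℝ) : ℝ :=
  ((2 : ℝ) ^ (r - n)) ^ 2 * (5 * Real.exp (-(kap b * (X ^ 2 / Q₁ ^ 2) / (393216 * M ^ 2)))) +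
    (((2 : ℝ) ^ (r - n)) ^ 4 + 2) * (2 * Real.exp (-E))

lemma nq_eq (hsn : s ≤ n) (hnr : n ≤ r) : (2 : ℕ) ^ r / 2 ^ s = 2 ^ (r - n) * 2 ^ (n - s) := by
  rw [Nat.pow_div (hsn.trans hnr) two_pos, ← pow_add]
  congr 1
  omega

/-- **the deterministic step**, closure order `k` -/
theorem apA_det (hb : 0 < b) (hsn : s ≤ n) (hnr : n ≤ r)
    (G : GN (2 ^ r) (2 ^ s) l₀ (2 ^ (n - s)) b a τ (tn n) M A X Q₁ d)
    (hω : om0 (2 ^ r) b (MC (2 ^ r) (2 ^ s) τ (2 * a)) ≤ 1 / 16)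
    (hT : TC T) (hWn : ∀ x, Neu (W₃ x)) (hw : 0 < w) (hWw : (W₃ * W₃ᵀ).trace ≤ w)
    (hAP : ∀ β : V (2 ^ (r - n)), (gau (V (2 ^ r / 2 ^ s))).real
      {g | δ < rsC (2 ^ r) (2 ^ s) b (tn n)
        ((X * √(tn n)) • (dB (bS (2 ^ r / 2 ^ s) (2 ^ (r - n)) (2 ^ (n - s)) β) *ᵥ g))} ≤ 1 / 30)
    {e : V (2 ^ r / 2 ^ s) → ℝ} (hen : Neu e)
    (hm : MeanOK (2 ^ r) (2 ^ s) b τ a (tn n) Q₁ δ (2 ^ (n - s)) T
      (bS (2 ^ r / 2 ^ s) (2 ^ (r - n)) (2 ^ (n - s)))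
      (FG (2 ^ r / 2 ^ s) (2 ^ (r - n)) (2 ^ (n - s)) T W₃) (uG Lip u Λ) e)
    (hd : qf (Rk a (kap b / ((2 ^ s : ℕ) : ℝ) ^ 2)) e -
      qf (Gm (nMC (2 ^ r) (2 ^ s) b τ a 0)) ((cobV (2 ^ r) (2 ^ s))ᵀ *ᵥ e) ≤ d)
    (he : 4 * Gam (2 ^ r) τ a (kap b) * ∑ i, e i ^ 2 ≤ (1 : ℝ) ^ 2)
    {E : ℝ} (hE : 0 < E)
    (hu1 : 36864 * tn n * M ^ 2 * (2 / (((2 ^ (n - s) : ℕ)) : ℝ) ^ 2 * (1 / 2 + E)) ≤ Lip ^ 2)
    (hu2 : 36864 * tn n * M ^ 2 * (w * (1 / 2 + E)) ≤ u)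
    (hu3 : 36864 * tn n * M ^ 2 * ((((2 : ℕ) ^ r / 2 ^ s : ℕ) : ℝ) ^ 2 / 2 + E) ≤ Λ ^ 2)
    {k : ℕ} (hη : ∀ J ∈ clsG (2 ^ r) (2 ^ s) b (tn n) Q₁ δ (2 ^ (r - n)) (2 ^ (n - s)) T W₃ Lip u Λ,
      Rs (nwt (2 ^ r) b τ 0) ((2 : ℝ) ^ (k + 1) • J) ≤ 1)
    {D₄ : ℝ} (hD0 : 0 < D₄)
    (hD : K4S (nwt (2 ^ r) b τ 0) (SN (2 ^ r) (2 ^ s)) (SN (2 ^ r) (2 ^ s)) ≤ D₄)
    {lam qq : ℝ} (hlam : 0 ≤ lam)
    (hb4 : K4 (nwt (2 ^ r) b τ 0) (H276.bsrc (2 ^ r) (2 ^ s) b τ a e)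
      (H276.bsrc (2 ^ r) (2 ^ s) b τ a e) (H276.bsrc (2 ^ r) (2 ^ s) b τ a e)
      (H276.bsrc (2 ^ r) (2 ^ s) b τ a e) ≤ lam * ((τ ^ 2 / a) ^ 2 * D₄) / 16)
    (hq : pG b n r M X Q₁ E + Real.exp 1 * (6 * Real.exp (-(√(lam / 16) / 10))) ≤ qq)
    (hq1 : qq ≤ 1 / 4) (hcl : cl k (8 * (lam * ((τ ^ 2 / a) ^ 2 * D₄))) ≤ 1 / 4) :
    Rs (nMC (2 ^ r) (2 ^ s) b τ a 0) ((cobV (2 ^ r) (2 ^ s))ᵀ *ᵥ e) ≤
      cl k (8 * (lam * ((τ ^ 2 / a) ^ 2 * D₄))) + 2 * qq := by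
  have hl : 2 ^ s ∣ 2 ^ r := pow_dvd_pow 2 (hsn.trans hnr)
  have hnq := nq_eq hsn hnr
  have hq0 : 0 < (2 : ℕ) ^ (n - s) := by positivity
  have hqR : (0 : ℝ) < (((2 ^ (n - s) : ℕ)) : ℝ) := by positivity
  have ha := G.s0
  have hat := G.st
  have hτ : 0 < τ := ha.trans hat
  obtain ⟨Rt, hRt⟩ := H730.exists_rt (N := 2 ^ r) (l := 2 ^ s) hb hl ha hat
  have hX := H447.rl_tor (N := 2 ^ r) (l := 2 ^ s) hb.le hl ha hat hRt
  have hp : post (nMC (2 ^ r) (2 ^ s) b τ a 0) (obsN (2 ^ r) (2 ^ s) (τ - a)) =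
      nwt (2 ^ r) b τ 0 := H447.post_wN hl hat.le
  have hrel := H276.bsrc_rel (N := 2 ^ r) (l := 2 ^ s) hb.le hl ha hat.le hen
  have hFul : Ful (2 ^ r) (2 ^ s) b τ a Rt := ⟨hb, hl, ha, hat, hRt⟩
  have hTP : TC (T * Pn) := tc_TPn hT
  have key := ap4S hX (by rw [hp]; exact H963.ev_nwt hb.le τ 0)
    (by rw [hp]; exact H963.pk_nwt hb.le hτ 0) hrel
    (clsG_meas (N := 2 ^ r) (l := 2 ^ s) (nb := 2 ^ (r - n)) (q := 2 ^ (n - s)) (Q₁ := Q₁) (δ := δ)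
      (T := T) (W₃ := W₃) (Lip := Lip) (u := u) (Λ := Λ) hb.le G.t0) (n := k)
    (by rw [hp]; exact hη) (p := pG b n r M X Q₁ E) ?_ (D := (τ ^ 2 / a) ^ 2 * D₄) (lam := lam)
    (q := qq) (by positivity) (by
      rw [hp]
      exact hFul.K4.trans (mul_le_mul_of_nonneg_left hD (sq_nonneg _))) hlam
    (by rw [hp]; exact hb4) hq hq1 hcl 1 (Set.right_mem_Icc.2 zero_le_one)
  · have h1 := key.1
    rwa [one_smul] at h1
  · intro σ hσ hR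
    have h2 := gs_num G hb hω 0 (bS (2 ^ r / 2 ^ s) (2 ^ (r - n)) (2 ^ (n - s)))
      (fun β => (card_bS hq0 hnq β).le) hT hAP hen hm.hm hd he
      (FG (2 ^ r / 2 ^ s) (2 ^ (r - n)) (2 ^ (n - s)) T W₃)
      (by
        rintro (p | (_ | _)) x
        · exact rowM_neu (neu_av hq0 hnq hT _ _) x
        · exact neu_TPn hT x
        · exact hWn x)
      (k := kG (2 ^ (n - s)) w) (r := rG (2 ^ r / 2 ^ s) (2 ^ (n - s)) w) (u := uG Lip u Λ)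
      (by
        rintro (p | (_ | _))
        · show 0 < 2 / (((2 ^ (n - s) : ℕ)) : ℝ) ^ 2
          positivity
        · exact zero_lt_one
        · exact hw)
      (by
        rintro (p | (_ | _)) φ
        · exact (rowM_tr_sq _ _).trans (mul_le_mul_of_nonneg_right
            ((hT.contr _).trans (av_sub_sq hq0 hnq p.1.1 p.1.2)) (sq_vec_nonneg φ))
        · show ∑ i, ((T * Pn)ᵀ *ᵥ φ) i ^ 2 ≤ 1 * ∑ i, φ i ^ 2
          rw [hTP.ti.transpose, one_mul]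
          exact hTP.contr φ
        · exact (tr_op W₃ φ).trans (mul_le_mul_of_nonneg_right hWw (sq_vec_nonneg φ)))
      (by
        rintro (p | (_ | _))
        · show 0 ≤ 2 / (((2 ^ (n - s) : ℕ)) : ℝ) ^ 2
          positivity
        · show 0 ≤ (((2 : ℕ) ^ r / 2 ^ s : ℕ) : ℝ) ^ 2
          positivity
        · exact hw.le)
      (by
        rintro (p | (_ | _))
        · exact (rowM_trace _).le.trans ((hT.contr _).trans (av_sub_sq hq0 hnq p.1.1 p.1.2))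
        · refine (H816.trace_le_card (F := T * Pn) (k := 1) (fun φ => by
            rw [hTP.ti.transpose, one_mul]
            exact hTP.contr φ)).trans (le_of_eq ?_)
          rw [one_mul, TM.H764.card_V]
          rfl
        · exact hWw)
      hE
      (by
        rintro (p | (_ | _))
        · refine le_trans (le_of_eq ?_) hu1
          show 36864 * tn n * M ^ 2 * (2 / (((2 ^ (n - s) : ℕ)) : ℝ) ^ 2 / 2 +
            2 / (((2 ^ (n - s) : ℕ)) : ℝ) ^ 2 * E) = _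
          ring
        · refine le_trans (le_of_eq ?_) hu3
          show 36864 * tn n * M ^ 2 * ((((2 : ℕ) ^ r / 2 ^ s : ℕ) : ℝ) ^ 2 / 2 + 1 * E) = _
          ring
        · refine le_trans (le_of_eq ?_) hu2
          show 36864 * tn n * M ^ 2 * (w / 2 + w * E) = _
          ring)
      hm.hm2 hσ hR
    refine h2.trans ?_
    unfold pG
    refine add_le_add (mul_le_mul_of_nonneg_right (le_of_eq ?_) (by positivity))
      (mul_le_mul_of_nonneg_right ?_ (by positivity))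
    · rw [TM.H764.card_V]
      push_cast
      rfl
    · refine (card_Jx (2 ^ (r - n))).trans (le_of_eq ?_)
      push_cast
      rfl

lemma six_exp_eight : 6 * Real.exp (-8) ≤ 1 / 120 := by
  have h1 : Real.exp (-8) = (Real.exp (-1)) ^ 8 := by
    rw [← Real.exp_nat_mul]
    norm_num
  have h2 : Real.exp (-1) ≤ 0.3679 := by
    have h3 := Real.exp_one_gt_d9
    rw [Real.exp_neg]
    rw [inv_le_comm₀ (Real.exp_pos 1) (by norm_num)]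
    refine le_trans ?_ h3.le
    norm_num
  have h3 : (Real.exp (-1)) ^ 8 ≤ (0.3679 : ℝ) ^ 8 :=
    pow_le_pow_left₀ (Real.exp_pos _).le h2 8
  rw [h1]
  refine (mul_le_mul_of_nonneg_left h3 (by norm_num)).trans ?_
  norm_num

/-- **the a priori bound at the block source**, explicit numbers -/
theorem apA [NeZero (2 ^ (r - n))] (hb : 0 < b) (hsn : s ≤ n) (hnr : n ≤ r)
    (G : GN (2 ^ r) (2 ^ s) l₀ (2 ^ (n - s)) b a τ (tn n) M A X Q₁ d)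
    (hω : om0 (2 ^ r) b (MC (2 ^ r) (2 ^ s) τ (2 * a)) ≤ 1 / 16)
    (hT : TC T) (hWn : ∀ x, Neu (W₃ x)) (hw : 0 < w) (hWw : (W₃ * W₃ᵀ).trace ≤ w)
    (hAP : ∀ β : V (2 ^ (r - n)), (gau (V (2 ^ r / 2 ^ s))).real
      {g | δ < rsC (2 ^ r) (2 ^ s) b (tn n)
        ((X * √(tn n)) • (dB (bS (2 ^ r / 2 ^ s) (2 ^ (r - n)) (2 ^ (n - s)) β) *ᵥ g))} ≤ 1 / 30)
    {Xm E : ℝ} (hXm : 0 < Xm) (hE : 0 < E) (B : Finset (V (2 ^ r / 2 ^ s)))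
    (hB : (B.card : ℝ) * (a * (((2 ^ s : ℕ)) : ℝ) ^ 2) ≤ 1)
    (hd : 8 * Xm ^ 2 * (E + 1 / 2 +
      2 * (1 + Real.log (((2 : ℕ) ^ r / 2 ^ s : ℕ) : ℝ)) / kap b) ≤ d)
    (hn : 1024 * M ^ 4 * (3 + Real.log ((2 ^ r : ℕ) : ℝ)) *
      (4 * Xm ^ 2 * a * (B.card / 2 + E)) ≤ 1)
    (hu1 : 36864 * tn n * M ^ 2 * (2 / (((2 ^ (n - s) : ℕ)) : ℝ) ^ 2 * (1 / 2 + E)) ≤ Lip ^ 2)
    (hu2 : 36864 * tn n * M ^ 2 * (w * (1 / 2 + E)) ≤ u)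
    (hu3 : 36864 * tn n * M ^ 2 * ((((2 : ℕ) ^ r / 2 ^ s : ℕ) : ℝ) ^ 2 / 2 + E) ≤ Λ ^ 2)
    (cA : 6144 * (1 + b) ^ 2 * Q₁ ^ 2 * (Xm ^ 2 * a) * H276.LL r s a * (E + 1) ≤ X ^ 2 * tn n)
    (cL : 37152 * (1 + b) ^ 2 * (Xm ^ 2 * a) * (4 ^ s * tn n) * H276.LL r s a * (E + 1) ≤ Lip ^ 2)
    (cU : 36 * (Xm ^ 2 * a) * ((τ / a) ^ 2 * w) * (E + 1) ≤ u)
    (cΛ : 36 * (Xm ^ 2 * a) * ((τ / a) ^ 2 * 4 ^ (r - s)) * (E + 1) ≤ Λ ^ 2)
    {k : ℕ} (hη : ∀ J ∈ clsG (2 ^ r) (2 ^ s) b (tn n) Q₁ δ (2 ^ (r - n)) (2 ^ (n - s)) T W₃ Lip u Λ,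
      Rs (nwt (2 ^ r) b τ 0) ((2 : ℝ) ^ (k + 1) • J) ≤ 1)
    {D₄ : ℝ} (hD0 : 0 < D₄)
    (hD : K4S (nwt (2 ^ r) b τ 0) (SN (2 ^ r) (2 ^ s)) (SN (2 ^ r) (2 ^ s)) ≤ D₄)
    {qq : ℝ} (hq : pG b n r M X Q₁ E + Real.exp 1 * (6 * Real.exp (-(8 * Xm ^ 2))) ≤ qq)
    (hq1 : qq ≤ 1 / 4) (hcl : cl k (819200 * Xm ^ 4 * ((τ ^ 2 / a) ^ 2 * D₄)) ≤ 1 / 4)
    (hP : 6 * ((2 : ℝ) ^ (r - n)) ^ 4 * Real.exp (-E) + 2 * Real.exp (-E) ≤ 1 / 40) :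
    (gau (V (2 ^ r / 2 ^ s))).real {g | cl k (819200 * Xm ^ 4 * ((τ ^ 2 / a) ^ 2 * D₄)) + 2 * qq <
      Rs (nMC (2 ^ r) (2 ^ s) b τ a 0) ((cobV (2 ^ r) (2 ^ s))ᵀ *ᵥ bsrc (Xm * √a) B g)} ≤
      1 / 30 := by
  have hl : 2 ^ s ∣ 2 ^ r := pow_dvd_pow 2 (hsn.trans hnr)
  have ha := G.s0
  have hat := G.st
  have hτ : 0 < τ := ha.trans hat
  have hc : 0 < Xm * √a := mul_pos hXm (Real.sqrt_pos.2 ha)
  have hc2 : (Xm * √a) ^ 2 = Xm ^ 2 * a := by rw [mul_pow, Real.sq_sqrt ha.le]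
  -- the matrix of the source
  set K : Matrix (V (2 ^ r / 2 ^ s)) (V (2 ^ r / 2 ^ s)) ℝ :=
    (Xm * √a) • ((Pn : Matrix (V (2 ^ r / 2 ^ s)) (V (2 ^ r / 2 ^ s)) ℝ) * dB B) with hK
  have hKg : ∀ g, K *ᵥ g = bsrc (Xm * √a) B g := by
    intro g
    rw [hK, smul_mulVec, ← mulVec_mulVec]
    rfl
  have hK2 : ∀ φ : V (2 ^ r / 2 ^ s) → ℝ,
      ∑ i, (Kᵀ *ᵥ φ) i ^ 2 ≤ (Xm * √a) ^ 2 * ∑ i, φ i ^ 2 := by
    intro φ
    rw [hK, H276.sq_smul_tr, transpose_mul, dB_tr, H963.Pn_transpose, ← mulVec_mulVec]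
    refine mul_le_mul_of_nonneg_left ((dB_sq_le _ _).trans (Pn_sq_le _)) (sq_nonneg _)
  have hKn : ∀ g, Neu (K *ᵥ g) := fun g => by rw [hKg]; exact bsrc_neu _ _ _
  -- the three events
  have hD1 : 0 < (τ ^ 2 / a) ^ 2 * D₄ := by positivity
  set lam : ℝ := 102400 * Xm ^ 4 with hlam
  have hlam0 : 0 ≤ lam := by positivity
  have e8 : 8 * (lam * ((τ ^ 2 / a) ^ 2 * D₄)) = 819200 * Xm ^ 4 * ((τ ^ 2 / a) ^ 2 * D₄) := by
    rw [hlam]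
    ring
  have e16 : √(lam / 16) / 10 = 8 * Xm ^ 2 := by
    have e1 : lam / 16 = (80 * Xm ^ 2) ^ 2 := by
      rw [hlam]
      ring
    rw [e1, Real.sqrt_sq (by positivity)]
    ring
  have e4 : (6400 : ℝ) * ((Xm * √a * (τ / a)) ^ 4 * D₄) = lam * ((τ ^ 2 / a) ^ 2 * D₄) / 16 := by
    have e1 : (Xm * √a * (τ / a)) ^ 4 = (Xm ^ 2 * a) ^ 2 * (τ / a) ^ 4 := by
      rw [← hc2]
      ring
    rw [e1, hlam]
    field_simp
    ring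
  have p1 := H276.te_clsG (K := K) (X := X) (Q₁ := Q₁) (δ := δ) (Lip := Lip) (u := u) (Λ := Λ)
    (Y := E) hb hsn hnr G.hi ha hat hT hWn hw hWw G.X0 G.Q0 hAP hc hK2 hKn hE.le
    (by rw [hc2]; exact cA) (by rw [hc2]; exact cL) (by rw [hc2]; exact cU)
    (by rw [hc2]; exact cΛ)
  have p2 := off_num G hb 0 hXm ha (by linarith) (by linarith) hE.le B hB hd hn
  have p3 := H276.te_K4 (N := 2 ^ r) (l := 2 ^ s) (K := K) hb.le hl ha hat.le hc hK2 hKn hD0 hD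
    (lam := 6400) (by norm_num)
  have hsub : {g | cl k (819200 * Xm ^ 4 * ((τ ^ 2 / a) ^ 2 * D₄)) + 2 * qq <
      Rs (nMC (2 ^ r) (2 ^ s) b τ a 0) ((cobV (2 ^ r) (2 ^ s))ᵀ *ᵥ bsrc (Xm * √a) B g)} ⊆
      {g | ¬ MeanOK (2 ^ r) (2 ^ s) b τ a (tn n) Q₁ δ (2 ^ (n - s)) T
        (bS (2 ^ r / 2 ^ s) (2 ^ (r - n)) (2 ^ (n - s)))
        (FG (2 ^ r / 2 ^ s) (2 ^ (r - n)) (2 ^ (n - s)) T W₃) (uG Lip u Λ) (K *ᵥ g)} ∪
      ({g | ¬ (qf (Rk a (kap b / ((2 ^ s : ℕ) : ℝ) ^ 2)) (bsrc (Xm * √a) B g) -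
        qf (Gm (nMC (2 ^ r) (2 ^ s) b τ a 0))
          ((cobV (2 ^ r) (2 ^ s))ᵀ *ᵥ bsrc (Xm * √a) B g) ≤ d ∧
        4 * Gam (2 ^ r) τ a (kap b) * ∑ i, bsrc (Xm * √a) B g i ^ 2 ≤ (1 : ℝ) ^ 2)} ∪
      {g | 6400 * ((Xm * √a * (τ / a)) ^ 4 * D₄) <
        K4 (nwt (2 ^ r) b τ 0) (H276.bsrc (2 ^ r) (2 ^ s) b τ a (K *ᵥ g))
          (H276.bsrc (2 ^ r) (2 ^ s) b τ a (K *ᵥ g)) (H276.bsrc (2 ^ r) (2 ^ s) b τ a (K *ᵥ g))
          (H276.bsrc (2 ^ r) (2 ^ s) b τ a (K *ᵥ g))}) := by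
    intro g hg
    by_contra hno
    rw [Set.mem_union, not_or, Set.mem_union, not_or] at hno
    obtain ⟨n1, n2, n3⟩ := hno
    have m1 := not_not.1 n1
    have m2 := not_not.1 n2
    rw [Set.mem_ofPred_eq] at n3
    have m3 := not_lt.1 n3
    rw [e4, hKg] at m3
    rw [hKg] at m1
    have := apA_det hb hsn hnr G hω hT hWn hw hWw hAP (bsrc_neu _ _ _) m1 m2.1 m2.2 hE hu1 hu2 hu3
      hη hD0 hD hlam0 m3 (qq := qq) (by rw [e16]; exact hq) hq1 (by rw [e8]; exact hcl)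
    rw [e8] at this
    exact absurd hg (not_lt.2 this)
  refine (measureReal_mono hsub (measure_ne_top _ _)).trans ?_
  refine (measureReal_union_le _ _).trans ?_
  refine (add_le_add p1 ((measureReal_union_le _ _).trans (add_le_add p2 p3))).trans ?_
  have e80 : √(6400 : ℝ) / 10 = 8 := by
    have e1 : (6400 : ℝ) = 80 ^ 2 := by norm_num
    rw [e1, Real.sqrt_sq (by norm_num)]
    norm_num
  rw [e80]
  have := six_exp_eight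
  linarith

end det

end

end Vale.Agent.P159.H663
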