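import Vale.Agent.P159.H363.Law
import Vale.Agent.P159.H552.GauHS2
import Vale.Agent.P159.H37.Spec0L

/-!
P159 / module TILT (helper663): completing the square for the standard Gaussian measure,
`∫ exp(-<f+σg, Q(f+σg)>/2) G(f+σg) = det(1+σ²Q)^(-1/2) exp(-<f,Q(1+σ²Q)⁻¹f>/2) ∫ G((1+σ²Q)⁻¹f + A g)`
for every `A Aᵀ = σ²(1+σ²Q)⁻¹`.
-/

namespace Vale.Agent.P159.H663

open MeasureTheory ProbabilityTheory Finset Matrix
open Vale.Agent.P159.H37 (gau qf qf_eq)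

noncomputable section

variable {I L : Type*} [Fintype I] [Fintype L]

/-! ### one dimension -/

/-- density of `N(-b/(1+c), 1/(1+c))` with respect to `N(0,1)` -/
def dt (c b x : ℝ) : ℝ :=
  √(1 + c) * Real.exp (-(c * x ^ 2 / 2) - b * x - b ^ 2 / (2 * (1 + c)))

lemma dt_nonneg (c b x : ℝ) : 0 ≤ dt c b x := by unfold dt; positivity

lemma dt_pos {c : ℝ} (hc : 0 < 1 + c) (b x : ℝ) : 0 < dt c b x := by
  unfold dt
  have := Real.sqrt_pos.2 hc
  positivity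

lemma dt_meas (c b : ℝ) : Measurable (dt c b) := by unfold dt; fun_prop

lemma gauss_dt {c : ℝ} (hc : 0 < 1 + c) (b : ℝ) :
    (gaussianReal 0 1).map (fun x => -(b / (1 + c)) + (√(1 + c))⁻¹ * x)
      = (gaussianReal 0 1).withDensity fun x => ENNReal.ofReal (dt c b x) := by
  have hs : (√(1 + c))⁻¹ ^ 2 = (1 + c)⁻¹ := by rw [inv_pow, Real.sq_sqrt hc.le]
  have h0 : (fun x : ℝ => -(b / (1 + c)) + (√(1 + c))⁻¹ * x)
      = (fun x => -(b / (1 + c)) + x) ∘ fun x => (√(1 + c))⁻¹ * x := rfl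
  rw [h0, ← Measure.map_map (by fun_prop) (by fun_prop), gaussianReal_map_const_mul, mul_zero,
    gaussianReal_map_const_add, zero_add]
  have hv : (NNReal.mk ((√(1 + c))⁻¹ ^ 2) (sq_nonneg _) * 1 : NNReal) ≠ 0 := by
    rw [mul_one]
    intro h
    have := congrArg NNReal.toReal h
    simp only [NNReal.coe_mk, NNReal.coe_zero] at this
    rw [hs] at this
    exact (inv_pos.2 hc).ne' this
  rw [gaussianReal_of_var_ne_zero _ hv, gaussianReal_of_var_ne_zero _ one_ne_zero,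
    ← withDensity_mul _ (measurable_gaussianPDF 0 1) ((dt_meas c b).ennreal_ofReal)]
  congr 1
  funext x
  simp only [Pi.mul_apply, gaussianPDF_def]
  rw [← ENNReal.ofReal_mul (gaussianPDFReal_nonneg _ _ _)]
  congr 1
  simp only [gaussianPDFReal_def, mul_one, NNReal.coe_mk, NNReal.coe_one, sub_zero]
  rw [hs]
  unfold dt
  have hq : 0 < √(1 + c) := Real.sqrt_pos.2 hc
  have e1 : (√(2 * Real.pi * (1 + c)⁻¹))⁻¹ = (√(2 * Real.pi))⁻¹ * √(1 + c) := by
    rw [Real.sqrt_mul (by positivity), Real.sqrt_inv, mul_inv, inv_inv]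
  rw [e1]
  have e2 : Real.exp (-(x - -(b / (1 + c))) ^ 2 / (2 * (1 + c)⁻¹))
      = Real.exp (-x ^ 2 / 2)
        * Real.exp (-(c * x ^ 2 / 2) - b * x - b ^ 2 / (2 * (1 + c))) := by
    rw [← Real.exp_add]
    congr 1
    field_simp
    ring
  rw [e2]
  ring

lemma lint_dt {c : ℝ} (hc : 0 < 1 + c) (b : ℝ) :
    ∫⁻ x, ENNReal.ofReal (dt c b x) ∂(gaussianReal 0 1) = 1 := by
  have h := congrArg (fun m : Measure ℝ => m Set.univ) (gauss_dt hc b)
  rw [Measure.map_apply (by fun_prop) MeasurableSet.univ, Set.preimage_univ, measure_univ,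
    withDensity_apply _ MeasurableSet.univ, Measure.restrict_univ] at h
  exact h.symm

lemma integrable_dt {c : ℝ} (hc : 0 < 1 + c) (b : ℝ) :
    Integrable (dt c b) (gaussianReal 0 1) := by
  refine ⟨(dt_meas c b).aestronglyMeasurable, ?_⟩
  rw [hasFiniteIntegral_iff_ofReal (Filter.Eventually.of_forall (dt_nonneg c b)), lint_dt hc]
  exact ENNReal.one_lt_top

/-! ### diagonal form -/

/-- product density -/
def dtp (c b : I → ℝ) (g : I → ℝ) : ℝ := ∏ i, dt (c i) (b i) (g i)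

lemma dtp_nonneg (c b g : I → ℝ) : 0 ≤ dtp c b g :=
  Finset.prod_nonneg fun i _ => dt_nonneg _ _ _

lemma dtp_meas (c b : I → ℝ) : Measurable (dtp c b) := by
  unfold dtp
  exact Finset.measurable_prod _ fun i _ => (dt_meas (c i) (b i)).comp (measurable_pi_apply i)

/-- the affine map of the diagonal tilt -/
def af (c b : I → ℝ) (g : I → ℝ) : I → ℝ :=
  fun i => -(b i / (1 + c i)) + (√(1 + c i))⁻¹ * g i

omit [Fintype I] in
lemma af_meas (c b : I → ℝ) : Measurable (af c b) := by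
  refine measurable_pi_iff.2 fun i => ?_
  unfold af
  fun_prop

lemma gau_map_dt {c : I → ℝ} (hc : ∀ i, 0 < 1 + c i) (b : I → ℝ) :
    (gau I).map (af c b) = (gau I).withDensity fun g => ENNReal.ofReal (dtp c b g) := by
  have hsf : ∀ i, SigmaFinite ((gaussianReal 0 1).map
      (fun x => -(b i / (1 + c i)) + (√(1 + c i))⁻¹ * x)) := by
    intro i
    have : IsProbabilityMeasure ((gaussianReal 0 1).map
        (fun x => -(b i / (1 + c i)) + (√(1 + c i))⁻¹ * x)) :=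
      Measure.isProbabilityMeasure_map (by fun_prop)
    infer_instance
  have h1 : (gau I).map (af c b)
      = Measure.pi fun i => (gaussianReal 0 1).map
          (fun x => -(b i / (1 + c i)) + (√(1 + c i))⁻¹ * x) := by
    unfold gau
    exact Measure.pi_map_pi (μ := fun _ : I => gaussianReal 0 1)
      (f := fun i x => -(b i / (1 + c i)) + (√(1 + c i))⁻¹ * x) (fun i => by fun_prop)
  rw [h1]
  exact Vale.Agent.P159.H552.pi_dens _ (fun i => dt (c i) (b i)) (fun i x => dt_nonneg _ _ _)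
    (fun i => integrable_dt (hc i) (b i)) fun i => gauss_dt (hc i) (b i)

variable {E : Type*} [NormedAddCommGroup E] [NormedSpace ℝ E]

lemma int_dtp {c : I → ℝ} (hc : ∀ i, 0 < 1 + c i) (b : I → ℝ) {F : (I → ℝ) → E}
    (hF : StronglyMeasurable F) :
    ∫ g, dtp c b g • F g ∂(gau I) = ∫ g, F (af c b g) ∂(gau I) := by
  rw [← integral_map (af_meas c b).aemeasurable hF.aestronglyMeasurable, gau_map_dt hc,
    integral_withDensity_eq_integral_toReal_smul ((dtp_meas c b).ennreal_ofReal)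
      (Filter.Eventually.of_forall fun x => ENNReal.ofReal_lt_top)]
  refine integral_congr_ae (Filter.Eventually.of_forall fun J => ?_)
  simp only
  rw [ENNReal.toReal_ofReal (dtp_nonneg c b J)]

lemma integrable_dtp {c : I → ℝ} (hc : ∀ i, 0 < 1 + c i) (b : I → ℝ) {F : (I → ℝ) → E}
    (hF : StronglyMeasurable F) :
    Integrable (fun g => dtp c b g • F g) (gau I) ↔
      Integrable (fun g => F (af c b g)) (gau I) := by
  have h1 := integrable_map_measure (μ := gau I) (f := af c b) (g := F)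
    hF.aestronglyMeasurable (af_meas c b).aemeasurable
  rw [gau_map_dt hc, integrable_withDensity_iff_integrable_smul'
    ((dtp_meas c b).ennreal_ofReal) (Filter.Eventually.of_forall fun x => ENNReal.ofReal_lt_top)]
    at h1
  refine Iff.trans ?_ h1
  refine integrable_congr (Filter.Eventually.of_forall fun J => ?_)
  simp only
  rw [ENNReal.toReal_ofReal (dtp_nonneg c b J)]

/-! ### matrix form -/

omit [NormedSpace ℝ E] in
/-- equal covariances: same integrability -/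
theorem law_integrable {J : Type*} [Fintype J] (A : Matrix L I ℝ) (B : Matrix L J ℝ)
    (h : A * Aᵀ = B * Bᵀ) {F : (L → ℝ) → E} (hF : StronglyMeasurable F) :
    Integrable (fun g => F (A *ᵥ g)) (gau I) ↔ Integrable (fun g => F (B *ᵥ g)) (gau J) := by
  have h1 := integrable_map_measure (μ := gau I) (f := fun g => A *ᵥ g) (g := F)
    hF.aestronglyMeasurable (Vale.Agent.P159.H363.measurable_mulVec A).aemeasurable
  have h2 := integrable_map_measure (μ := gau J) (f := fun g => B *ᵥ g) (g := F)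
    hF.aestronglyMeasurable (Vale.Agent.P159.H363.measurable_mulVec B).aemeasurable
  rw [Vale.Agent.P159.H363.law_eq A B h] at h1
  exact h1.symm.trans h2

section matrix

variable [DecidableEq L]

lemma spec_pos {Q O : Matrix L L ℝ} {d : L → ℝ} (hO2 : Oᵀ * O = 1)
    (hQ : Q = O * diagonal d * Oᵀ) {s : ℝ}
    (hpos : ∀ v : L → ℝ, v ≠ 0 → 0 < qf (1 + s • Q) v) (i : L) : 0 < 1 + s * d i := by
  have h1 : Oᵀ *ᵥ (O *ᵥ Pi.single i 1) = Pi.single i (1 : ℝ) := by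
    rw [mulVec_mulVec, hO2, one_mulVec]
  have hne : O *ᵥ Pi.single i 1 ≠ (0 : L → ℝ) := by
    intro h
    rw [h, mulVec_zero] at h1
    have := congrFun h1 i
    simp at this
  have h2 := hpos _ hne
  rw [qf_eq, add_mulVec, one_mulVec, smul_mulVec, dotProduct_add, dotProduct_smul,
    smul_eq_mul] at h2
  have h3 : (O *ᵥ Pi.single i 1) ⬝ᵥ (O *ᵥ Pi.single i (1 : ℝ)) = 1 := by
    rw [dotProduct_mulVec, ← mulVec_transpose, h1]
    simp
  have h4 : (O *ᵥ Pi.single i 1) ⬝ᵥ Q *ᵥ (O *ᵥ Pi.single i (1 : ℝ)) = d i := by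
    have : Q *ᵥ (O *ᵥ Pi.single i (1 : ℝ)) = O *ᵥ (diagonal d *ᵥ Pi.single i 1) := by
      rw [hQ, ← mulVec_mulVec, h1, ← mulVec_mulVec]
    rw [this, dotProduct_mulVec, ← mulVec_transpose, h1]
    simp
  rwa [h3, h4] at h2

lemma spec_inv {Q O : Matrix L L ℝ} {d : L → ℝ} (hO : O * Oᵀ = 1) (hO2 : Oᵀ * O = 1)
    (hQ : Q = O * diagonal d * Oᵀ) {s : ℝ} (hd : ∀ i, 0 < 1 + s * d i) :
    (1 + s • Q)⁻¹ = O * diagonal (fun i => (1 + s * d i)⁻¹) * Oᵀ := by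
  apply Matrix.inv_eq_right_inv
  have h1 : (1 : Matrix L L ℝ) + s • Q = O * diagonal (fun i => 1 + s * d i) * Oᵀ := by
    have : (diagonal fun i => 1 + s * d i) = 1 + s • diagonal d := by
      rw [← diagonal_one, ← diagonal_smul, diagonal_add]
      rfl
    rw [this, Matrix.mul_add, Matrix.add_mul, Matrix.mul_one, hO, Matrix.mul_smul,
      Matrix.smul_mul, ← hQ]
  rw [h1, show O * diagonal (fun i => 1 + s * d i) * Oᵀ *
      (O * diagonal (fun i => (1 + s * d i)⁻¹) * Oᵀ)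
      = O * (diagonal (fun i => 1 + s * d i) * ((Oᵀ * O) *
        diagonal (fun i => (1 + s * d i)⁻¹))) * Oᵀ by simp only [Matrix.mul_assoc],
    hO2, Matrix.one_mul, diagonal_mul_diagonal]
  have : (fun i => (1 + s * d i) * (1 + s * d i)⁻¹) = fun _ => (1 : ℝ) := by
    funext i
    exact mul_inv_cancel₀ (hd i).ne'
  rw [this, diagonal_one, Matrix.mul_one, hO]

lemma spec_det {Q O : Matrix L L ℝ} {d : L → ℝ} (hO : O * Oᵀ = 1)
    (hQ : Q = O * diagonal d * Oᵀ) {s : ℝ} :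
    (1 + s • Q).det = ∏ i, (1 + s * d i) := by
  have h1 : (1 : Matrix L L ℝ) + s • Q = O * diagonal (fun i => 1 + s * d i) * Oᵀ := by
    have : (diagonal fun i => 1 + s * d i) = 1 + s • diagonal d := by
      rw [← diagonal_one, ← diagonal_smul, diagonal_add]
      rfl
    rw [this, Matrix.mul_add, Matrix.add_mul, Matrix.mul_one, hO, Matrix.mul_smul,
      Matrix.smul_mul, ← hQ]
  rw [h1, det_mul, det_mul, mul_right_comm, ← det_mul, hO, det_one, one_mul, det_diagonal]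

lemma spec_qf {Q O : Matrix L L ℝ} {d : L → ℝ} (hQ : Q = O * diagonal d * Oᵀ) (v : L → ℝ) :
    qf Q v = ∑ i, d i * (Oᵀ *ᵥ v) i ^ 2 := by
  rw [qf_eq, hQ, ← mulVec_mulVec, ← mulVec_mulVec, dotProduct_mulVec, ← mulVec_transpose]
  simp only [dotProduct, mulVec_diagonal]
  exact Finset.sum_congr rfl fun i _ => by ring

/-- the constant of the tilt -/
def tc (s : ℝ) (Q : Matrix L L ℝ) (f : L → ℝ) : ℝ :=
  (√(1 + s • Q).det)⁻¹ * Real.exp (-(qf (Q * (1 + s • Q)⁻¹) f / 2))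

/-- the weight in spectral coordinates -/
lemma tilt_weight {Q O : Matrix L L ℝ} {d : L → ℝ} (hO : O * Oᵀ = 1) (hO2 : Oᵀ * O = 1)
    (hQ : Q = O * diagonal d * Oᵀ) {σ : ℝ} (hd : ∀ i, 0 < 1 + σ ^ 2 * d i) (f g : L → ℝ) :
    Real.exp (-(qf Q (f + σ • (O *ᵥ g)) / 2))
      = tc (σ ^ 2) Q f
        * dtp (fun i => σ ^ 2 * d i) (fun i => σ * d i * (Oᵀ *ᵥ f) i) g := by
  have e1 : Oᵀ *ᵥ (f + σ • (O *ᵥ g)) = Oᵀ *ᵥ f + σ • g := by
    rw [mulVec_add, mulVec_smul, mulVec_mulVec, hO2, one_mulVec]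
  have e2 : Q * (1 + σ ^ 2 • Q)⁻¹ = O * diagonal (fun i => d i * (1 + σ ^ 2 * d i)⁻¹) * Oᵀ := by
    rw [spec_inv hO hO2 hQ hd]
    conv_lhs => rw [hQ]
    rw [show O * diagonal d * Oᵀ * (O * diagonal (fun i => (1 + σ ^ 2 * d i)⁻¹) * Oᵀ)
      = O * (diagonal d * ((Oᵀ * O) * diagonal (fun i => (1 + σ ^ 2 * d i)⁻¹))) * Oᵀ by
        simp only [Matrix.mul_assoc], hO2, Matrix.one_mul, diagonal_mul_diagonal]
  unfold tc dtp dt
  rw [spec_qf hQ, e1, spec_qf e2, spec_det hO hQ, Real.sqrt_prod _ (fun i _ => (hd i).le),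
    ← Finset.prod_inv_distrib, Finset.prod_mul_distrib, ← Real.exp_sum]
  have hne : ∀ i, √(1 + σ ^ 2 * d i) ≠ 0 := fun i => (Real.sqrt_pos.2 (hd i)).ne'
  have e3 : (∏ i, (√(1 + σ ^ 2 * d i))⁻¹) * ∏ i, √(1 + σ ^ 2 * d i) = 1 := by
    rw [← Finset.prod_mul_distrib]
    exact Finset.prod_eq_one fun i _ => inv_mul_cancel₀ (hne i)
  set p := ∏ i, (√(1 + σ ^ 2 * d i))⁻¹
  set q := ∏ i, √(1 + σ ^ 2 * d i)
  rw [show ∀ a b : ℝ, p * a * (q * b) = (p * q) * (a * b) from fun a b => by ring, e3, one_mul,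
    ← Real.exp_add]
  congr 1
  rw [Finset.sum_div, Finset.sum_div, ← Finset.sum_neg_distrib, ← Finset.sum_neg_distrib,
    ← Finset.sum_add_distrib]
  refine Finset.sum_congr rfl fun i _ => ?_
  have hr := inv_mul_cancel₀ (hd i).ne'
  simp only [Pi.add_apply, Pi.smul_apply, smul_eq_mul]
  rw [div_eq_mul_inv _ (2 * (1 + σ ^ 2 * d i)), mul_inv]
  set r := (1 + σ ^ 2 * d i)⁻¹
  linear_combination (d i * (Oᵀ *ᵥ f) i ^ 2 / 2) * hr

/-- the affine map in spectral coordinates -/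
lemma tilt_map {Q O : Matrix L L ℝ} {d : L → ℝ} (hO : O * Oᵀ = 1) (hO2 : Oᵀ * O = 1)
    (hQ : Q = O * diagonal d * Oᵀ) {σ : ℝ} (hd : ∀ i, 0 < 1 + σ ^ 2 * d i) (f g : L → ℝ) :
    f + σ • (O *ᵥ af (fun i => σ ^ 2 * d i) (fun i => σ * d i * (Oᵀ *ᵥ f) i) g)
      = (1 + σ ^ 2 • Q)⁻¹ *ᵥ f
        + (σ • (O * diagonal fun i => (√(1 + σ ^ 2 * d i))⁻¹)) *ᵥ g := by
  rw [spec_inv hO hO2 hQ hd]
  have e0 : f = O *ᵥ (Oᵀ *ᵥ f) := by rw [mulVec_mulVec, hO, one_mulVec]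
  set φ := Oᵀ *ᵥ f with hφ
  conv_lhs => rw [e0]
  rw [← mulVec_mulVec, ← hφ, smul_mulVec, ← mulVec_mulVec, ← mulVec_mulVec, ← mulVec_smul,
    ← mulVec_smul, ← mulVec_add, ← mulVec_add]
  congr 1
  funext i
  simp only [Pi.add_apply, Pi.smul_apply, smul_eq_mul, af, mulVec_diagonal]
  have := (hd i).ne'
  field_simp
  ring

lemma tilt_cov {Q O : Matrix L L ℝ} {d : L → ℝ} (hO : O * Oᵀ = 1) (hO2 : Oᵀ * O = 1)
    (hQ : Q = O * diagonal d * Oᵀ) {σ : ℝ} (hd : ∀ i, 0 < 1 + σ ^ 2 * d i) :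
    (σ • (O * diagonal fun i => (√(1 + σ ^ 2 * d i))⁻¹))
      * (σ • (O * diagonal fun i => (√(1 + σ ^ 2 * d i))⁻¹))ᵀ = σ ^ 2 • (1 + σ ^ 2 • Q)⁻¹ := by
  rw [spec_inv hO hO2 hQ hd, transpose_smul, transpose_mul, diagonal_transpose, Matrix.smul_mul,
    Matrix.mul_smul, smul_smul, ← sq]
  congr 1
  rw [show O * diagonal (fun i => (√(1 + σ ^ 2 * d i))⁻¹) *
      (diagonal (fun i => (√(1 + σ ^ 2 * d i))⁻¹) * Oᵀ)
      = O * (diagonal (fun i => (√(1 + σ ^ 2 * d i))⁻¹) *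
        diagonal (fun i => (√(1 + σ ^ 2 * d i))⁻¹)) * Oᵀ by simp only [Matrix.mul_assoc],
    diagonal_mul_diagonal]
  have : (fun i => (√(1 + σ ^ 2 * d i))⁻¹ * (√(1 + σ ^ 2 * d i))⁻¹)
      = fun i => (1 + σ ^ 2 * d i)⁻¹ := by
    funext i
    rw [← mul_inv, Real.mul_self_sqrt (hd i).le]
  rw [this]

omit [DecidableEq L] in
lemma qf_cont (Q : Matrix L L ℝ) : Continuous fun v : L → ℝ => qf Q v := by
  unfold qf
  fun_prop

/-- **TILT**: completing the square, general form -/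
theorem tilt_pd {Q : Matrix L L ℝ} (hQ : Qᵀ = Q) {σ : ℝ}
    (hpos : ∀ v : L → ℝ, v ≠ 0 → 0 < qf (1 + σ ^ 2 • Q) v)
    {A : Matrix L I ℝ} (hA : A * Aᵀ = σ ^ 2 • (1 + σ ^ 2 • Q)⁻¹) (f : L → ℝ)
    {G : (L → ℝ) → E} (hG : StronglyMeasurable G) :
    ∫ g, Real.exp (-(qf Q (f + σ • g) / 2)) • G (f + σ • g) ∂(gau L)
      = tc (σ ^ 2) Q f • ∫ g, G ((1 + σ ^ 2 • Q)⁻¹ *ᵥ f + A *ᵥ g) ∂(gau I) := by
  obtain ⟨O, d, hO, hO2, hQO, -⟩ := Vale.Agent.P159.H552.spec_real hQ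
  have hd : ∀ i, 0 < 1 + σ ^ 2 * d i := fun i => spec_pos hO2 hQO hpos i
  have hG2 : StronglyMeasurable fun g : L → ℝ => G (f + σ • (O *ᵥ g)) :=
    hG.comp_measurable
      (measurable_const.add ((Vale.Agent.P159.H363.measurable_mulVec O).const_smul σ))
  have hH : StronglyMeasurable fun g : L → ℝ =>
      Real.exp (-(qf Q (f + σ • g) / 2)) • G (f + σ • g) := by
    refine StronglyMeasurable.smul ?_ ?_
    · refine Continuous.stronglyMeasurable ?_
      have : Continuous fun g : L → ℝ => qf Q (f + σ • g) := (qf_cont Q).comp (by fun_prop)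
      fun_prop
    · exact hG.comp_measurable (measurable_const.add (measurable_id.const_smul σ))
  have h1 := Vale.Agent.P159.H363.law_integral_eq (1 : Matrix L L ℝ) O
    (by rw [hO, transpose_one, Matrix.mul_one]) _ hH
  simp only [one_mulVec] at h1
  rw [h1]
  simp only [tilt_weight hO hO2 hQO hd, mul_smul]
  rw [integral_smul, int_dtp hd _ hG2]
  congr 1
  simp only [tilt_map hO hO2 hQO hd]
  exact Vale.Agent.P159.H363.law_integral_eq_add _ _
    ((tilt_cov hO hO2 hQO hd).trans hA.symm) _ _ hG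

/-- integrability in the tilt -/
theorem tilt_pd_integrable {Q : Matrix L L ℝ} (hQ : Qᵀ = Q) {σ : ℝ}
    (hpos : ∀ v : L → ℝ, v ≠ 0 → 0 < qf (1 + σ ^ 2 • Q) v)
    {A : Matrix L I ℝ} (hA : A * Aᵀ = σ ^ 2 • (1 + σ ^ 2 • Q)⁻¹) (f : L → ℝ)
    {G : (L → ℝ) → E} (hG : StronglyMeasurable G) :
    Integrable (fun g => Real.exp (-(qf Q (f + σ • g) / 2)) • G (f + σ • g)) (gau L)
      ↔ Integrable (fun g => G ((1 + σ ^ 2 • Q)⁻¹ *ᵥ f + A *ᵥ g)) (gau I) := by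
  obtain ⟨O, d, hO, hO2, hQO, -⟩ := Vale.Agent.P159.H552.spec_real hQ
  have hd : ∀ i, 0 < 1 + σ ^ 2 * d i := fun i => spec_pos hO2 hQO hpos i
  have hG2 : StronglyMeasurable fun g : L → ℝ => G (f + σ • (O *ᵥ g)) :=
    hG.comp_measurable
      (measurable_const.add ((Vale.Agent.P159.H363.measurable_mulVec O).const_smul σ))
  have hH : StronglyMeasurable fun g : L → ℝ =>
      Real.exp (-(qf Q (f + σ • g) / 2)) • G (f + σ • g) := by
    refine StronglyMeasurable.smul ?_ ?_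
    · refine Continuous.stronglyMeasurable ?_
      have : Continuous fun g : L → ℝ => qf Q (f + σ • g) := (qf_cont Q).comp (by fun_prop)
      fun_prop
    · exact hG.comp_measurable (measurable_const.add (measurable_id.const_smul σ))
  have h1 := law_integrable (1 : Matrix L L ℝ) O (by rw [hO, transpose_one, Matrix.mul_one]) hH
  simp only [one_mulVec] at h1
  rw [h1]
  simp only [tilt_weight hO hO2 hQO hd, mul_smul]
  have htc : tc (σ ^ 2) Q f ≠ 0 := by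
    unfold tc
    have : 0 < (1 + σ ^ 2 • Q).det := by
      rw [spec_det hO hQO]
      exact Finset.prod_pos fun i _ => hd i
    have := Real.sqrt_pos.2 this
    positivity
  rw [integrable_fun_smul_iff htc, integrable_dtp hd _ hG2]
  simp only [tilt_map hO hO2 hQO hd]
  exact law_integrable (F := fun y => G ((1 + σ ^ 2 • Q)⁻¹ *ᵥ f + y)) _ _
    ((tilt_cov hO hO2 hQO hd).trans hA.symm) (hG.comp_measurable (by fun_prop))

lemma tc_pos {Q : Matrix L L ℝ} (hQ : Qᵀ = Q) {s : ℝ}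
    (hpos : ∀ v : L → ℝ, v ≠ 0 → 0 < qf (1 + s • Q) v) (f : L → ℝ) : 0 < tc s Q f := by
  obtain ⟨O, d, hO, hO2, hQO, -⟩ := Vale.Agent.P159.H552.spec_real hQ
  have hd : ∀ i, 0 < 1 + s * d i := fun i => spec_pos hO2 hQO hpos i
  unfold tc
  have : 0 < (1 + s • Q).det := by
    rw [spec_det hO hQO]
    exact Finset.prod_pos fun i _ => hd i
  have := Real.sqrt_pos.2 this
  positivity

lemma pd_of_psd {Q : Matrix L L ℝ} (h0 : ∀ v : L → ℝ, 0 ≤ qf Q v) {s : ℝ} (hs : 0 ≤ s)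
    (v : L → ℝ) (hv : v ≠ 0) : 0 < qf (1 + s • Q) v := by
  have h1 : qf (1 + s • Q) v = v ⬝ᵥ v + s * qf Q v := by
    rw [qf_eq, qf_eq, add_mulVec, one_mulVec, smul_mulVec, dotProduct_add, dotProduct_smul,
      smul_eq_mul]
  rw [h1]
  have h2 : 0 < v ⬝ᵥ v := by
    have := (dotProduct_self_star_pos_iff (v := v)).2 hv
    simpa using this
  have := mul_nonneg hs (h0 v)
  linarith

/-- **TILT** (positive semidefinite form) -/
theorem tilt {Q : Matrix L L ℝ} (hQ : Qᵀ = Q) (h0 : ∀ v : L → ℝ, 0 ≤ qf Q v) (σ : ℝ)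
    {A : Matrix L I ℝ} (hA : A * Aᵀ = σ ^ 2 • (1 + σ ^ 2 • Q)⁻¹) (f : L → ℝ)
    {G : (L → ℝ) → E} (hG : StronglyMeasurable G) :
    ∫ g, Real.exp (-(qf Q (f + σ • g) / 2)) • G (f + σ • g) ∂(gau L)
      = tc (σ ^ 2) Q f • ∫ g, G ((1 + σ ^ 2 • Q)⁻¹ *ᵥ f + A *ᵥ g) ∂(gau I) :=
  tilt_pd hQ (pd_of_psd h0 (sq_nonneg σ)) hA f hG

theorem tilt_integrable {Q : Matrix L L ℝ} (hQ : Qᵀ = Q) (h0 : ∀ v : L → ℝ, 0 ≤ qf Q v) (σ : ℝ)
    {A : Matrix L I ℝ} (hA : A * Aᵀ = σ ^ 2 • (1 + σ ^ 2 • Q)⁻¹) (f : L → ℝ)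
    {G : (L → ℝ) → E} (hG : StronglyMeasurable G) :
    Integrable (fun g => Real.exp (-(qf Q (f + σ • g) / 2)) • G (f + σ • g)) (gau L)
      ↔ Integrable (fun g => G ((1 + σ ^ 2 • Q)⁻¹ *ᵥ f + A *ᵥ g)) (gau I) :=
  tilt_pd_integrable hQ (pd_of_psd h0 (sq_nonneg σ)) hA f hG

/-- normalised form: with weight `W` and `w(F) = exp(-<F,QF>/2) W(F)`, the channel average of `ψ`
is `P(ψ W) / P W`, `P = N(ah f, Γ)` -/
theorem tilt_ratio {Q : Matrix L L ℝ} (hQ : Qᵀ = Q) (h0 : ∀ v : L → ℝ, 0 ≤ qf Q v) (σ : ℝ)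
    {A : Matrix L I ℝ} (hA : A * Aᵀ = σ ^ 2 • (1 + σ ^ 2 • Q)⁻¹) (f : L → ℝ)
    {W : (L → ℝ) → ℝ} (hW : Measurable W) {ψ : (L → ℝ) → E} (hψ : StronglyMeasurable ψ) :
    (∫ g, Real.exp (-(qf Q (f + σ • g) / 2)) * W (f + σ • g) ∂(gau L))⁻¹
        • ∫ g, (Real.exp (-(qf Q (f + σ • g) / 2)) * W (f + σ • g)) • ψ (f + σ • g) ∂(gau L)
      = (∫ g, W ((1 + σ ^ 2 • Q)⁻¹ *ᵥ f + A *ᵥ g) ∂(gau I))⁻¹
        • ∫ g, W ((1 + σ ^ 2 • Q)⁻¹ *ᵥ f + A *ᵥ g) • ψ ((1 + σ ^ 2 • Q)⁻¹ *ᵥ f + A *ᵥ g)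
          ∂(gau I) := by
  have h1 := tilt hQ h0 σ hA f hW.stronglyMeasurable
  have h2 := tilt hQ h0 σ hA f (G := fun v => W v • ψ v) (hW.stronglyMeasurable.smul hψ)
  simp only [smul_eq_mul] at h1
  simp only [mul_smul]
  rw [h1, h2, smul_smul, mul_inv, mul_right_comm,
    inv_mul_cancel₀ (tc_pos hQ (pd_of_psd h0 (sq_nonneg σ)) f).ne', one_mul]

end matrix

end

end Vale.Agent.P159.H663
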