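import Vale.Agent.P159.H663.Drl2
import Vale.Agent.P159.H447.Sit10

/-!
P159 (helper663), S, module DOOR, law half, part 3: **the union**.

`door_law` : outside a set of small `nuS` probability the field satisfies all the hypotheses of
helper529's `Eng.door` (`R (4 F) ≤ r`, `R (4 (S+1) (F - tT F)) ≤ r`, `|t ⟨w, F⟩| ≤ L`,
`|t ⟨w, F - tT F⟩| ≤ μ`), `w` neutral with `grd w ≤ G`.
-/

set_option linter.unusedSectionVars false

open Finset Matrix MeasureTheory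

namespace Vale.Agent.P159.H663.Dr

open Vale.Agent.P159.TM.Spec (V)
open Vale.Agent.P159.TM.SpecC (Tor wT)
open Vale.Agent.P159.H37 (cellP Rs)
open Vale.Agent.P159.H963 (Pn Neu neu_Pn Pn_mulVec Pn_of_neu nwt)
open Vale.Agent.P159.H963.Core (RF RF_nonneg Pt_smul)
open Vale.Agent.P159.H447 (src src_eq tent dav dav_nonneg rsn_tent door_R any_nuM nuS prob_nuS)

noncomputable section

variable {N q : ℕ} [NeZero N] {b t : ℝ}

lemma tent_eq : tent N q = tT N q := rfl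

lemma src_Pt (F : V N → ℝ) : src N t F = H817.Pt t F := by
  rw [src_eq]
  unfold H817.Pt
  rw [mulVec_smul]

lemma RF_src (c : ℝ) (F : V N → ℝ) : RF N b t (c • F) = Rs (nwt N b t 0) (c • src N t F) := by
  unfold H963.Core.RF
  rw [Pt_smul, src_Pt]

/-- the source of the tent average -/
lemma src_tT (hq : 0 < q) (F : V N → ℝ) : src N t (tT N q F) = tT N q (src N t F) := by
  rw [src_eq, src_eq, tT_smul, Pn_mulVec, Pn_mulVec, sum_tT hq]
  congr 1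
  have e := tT_addc hq F (-((∑ y, F y) / (Fintype.card (V N) : ℝ)))
  simp only [← sub_eq_add_neg] at e
  exact e.symm

lemma RF_rough (hb : 0 < b) (ht : 0 < t) (hq : 0 < q) (hd : q ∣ N) (S : ℝ) (F : V N → ℝ) :
    RF N b t (S • (F - tT N q F)) ≤ dav N q b t S F := by
  have e : src N t (F - tT N q F) = src N t F - src N t (tT N q F) := by
    unfold H447.src
    rw [mulVec_sub]
  rw [RF_src, e, src_tT hq]
  exact rsn_tent hb.le ht hd S F

/-- Markov -/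
lemma markov {Ω : Type*} [MeasurableSpace Ω] (ν : Measure Ω) [IsProbabilityMeasure ν] {f : Ω → ℝ}
    (hf : Integrable f ν) (h0 : ∀ ω, 0 ≤ f ω) {r B : ℝ} (hr : 0 < r) (hB : ∫ ω, f ω ∂ν ≤ B) :
    ν.real {ω | r < f ω} ≤ B / r := by
  have h1 := mul_meas_ge_le_integral_of_nonneg (μ := ν) (Filter.Eventually.of_forall h0) hf r
  have h2 : ν.real {ω | r < f ω} ≤ ν.real {ω | r ≤ f ω} :=
    measureReal_mono (fun ω h => (show r < f ω from h).le) (measure_ne_top _ _)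
  rw [le_div_iff₀ hr, mul_comm]
  refine (mul_le_mul_of_nonneg_left h2 hr.le).trans (h1.trans hB)

/-- **the law half of DOOR** -/
theorem door_law (hb : 0 < b) : ∃ C c : ℝ, 0 < C ∧ 0 < c ∧ c ≤ 1 ∧
    ∀ (N : ℕ) [NeZero N] (n p : ℕ), 2 ^ n ∣ N → 2 ^ p ∣ N →
    ∀ t : ℝ, 0 < t → t * ((2 : ℝ) ^ n) ^ 2 ≤ 1 → t * ((2 : ℝ) ^ p) ^ 2 ≤ 1 →
      1 < t * 4 ^ (p + 1) → 1 ≤ t * (N : ℝ) ^ 2 →
    ∀ (w : V N → ℝ), ∑ x, w x = 0 → ∀ S r L μ sN sq : ℝ, 0 < r → 0 < sN → 0 < sq →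
      16 * (t * (N : ℝ) ^ 2) * TM.H764.grd w + 8 * b * (t * (N : ℝ) ^ 2) ^ 2 * TM.H764.grd w ≤
        sN ^ 2 →
      4 * (t * (N : ℝ) ^ 2) ^ 2 * TM.H764.grd w ≤ sN ^ 2 →
      16 * (t * ((2 : ℝ) ^ n) ^ 2) * TM.H764.grd w +
        8 * b * (t * ((2 : ℝ) ^ n) ^ 2) ^ 2 * TM.H764.grd w ≤ sq ^ 2 →
      4 * (t * ((2 : ℝ) ^ n) ^ 2) ^ 2 * TM.H764.grd w ≤ sq ^ 2 →
    (nuS N b t).real {F | ¬ (RF N b t ((4 : ℝ) • F) ≤ r ∧
        RF N b t (S • (F - tT N (2 ^ n) F)) ≤ r ∧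
        |t * ∑ y, w y * F y| ≤ L ∧ |t * ∑ y, w y * (F y - tT N (2 ^ n) F y)| ≤ μ)} ≤
      C * (t * (N : ℝ) ^ 2) ^ 4 / r +
        C * ((t * (N : ℝ) ^ 2) ^ 4 * (1 + S ^ 2) ^ 3) * ((2 : ℝ) ^ n * √t) ^ c / r +
        2 * Real.exp (-(L / (2 * sN))) + 2 * Real.exp (-(μ / (2 * sq))) := by
  obtain ⟨C1, hC1, h1⟩ := any_nuM hb
  obtain ⟨C2, c, hC2, hc, hc1, h2⟩ := door_R hb
  refine ⟨64 * C1 + C2, c, by positivity, hc, hc1, ?_⟩
  intro N _ n p hn hp t ht htn htp htp1 htN w hw S r L μ sN sq hr hsN hsq k1 k2 k3 k4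
  have hpr := prob_nuS (N := N) hb ht
  have hl0 : 0 < 2 ^ n := by positivity
  have hlr : (((2 ^ n : ℕ) : ℝ)) = (2 : ℝ) ^ n := by push_cast; rfl
  have hK : (0 : ℝ) ≤ (t * (N : ℝ) ^ 2) ^ 4 := by positivity
  -- `R (4 F)`
  obtain ⟨i1, i2⟩ := h1 N p hp t ht htp htp1 htN ((2 : ℝ) • (Pn : Matrix (V N) (V N) ℝ)) 4
    (by norm_num) (fun v => by
      have e : ∑ x, (((2 : ℝ) • (Pn : Matrix (V N) (V N) ℝ))ᵀ *ᵥ v) x ^ 2 =
          4 * ∑ x, ((Pn : Matrix (V N) (V N) ℝ) *ᵥ v) x ^ 2 := by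
        rw [Finset.mul_sum]
        refine Finset.sum_congr rfl fun x _ => ?_
        rw [transpose_smul, H963.Pn_transpose, smul_mulVec, Pi.smul_apply, smul_eq_mul]
        ring
      rw [e]
      exact mul_le_mul_of_nonneg_left (H447.sum_Pn_le v) (by norm_num))
    (fun J => by rw [smul_mulVec]; exact (neu_Pn J).smul _)
  have e1 : ∀ F : V N → ℝ, Rs (nwt N b t 0)
      ((2 : ℝ) • (((2 : ℝ) • (Pn : Matrix (V N) (V N) ℝ)) *ᵥ src N t F)) =
      RF N b t ((4 : ℝ) • F) := by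
    intro F
    rw [RF_src, smul_mulVec, smul_smul]
    congr 2
    · norm_num
    · refine Pn_of_neu ?_
      rw [src_eq]
      exact (neu_Pn F).smul t
  simp only [e1] at i1 i2
  have m1 := markov (nuS N b t) i1 (fun F => RF_nonneg hb ht _) hr i2
  -- the rough part
  obtain ⟨i3, i4⟩ := h2 N n p hn hp t ht htn htp1 htN S
  have m2 := markov (nuS N b t) i3 (fun F => dav_nonneg hb.le ht S F) hr i4
  -- the linear functionals
  have m3 := tail_ln hb ht (0 : V N) w hw hsN k1 k2 L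
  have m4 := tail_dT hb ht (0 : V N) hl0 hn w (s := sq) hsq (by rw [hlr]; exact k3)
    (by rw [hlr]; exact k4) μ
  have hsub : {F : V N → ℝ | ¬ (RF N b t ((4 : ℝ) • F) ≤ r ∧
        RF N b t (S • (F - tT N (2 ^ n) F)) ≤ r ∧
        |t * ∑ y, w y * F y| ≤ L ∧ |t * ∑ y, w y * (F y - tT N (2 ^ n) F y)| ≤ μ)} ⊆
      (({F | r < RF N b t ((4 : ℝ) • F)} ∪ {F | r < dav N (2 ^ n) b t S F}) ∪
        {F | L < |t * ∑ y, w y * F y|}) ∪
        {F | μ < |t * ∑ y, w y * (F y - tT N (2 ^ n) F y)|} := by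
    intro F hF
    by_contra hc'
    simp only [Set.mem_union, not_or] at hc'
    obtain ⟨⟨⟨c1, c2⟩, c3⟩, c4⟩ := hc'
    refine hF ⟨not_lt.1 c1, ?_, not_lt.1 c3, not_lt.1 c4⟩
    exact (RF_rough hb ht hl0 hn S F).trans (not_lt.1 c2)
  have hfin : ∀ A : Set (V N → ℝ), (nuS N b t) A ≠ ⊤ := fun A => measure_ne_top _ _
  refine (measureReal_mono hsub (hfin _)).trans ?_
  refine (measureReal_union_le _ _).trans (add_le_add ?_ m4)
  refine (measureReal_union_le _ _).trans (add_le_add ?_ m3)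
  refine (measureReal_union_le _ _).trans (add_le_add (m1.trans ?_) (m2.trans ?_))
  · refine div_le_div_of_nonneg_right ?_ hr.le
    have : C1 * ((t * (N : ℝ) ^ 2) ^ 4 * 4 ^ 3) = 64 * C1 * (t * (N : ℝ) ^ 2) ^ 4 := by ring
    rw [this]
    exact mul_le_mul_of_nonneg_right (by linarith) hK
  · refine div_le_div_of_nonneg_right ?_ hr.le
    have hx : (0 : ℝ) ≤ ((2 : ℝ) ^ n * √t) ^ c := Real.rpow_nonneg (by positivity) _
    refine mul_le_mul_of_nonneg_right ?_ hx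
    exact mul_le_mul_of_nonneg_right (by linarith) (by positivity)

end

end Vale.Agent.P159.H663.Dr
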