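import Vale.Agent.P159.H663.ApA
import Vale.Agent.P159.H730.Apt3

/-!
P159 / module APT (B) (helper663), part 2: `apA` from the data of the state.

* `blk_one` : one torus `2 ^ r`, level `n` of size `ε` (fields `ap`, `D`, `rng`, `yt`), every block `B`
  of side `2 ^ m`: the a priori bound at the block source, numbers as hypotheses.
-/

set_option linter.unusedSectionVars false

namespace Vale.Agent.P159.H663

open Finset Matrix MeasureTheory ProbabilityTheory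
open Vale.Agent.P159.TM.Spec (V)
open Vale.Agent.P159.TM.SpecC (Tor wT)
open Vale.Agent.P159.H37
open Vale.Agent.P159.H864
open Vale.Agent.P159.H612 (om0)
open Vale.Agent.P159.H859 (dB)
open Vale.Agent.P159.H816 (bS bS_eq_blk ap_blk blk)
open Vale.Agent.P159.H963 (Neu nMC Pn Gnc obsN nwt)
open Vale.Agent.P159.H447 (K4S SN cl)
open Vale.Agent.P159.H276 (Eop Wt sqW)
open Vale.Agent.P159.H730 (AptH AptN QD)
open Vale.Agent.P159.H972 (tn AP DN RNG Par)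

noncomputable section

lemma card_blk_le {n q : ℕ} [NeZero n] (hq : 0 < q) (B : ℕ × ℕ) :
    ((blk n q B).card : ℝ) ≤ (q : ℝ) ^ 2 := by
  have key : ∀ c : ℕ, (Finset.univ.filter fun x : ZMod n => x.val / q = c).card ≤ q := by
    intro c
    have h1 : ((Finset.univ.filter fun x : ZMod n => x.val / q = c).image ZMod.val) ⊆
        Finset.Ico (c * q) (c * q + q) := by
      intro y hy
      obtain ⟨x, hx, rfl⟩ := Finset.mem_image.1 hy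
      have h2 := (Finset.mem_filter.1 hx).2
      have h3 := Nat.div_add_mod x.val q
      have h4 := Nat.mod_lt x.val hq
      rw [h2, mul_comm] at h3
      rw [Finset.mem_Ico]
      omega
    have h2 := Finset.card_le_card h1
    rw [Finset.card_image_of_injective _ (ZMod.val_injective n), Nat.card_Ico] at h2
    omega
  have h1 : blk n q B = (Finset.univ.filter fun x : ZMod n => x.val / q = B.1) ×ˢ
      (Finset.univ.filter fun x : ZMod n => x.val / q = B.2) := by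
    ext x
    rw [H816.mem_blk, Finset.mem_product, Finset.mem_filter, Finset.mem_filter]
    simp
  rw [h1, Finset.card_product]
  have h2 := Nat.mul_le_mul (key B.1) (key B.2)
  calc (((_ : ℕ) * _ : ℕ) : ℝ) ≤ ((q * q : ℕ) : ℝ) := by exact_mod_cast h2
    _ = (q : ℝ) ^ 2 := by
        push_cast
        ring

/-- the trace form from `DN` -/
lemma K4S_DN {b : ℝ} {n r s : ℕ} {τ ε : ℝ} (hτ : 0 < τ) (h : DN b n r s τ ≤ ε) :
    K4S (nwt (2 ^ r) b τ 0) (SN (2 ^ r) (2 ^ s)) (SN (2 ^ r) (2 ^ s)) ≤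
      2 * ε * (2 ^ r / 2 ^ n) ^ 2 / τ ^ 2 := by
  unfold H972.DN at h
  rw [le_div_iff₀ (by positivity)]
  have e : ((2 : ℝ) ^ n / 2 ^ r) ^ 2 * (2 ^ r / 2 ^ n) ^ 2 = 1 := by
    rw [← mul_pow, div_mul_div_cancel₀ (by positivity), div_self (by positivity), one_pow]
  have h1 := mul_le_mul_of_nonneg_right h (show (0 : ℝ) ≤ 2 * (2 ^ r / 2 ^ n) ^ 2 by positivity)
  calc K4S (nwt (2 ^ r) b τ 0) (SN (2 ^ r) (2 ^ s)) (SN (2 ^ r) (2 ^ s)) * τ ^ 2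
      = K4S (nwt (2 ^ r) b τ 0) (SN (2 ^ r) (2 ^ s)) (SN (2 ^ r) (2 ^ s)) * τ ^ 2 *
        (((2 : ℝ) ^ n / 2 ^ r) ^ 2 * (2 ^ r / 2 ^ n) ^ 2) := by rw [e, mul_one]
    _ = (1 / 2 * τ ^ 2 * (2 ^ n / 2 ^ r) ^ 2 *
          K4S (nwt (2 ^ r) b τ 0) (SN (2 ^ r) (2 ^ s)) (SN (2 ^ r) (2 ^ s))) *
          (2 * (2 ^ r / 2 ^ n) ^ 2) := by ring
    _ ≤ ε * (2 * (2 ^ r / 2 ^ n) ^ 2) := h1
    _ = _ := by ring

section one

variable {P : Par} {b K2 K3 e₀ ε : ℝ} {n m r s : ℕ} [NeZero (2 ^ r / 2 ^ s)] {τ : ℝ}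
  {M A X d w δ L u Λ E Xm qq Y' : ℝ} {l₀ D k : ℕ}

/-- **the block source from the data of the state** -/
theorem blk_one (hb : 0 < b) (H : AptH P b K2 K3 e₀) (hε : 0 < ε) (hee : ε ≤ e₀)
    (hR : RNG P b n r ε) (hsn : s ≤ n) (hnm : n ≤ m) (hmr : m ≤ r) (h1 : tn n ≤ τ)
    (h4 : τ ≤ 4 * tn n)
    (hN : AptN K2 K3 ε n r s D (2 * 2 ^ (k + 1)) L Λ δ X) (hAP : AP b n r s X (tn n) δ)
    (hDN : DN b n r s τ ≤ ε)
    (hy : yt (2 ^ r) b (4 * tn n) ≤ Y') (hY : 0 ≤ Y') (hs : 32 * ((2 ^ (r - n)) ^ 2 * Y') ≤ 1)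
    (hw : 0 < w) (hWw : (Wt (2 ^ r) (2 ^ s) b (tn n) τ).trace ≤ w)
    (G : GN (2 ^ r) (2 ^ s) l₀ (2 ^ (n - s)) b (tn m) τ (tn n) M A X (2 * 2 ^ (k + 1) * QD D) d)
    (hXm : 0 < Xm) (hE : 0 < E)
    (hd : 8 * Xm ^ 2 * (E + 1 / 2 +
      2 * (1 + Real.log (((2 : ℕ) ^ r / 2 ^ s : ℕ) : ℝ)) / kap b) ≤ d)
    (hn : 1024 * M ^ 4 * (3 + Real.log ((2 ^ r : ℕ) : ℝ)) *
      (4 * Xm ^ 2 * tn m * (4 ^ (m - s) / 2 + E)) ≤ 1)
    (hu1 : 36864 * tn n * M ^ 2 * (2 / (((2 ^ (n - s) : ℕ)) : ℝ) ^ 2 * (1 / 2 + E)) ≤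
      (2 ^ s * tn n * L) ^ 2)
    (hu2 : 36864 * tn n * M ^ 2 * (w * (1 / 2 + E)) ≤ u)
    (hu3 : 36864 * tn n * M ^ 2 * ((((2 : ℕ) ^ r / 2 ^ s : ℕ) : ℝ) ^ 2 / 2 + E) ≤ Λ ^ 2)
    (cA : 6144 * (1 + b) ^ 2 * (2 * 2 ^ (k + 1) * QD D) ^ 2 * (Xm ^ 2 * tn m) *
      H276.LL r s (tn m) * (E + 1) ≤ X ^ 2 * tn n)
    (cL : 37152 * (1 + b) ^ 2 * (Xm ^ 2 * tn m) * (4 ^ s * tn n) * H276.LL r s (tn m) * (E + 1) ≤
      (2 ^ s * tn n * L) ^ 2)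
    (cU : 36 * (Xm ^ 2 * tn m) * ((τ / tn m) ^ 2 * w) * (E + 1) ≤ u)
    (cΛ : 36 * (Xm ^ 2 * tn m) * ((τ / tn m) ^ 2 * 4 ^ (r - s)) * (E + 1) ≤ Λ ^ 2)
    (hu : ε ^ (1 / 16 : ℝ) / 2 + (2 ^ (k + 1)) ^ 2 * u ≤ 1)
    (hq : pG b n r M X (2 * 2 ^ (k + 1) * QD D) E +
      Real.exp 1 * (6 * Real.exp (-(8 * Xm ^ 2))) ≤ qq) (hq1 : qq ≤ 1 / 4)
    (hcl : cl k (819200 * Xm ^ 4 * ((τ ^ 2 / tn m) ^ 2 * (2 * ε * (2 ^ r / 2 ^ n) ^ 2 / τ ^ 2))) ≤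
      1 / 4)
    (hP : 6 * ((2 : ℝ) ^ (r - n)) ^ 4 * Real.exp (-E) + 2 * Real.exp (-E) ≤ 1 / 40)
    (B : ℕ × ℕ) :
    (gau (V (2 ^ r / 2 ^ s))).real {g |
      cl k (819200 * Xm ^ 4 * ((τ ^ 2 / tn m) ^ 2 * (2 * ε * (2 ^ r / 2 ^ n) ^ 2 / τ ^ 2))) +
        2 * qq < Rs (nMC (2 ^ r) (2 ^ s) b τ (tn m) 0)
          ((cobV (2 ^ r) (2 ^ s))ᵀ *ᵥ bsrc (Xm * √(tn m))
            (blk (2 ^ r / 2 ^ s) (2 ^ (m - s)) B) g)} ≤ 1 / 30 := by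
  have hnr : n ≤ r := hnm.trans hmr
  have hsr : s ≤ r := hsn.trans hnr
  have hl : 2 ^ s ∣ 2 ^ r := pow_dvd_pow 2 hsr
  have htn : 0 < tn n := H789.tn_pos n
  have htm : 0 < tn m := H789.tn_pos m
  have hτ : 0 < τ := htn.trans_le h1
  have hnq := nq_eq hsn hnr
  have hq0 : 0 < 2 ^ (m - s) := by positivity
  have hi : NeZero (2 ^ (r - n)) := ⟨by positivity⟩
  have hcard := card_blk_le (n := 2 ^ r / 2 ^ s) hq0 B
  have hcard' : ((blk (2 ^ r / 2 ^ s) (2 ^ (m - s)) B).card : ℝ) ≤ 4 ^ (m - s) := by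
    refine hcard.trans (le_of_eq ?_)
    push_cast
    rw [← pow_mul, mul_comm, pow_mul]
    norm_num
  have e4 : (4 : ℝ) ^ (m - s) * (tn m * (((2 ^ s : ℕ)) : ℝ) ^ 2) = 1 := by
    have e1 : (((2 ^ s : ℕ)) : ℝ) ^ 2 = 4 ^ s := by
      push_cast
      rw [← pow_mul, mul_comm, pow_mul]
      norm_num
    have e2 : (4 : ℝ) ^ m = 4 ^ (m - s) * 4 ^ s := by
      rw [← pow_add]
      congr 1
      omega
    unfold H972.tn
    rw [e1, e2]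
    field_simp
  have hB : ((blk (2 ^ r / 2 ^ s) (2 ^ (m - s)) B).card : ℝ) *
      (tn m * (((2 ^ s : ℕ)) : ℝ) ^ 2) ≤ 1 := by
    rw [← e4]
    exact mul_le_mul_of_nonneg_right hcard' (by positivity)
  have hM := G.M1
  have hlogN : 0 ≤ Real.log ((2 ^ r : ℕ) : ℝ) := Real.log_natCast_nonneg _
  refine apA (W₃ := sqW (2 ^ r) (2 ^ s) b (tn n) τ) (T := Eop (2 ^ r) (2 ^ s) b (tn n) τ)
    (δ := δ) (Lip := 2 ^ s * tn n * L) (u := u) (Λ := Λ) (w := w) hb hsn hnr G ?_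
    (H730.tc_Eop hb hl htn h1) (H276.neu_sqW hb hl htn h1) hw
    (by rw [H276.tr_sqW hb hl htn h1]; exact hWw) (fun β => by
      rw [bS_eq_blk hnq]
      exact ap_blk hb.le htn hsr hAP _) hXm hE _ hB hd ?_ hu1 hu2 hu3 cA cL cU cΛ (k := k) ?_
    (by positivity) (K4S_DN hτ hDN) hq hq1 hcl hP
  · have h5 := G.shi
    exact om_post hb hnr hsr h1 h4 (by positivity) (by linarith) hy hs hY
  · refine le_trans ?_ hn
    refine mul_le_mul_of_nonneg_left ?_ (by positivity)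
    refine mul_le_mul_of_nonneg_left ?_ (by positivity)
    linarith
  · intro J hJ
    refine (H730.cls_tau hb H hε hee hR hnr hsn h1 hN hAP hJ).trans hu

end one

end

end Vale.Agent.P159.H663
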