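import Vale.Agent.P159.H663.ApB
import Vale.Agent.P159.H789.TaH
import Vale.Agent.P159.TM.Frame.T1

/-!
P159 / module APT (B) (helper663), part 3: **the block source as a family**.

* `BNr`      : the numbers of one block source (target of helper276's `ApN`);
* `NumB`     : the numbers as a statement on the exponents, order of the constants of `Fam`;
* `BlkS`     : the block source at the size `E = en sg ε Y` (input of helper239's `fam_trans`);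
* `fam_blk`  : `NumB` gives `Fam (BlkS)`.
-/

set_option linter.unusedSectionVars false

namespace Vale.Agent.P159.H663

open Finset Matrix MeasureTheory ProbabilityTheory
open Vale.Agent.P159.TM.Spec (V)
open Vale.Agent.P159.TM.SpecC (Tor wT)
open Vale.Agent.P159.H37
open Vale.Agent.P159.H864
open Vale.Agent.P159.H816 (blk)
open Vale.Agent.P159.H963 (Neu nMC nwt)
open Vale.Agent.P159.H447 (K4S SN cl)
open Vale.Agent.P159.H276 (Wt)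
open Vale.Agent.P159.H730 (AptH AptN QD)
open Vale.Agent.P159.H972
open Vale.Agent.P159.H239 (Fam Sel)

noncomputable section

/-- **the numbers of one block source**: torus `2 ^ r`, cells `2 ^ s`, level `n` of size `ε`, level `m`;
`X, δ` amplitude and bound of AP at the level `n` on the torus `2 ^ r`, `Xm` amplitude of the source,
`τ` posterior mass, `w` trace bound, `Y'` bound of `yt`, `lev` the level of the conclusion; free letters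
`l₀ D k M A d L u Λ E qq` -/
structure BNr (b K2 K3 ε Y' τ w X δ Xm lev : ℝ) (n m r s : ℕ) (l₀ D k : ℕ)
    (M A d L u Λ E qq : ℝ) : Prop where
  hN : AptN K2 K3 ε n r s D (2 * 2 ^ (k + 1)) L Λ δ X
  hs : 32 * ((2 ^ (r - n)) ^ 2 * Y') ≤ 1
  G : GN (2 ^ r) (2 ^ s) l₀ (2 ^ (n - s)) b (tn m) τ (tn n) M A X (2 * 2 ^ (k + 1) * QD D) d
  hXm : 0 < Xm
  hE : 0 < E
  hd : 8 * Xm ^ 2 * (E + 1 / 2 +
    2 * (1 + Real.log (((2 : ℕ) ^ r / 2 ^ s : ℕ) : ℝ)) / kap b) ≤ d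
  hn : 1024 * M ^ 4 * (3 + Real.log ((2 ^ r : ℕ) : ℝ)) *
    (4 * Xm ^ 2 * tn m * (4 ^ (m - s) / 2 + E)) ≤ 1
  hu1 : 36864 * tn n * M ^ 2 * (2 / (((2 ^ (n - s) : ℕ)) : ℝ) ^ 2 * (1 / 2 + E)) ≤
    (2 ^ s * tn n * L) ^ 2
  hu2 : 36864 * tn n * M ^ 2 * (w * (1 / 2 + E)) ≤ u
  hu3 : 36864 * tn n * M ^ 2 * ((((2 : ℕ) ^ r / 2 ^ s : ℕ) : ℝ) ^ 2 / 2 + E) ≤ Λ ^ 2
  cA : 6144 * (1 + b) ^ 2 * (2 * 2 ^ (k + 1) * QD D) ^ 2 * (Xm ^ 2 * tn m) *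
    H276.LL r s (tn m) * (E + 1) ≤ X ^ 2 * tn n
  cL : 37152 * (1 + b) ^ 2 * (Xm ^ 2 * tn m) * (4 ^ s * tn n) * H276.LL r s (tn m) * (E + 1) ≤
    (2 ^ s * tn n * L) ^ 2
  cU : 36 * (Xm ^ 2 * tn m) * ((τ / tn m) ^ 2 * w) * (E + 1) ≤ u
  cΛ : 36 * (Xm ^ 2 * tn m) * ((τ / tn m) ^ 2 * 4 ^ (r - s)) * (E + 1) ≤ Λ ^ 2
  hu : ε ^ (1 / 16 : ℝ) / 2 + (2 ^ (k + 1)) ^ 2 * u ≤ 1
  hq : pG b n r M X (2 * 2 ^ (k + 1) * QD D) E +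
    Real.exp 1 * (6 * Real.exp (-(8 * Xm ^ 2))) ≤ qq
  hq1 : qq ≤ 1 / 4
  hcl : cl k (819200 * Xm ^ 4 * ((τ ^ 2 / tn m) ^ 2 * (2 * ε * (2 ^ r / 2 ^ n) ^ 2 / τ ^ 2))) ≤
    1 / 4
  hP : 6 * ((2 : ℝ) ^ (r - n)) ^ 4 * Real.exp (-E) + 2 * Real.exp (-E) ≤ 1 / 40
  hlev : cl k (819200 * Xm ^ 4 * ((τ ^ 2 / tn m) ^ 2 * (2 * ε * (2 ^ r / 2 ^ n) ^ 2 / τ ^ 2))) +
    2 * qq ≤ lev

section one

variable {P : Par} {b K2 K3 e₀ ε : ℝ} {n m r s : ℕ} [NeZero (2 ^ r / 2 ^ s)] {τ : ℝ}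
  {M A X d w δ L u Λ E Xm qq Y' lev : ℝ} {l₀ D k : ℕ}

/-- the block source from the numbers `BNr` -/
theorem blk_si (hb : 0 < b) (H : AptH P b K2 K3 e₀) (hε : 0 < ε) (hee : ε ≤ e₀)
    (hR : RNG P b n r ε) (hsn : s ≤ n) (hnm : n ≤ m) (hmr : m ≤ r) (h1 : tn n ≤ τ)
    (h4 : τ ≤ 4 * tn n) (hAP : AP b n r s X (tn n) δ) (hDN : DN b n r s τ ≤ ε)
    (hy : yt (2 ^ r) b (4 * tn n) ≤ Y') (hY : 0 ≤ Y')
    (hw : 0 < w) (hWw : (Wt (2 ^ r) (2 ^ s) b (tn n) τ).trace ≤ w)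
    (h : BNr b K2 K3 ε Y' τ w X δ Xm lev n m r s l₀ D k M A d L u Λ E qq) (B : ℕ × ℕ) :
    (gau (V (2 ^ r / 2 ^ s))).real {g | lev < Rs (nMC (2 ^ r) (2 ^ s) b τ (tn m) 0)
      ((cobV (2 ^ r) (2 ^ s))ᵀ *ᵥ bsrc (Xm * √(tn m))
        (blk (2 ^ r / 2 ^ s) (2 ^ (m - s)) B) g)} ≤ 1 / 30 := by
  refine (measureReal_mono (fun g hg => ?_) (measure_ne_top _ _)).trans
    (blk_one hb H hε hee hR hsn hnm hmr h1 h4 h.hN hAP hDN hy hY h.hs hw hWw h.G h.hXm h.hE h.hd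
      h.hn h.hu1 h.hu2 h.hu3 h.cA h.cL h.cU h.cΛ h.hu h.hq h.hq1 h.hcl h.hP B)
  rw [Set.mem_ofPred_eq] at hg ⊢
  exact lt_of_le_of_lt h.hlev hg

end one

/-- **the numbers**, order of the constants of `Fam`; `C`, `c` = the constants of `trWt_good` -/
def NumB (b pf sg K0 C c : ℝ) : Prop :=
  ∃ r1 : ℝ, 0 < r1 ∧ ∀ x1, 0 < x1 → x1 ≤ r1 → ∃ Q0 : ℕ, ∀ Q, Q0 ≤ Q →
  ∃ r2 : ℝ, 0 < r2 ∧ ∀ thp, 0 < thp → thp ≤ r2 → ∃ r3 : ℝ, 0 < r3 ∧ ∀ th, 0 < th → th ≤ r3 →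
  ∃ C00 : ℝ, ∀ C0, 0 < C0 → C00 ≤ C0 → ∃ K3 : ℝ, 0 < K3 ∧ ∀ K2 : ℝ, 0 < K2 → ∃ E0 : ℝ, 0 < E0 ∧
  ∀ P : Par, P.Adm → P.x1 = x1 → P.thp = thp → P.th = th → P.C0 = C0 → P.pf = pf →
    (P.q0 : ℝ) * P.thp ≤ x1 + (Q + 3) * thp → P.es ≤ E0 → ∃ N00 : ℕ, ∀ N0, N00 ≤ N0 →
  ∀ n m ε Y, SI P b N0 n m ε Y → en sg ε Y ≤ P.es → ∀ τ, tn n ≤ τ → τ ≤ 4 * tn n →
  ∀ r s : ℕ, r = m + 3 * P.xE (en sg ε Y) → s = P.sE n ε →
    12 ≤ n ∧ ((2 : ℝ) ^ P.xE ε) ^ 2 * ε ^ (-(P.th / 400)) ≤ 2 ^ (r - n) ∧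
    ∃ (l₀ D k : ℕ) (M A d L u Λ E qq : ℝ),
      BNr b K2 K3 ε (max Y ε) τ
        (C * (1 + ((r - n : ℕ) : ℝ)) * ((2 : ℝ) ^ (r - n)) ^ 2 * ε ^ (c * P.pf) / tn n)
        (2 ^ P.xE ε / 6) (2 * ε ^ (1 / 8 : ℝ)) (100 * (K0 * 2 ^ P.xE (en sg ε Y)))
        (en sg ε Y ^ (1 / 7 : ℝ) / 2) n m r s l₀ D k M A d L u Λ E qq

/-- **the block source at the size `E = en sg ε Y`** -/
def BlkS (P : Par) (b sg K0 : ℝ) (N0 : ℕ) : Prop :=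
  ∀ n m ε Y, SI P b N0 n m ε Y → en sg ε Y ≤ P.es → ∃ τ, tn n ≤ τ ∧ τ ≤ 4 * tn n ∧
    ∀ r s : ℕ, r = m + 3 * P.xE (en sg ε Y) → s = P.sE n ε → ∀ [NeZero (2 ^ r / 2 ^ s)],
    ∀ B : ℕ × ℕ, (gau (V (2 ^ r / 2 ^ s))).real
      {g | en sg ε Y ^ (1 / 7 : ℝ) / 2 < Rs (nMC (2 ^ r) (2 ^ s) b τ (tn m) 0)
        ((cobV (2 ^ r) (2 ^ s))ᵀ *ᵥ bsrc (100 * (K0 * 2 ^ P.xE (en sg ε Y) * √(tn m)))
          (blk (2 ^ r / 2 ^ s) (2 ^ (m - s)) B) g)} ≤ 1 / 30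

/-- **the block source as a family** -/
theorem fam_blk {b b1 b2 pf sg K0 : ℝ} (hb : 0 < b) (hb1 : 0 < b1) (hpf : 0 < pf)
    (hnum : ∀ C c : ℝ, 0 < C → 0 < c → c ≤ 1 → NumB b pf sg K0 C c) :
    Fam b1 b2 pf fun P N0 => BlkS P b sg K0 N0 := by
  obtain ⟨C, c, hC, hc, hc1, hTr⟩ := H276.trWt_good hb
  obtain ⟨r1, hr1, hnum⟩ := hnum C c hC hc hc1
  obtain ⟨Wa, hA⟩ := H730.apt_t hb1 b2 (TM.Frame.thmA6 hb1)
  obtain ⟨Wb, hT⟩ := H789.fam_apTT (b2 := b2) (pf := pf) hb1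
  refine ⟨max Wa Wb, fun W hW => ?_⟩
  obtain ⟨ysa, X0a, hysa, hA⟩ := hA W ((le_max_left _ _).trans hW)
  obtain ⟨ysb, hysb, hT⟩ := hT W ((le_max_right _ _).trans hW)
  refine ⟨min ysa ysb, lt_min hysa hysb, fun ys hy1 hy2 => ?_⟩
  obtain ⟨X0b, hT⟩ := hT ys hy1 (hy2.trans (min_le_right _ _))
  refine ⟨max X0a X0b, fun X0 hX0 => ?_⟩
  obtain ⟨r1b, hr1b, hT⟩ := hT X0 ((le_max_right _ _).trans hX0)
  refine ⟨min r1 r1b, lt_min hr1 hr1b, fun x1 hx1 hx1' => ?_⟩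
  obtain ⟨Q0a, hnum⟩ := hnum x1 hx1 (hx1'.trans (min_le_left _ _))
  obtain ⟨Q0b, hT⟩ := hT x1 hx1 (hx1'.trans (min_le_right _ _))
  refine ⟨max Q0a Q0b, fun Q hQ => ?_⟩
  obtain ⟨r2a, hr2a, hnum⟩ := hnum Q ((le_max_left _ _).trans hQ)
  obtain ⟨r2b, hr2b, hT⟩ := hT Q ((le_max_right _ _).trans hQ)
  refine ⟨min r2a r2b, lt_min hr2a hr2b, fun thp ht1 ht2 => ?_⟩
  obtain ⟨r3a, hr3a, hnum⟩ := hnum thp ht1 (ht2.trans (min_le_left _ _))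
  obtain ⟨r3b, hr3b, hT⟩ := hT thp ht1 (ht2.trans (min_le_right _ _))
  refine ⟨min r3a r3b, lt_min hr3a hr3b, fun th ht3 ht4 => ?_⟩
  obtain ⟨Ca, hnum⟩ := hnum th ht3 (ht4.trans (min_le_left _ _))
  obtain ⟨Cb, hT⟩ := hT th ht3 (ht4.trans (min_le_right _ _))
  refine ⟨max (max Ca Cb) (pf + 4), fun C0 hC0 hC0' => ?_⟩
  have c1 : max Ca Cb ≤ C0 := (le_max_left _ _).trans hC0'
  have c2 : pf + 4 ≤ C0 := (le_max_right _ _).trans hC0'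
  obtain ⟨K3, hK3, hnum⟩ := hnum C0 hC0 ((le_max_left _ _).trans c1)
  obtain ⟨Eb, hEb, hT⟩ := hT C0 hC0 ((le_max_right _ _).trans c1)
  obtain ⟨K2, e₀, hK2, he₀, hA⟩ := hA K3 hK3
  obtain ⟨Ea, hEa, hnum⟩ := hnum K2 hK2
  refine ⟨min (min Ea Eb) e₀, by positivity, fun P hP hes => ?_⟩
  have l1 : P.es ≤ Ea := hes.trans ((min_le_left _ _).trans (min_le_left _ _))
  have l2 : P.es ≤ Eb := hes.trans ((min_le_left _ _).trans (min_le_right _ _))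
  have l3 : P.es ≤ e₀ := hes.trans (min_le_right _ _)
  have H := hA P hP.hb1 hP.hb2 hP.hW (hP.hys.le.trans (hy2.trans (min_le_left _ _)))
    (by rw [hP.hX0]; exact (le_max_left _ _).trans hX0) b
  obtain ⟨Na, hnum⟩ := hnum P hP.adm hP.hx1 hP.hthp hP.hth hP.hC0 hP.hpf hP.hq l1
  obtain ⟨Nb, hT⟩ := hT P hP l2
  refine ⟨max Na Nb, fun N0 hN0 => ?_⟩
  have hnum := hnum N0 ((le_max_left _ _).trans hN0)
  have hT := hT N0 ((le_max_right _ _).trans hN0)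
  intro n m ε Y hS hEs
  obtain ⟨τ, a, h1, h4, hG⟩ := hS.good
  refine ⟨τ, h1, h4, fun r s hr hs _ B => ?_⟩
  obtain ⟨h12, hXX, l₀, D, k, M, A, d, L, u, Λ, E, qq, hBN⟩ :=
    hnum n m ε Y hS hEs τ h1 h4 r s hr hs
  have hε := hS.εpos
  have hGP := hG ε le_rfl hS.εes
  have hTT : P.TT n ε r := by
    rw [hr]
    exact hP.adm.TT_ap hε hS.εes (hS.half le_rfl) hS.lo hS.up
  have hnm := hS.lt.le
  have hmr : m ≤ r := by omega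
  have hnr : n ≤ r := hnm.trans hmr
  have hnE := hGP.nE
  have hk := hP.adm.hk
  have hlg : lg P.C0 ε ≤ n := by omega
  have hsn : s + lg P.C0 ε ≤ n := by
    rw [hs]
    unfold Par.sE
    omega
  have hAPr : AP b n r s (2 ^ P.xE ε / 6) (tn n) (2 * ε ^ (1 / 8 : ℝ)) := by
    rw [hs]
    exact hT b a n ε τ hε hS.εes h12 hGP r hTT (2 ^ P.xE ε) (one_le_pow₀ one_le_two) hXX le_rfl
  have hY0 : 0 < Y := hS.yb.1
  have hDN : DN b n r s τ ≤ ε := by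
    rw [hs]
    exact hGP.D r hTT
  have hkE : n + P.kE ε ≤ r := hTT.1
  have hk1 : 1 ≤ P.kE ε := one_le_lg P.th0 hε (hS.εes.trans P.es1)
  have hn2 : n + 2 ≤ r := by
    have h5 : P.kE P.es ≤ P.kE ε := lg_anti P.th0.le hε hS.εes
    omega
  have hfl := hGP.flat r hTT
  have hw := hTr P n r s ε τ a (by rw [hP.hpf]; exact hpf) hε hS.εes
    (by rw [hP.hpf, hP.hC0]; exact c2) hsn hn2 h1 h4 hfl.1 hfl.2
  have htn : 0 < tn n := H789.tn_pos n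
  have e1 : (100 * (K0 * 2 ^ P.xE (en sg ε Y) * √(tn m))) =
      100 * (K0 * 2 ^ P.xE (en sg ε Y)) * √(tn m) := by ring
  rw [e1]
  refine blk_si hb H hε (hS.εes.trans l3) (hGP.rng r (Or.inl hTT)).1 (by omega) hnm hmr h1 h4
    hAPr hDN (hS.yb.2.2 ε le_rfl hS.εes r hkE) (hY0.le.trans (le_max_left _ _)) ?_ ?_ hBN B
  · have : (0 : ℝ) < 1 + ((r - n : ℕ) : ℝ) := by positivity
    positivity
  · rw [le_div_iff₀ htn, mul_comm]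
    exact hw

end

end Vale.Agent.P159.H663
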