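import Vale.Agent.P159.H889.Vctx

/-!
P159 (helper663): choice of the size of the cells, `cel n x β = floor (n + β * log2 x)`.
-/

set_option linter.unusedSectionVars false

namespace Vale.Agent.P159.H663.Cel

open Vale.Agent.P159.H889 (lam)

noncomputable section

/-- the exponent of the cells -/
def cel (n : ℕ) (x β : ℝ) : ℕ := ⌊(n : ℝ) + β * Real.logb 2 x⌋₊

variable {n n' s s' : ℕ} {x x' β β' : ℝ}

lemma log2_pos : (0 : ℝ) < Real.log 2 := Real.log_pos (by norm_num)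

/-- the exponent in natural logarithms -/
lemma expo_log (n : ℕ) (x β : ℝ) :
    ((n : ℝ) + β * Real.logb 2 x) * Real.log 2 = n * Real.log 2 + β * Real.log x := by
  have h : Real.logb 2 x * Real.log 2 = Real.log x := by
    rw [Real.logb, div_mul_cancel₀ _ log2_pos.ne']
  rw [add_mul, mul_assoc, h]

/-- `2 ^ (n + β log2 x) = 2 ^ n * x ^ β` -/
lemma two_expo (n : ℕ) (hx : 0 < x) (β : ℝ) :
    (2 : ℝ) ^ ((n : ℝ) + β * Real.logb 2 x) = 2 ^ n * x ^ β := by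
  rw [Real.rpow_def_of_pos two_pos, mul_comm, expo_log, Real.exp_add]
  congr 1
  · rw [mul_comm, Real.exp_mul, Real.exp_log two_pos, Real.rpow_natCast]
  · rw [Real.rpow_def_of_pos hx, mul_comm]

/-- the exponent is at least `3 n / 4` -/
lemma expo_low (hβ : -(β * Real.log x) ≤ n * Real.log 2 / 4) :
    3 / 4 * (n : ℝ) ≤ (n : ℝ) + β * Real.logb 2 x := by
  have h := log2_pos
  have h1 := expo_log n x β
  have h2 : 3 / 4 * (n : ℝ) * Real.log 2 ≤ ((n : ℝ) + β * Real.logb 2 x) * Real.log 2 := by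
    rw [h1]
    linarith
  exact le_of_mul_le_mul_right h2 h

lemma lam_le_of (hx : 0 < x) (h0 : 0 ≤ (n : ℝ) + β * Real.logb 2 x) :
    lam n (cel n x β) ≤ x ^ β := by
  have h1 : ((cel n x β : ℕ) : ℝ) ≤ (n : ℝ) + β * Real.logb 2 x := Nat.floor_le h0
  have h2 : (2 : ℝ) ^ ((cel n x β : ℕ) : ℝ) ≤ (2 : ℝ) ^ ((n : ℝ) + β * Real.logb 2 x) :=
    Real.rpow_le_rpow_of_exponent_le (by norm_num) h1
  rw [two_expo n hx, Real.rpow_natCast] at h2
  have h3 : (0 : ℝ) < 2 ^ n := by positivity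
  rw [lam, div_le_iff₀ h3]
  linarith

lemma le_lam_of (hx : 0 < x) : 1 / 2 * x ^ β ≤ lam n (cel n x β) := by
  have h1 : (n : ℝ) + β * Real.logb 2 x ≤ ((cel n x β + 1 : ℕ) : ℝ) := by
    push_cast
    exact (Nat.lt_floor_add_one _).le
  have h2 : (2 : ℝ) ^ ((n : ℝ) + β * Real.logb 2 x) ≤ (2 : ℝ) ^ ((cel n x β + 1 : ℕ) : ℝ) :=
    Real.rpow_le_rpow_of_exponent_le (by norm_num) h1
  rw [two_expo n hx, Real.rpow_natCast, pow_succ] at h2
  have h3 : (0 : ℝ) < 2 ^ n := by positivity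
  rw [lam, le_div_iff₀ h3]
  linarith

lemma le_two_cel (hβ : -(β * Real.log x) ≤ n * Real.log 2 / 4) (hn : 8 ≤ n) :
    n ≤ 2 * cel n x β := by
  have h1 := expo_low hβ
  have h2 : (n : ℝ) + β * Real.logb 2 x < (cel n x β : ℝ) + 1 := Nat.lt_floor_add_one _
  have h3 : (8 : ℝ) ≤ n := by exact_mod_cast hn
  have h4 : (n : ℝ) ≤ ((2 * cel n x β : ℕ) : ℝ) := by
    push_cast
    linarith
  exact_mod_cast h4

lemma cel_le_self (hβ : β * Real.log x ≤ 0) : cel n x β ≤ n := by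
  have h := log2_pos
  have h1 := expo_log n x β
  have h2 : (n : ℝ) + β * Real.logb 2 x ≤ n := by
    refine le_of_mul_le_mul_right ?_ h
    rw [h1]
    linarith
  calc cel n x β ≤ ⌊(n : ℝ)⌋₊ := Nat.floor_mono h2
    _ = n := Nat.floor_natCast n

/-- **the cells** -/
theorem cel_spec (hx : 0 < x) (hβ : -(β * Real.log x) ≤ n * Real.log 2 / 4) (hn : 8 ≤ n) :
    1 / 2 * x ^ β ≤ lam n (cel n x β) ∧ lam n (cel n x β) ≤ x ^ β ∧ n ≤ 2 * cel n x β :=
  ⟨le_lam_of hx, lam_le_of hx ((by positivity : (0 : ℝ) ≤ 3 / 4 * n).trans (expo_low hβ)),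
    le_two_cel hβ hn⟩

/-- **monotone** -/
theorem cel_mono (h : (n : ℝ) * Real.log 2 + β * Real.log x ≤
    (n' : ℝ) * Real.log 2 + β' * Real.log x') : cel n x β ≤ cel n' x' β' := by
  refine Nat.floor_mono ?_
  refine le_of_mul_le_mul_right ?_ log2_pos
  rw [expo_log, expo_log]
  exact h

/-- existence form -/
theorem cel_ex (β x : ℝ) (n : ℕ) (hx : 0 < x) (_hx1 : x ≤ 1)
    (hβ : -(β * Real.log x) ≤ n * Real.log 2 / 4) (hn : 8 ≤ n) :
    ∃ s : ℕ, 1 / 2 * x ^ β ≤ lam n s ∧ lam n s ≤ x ^ β ∧ n ≤ 2 * s :=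
  ⟨_, cel_spec hx hβ hn⟩

/-- a chosen `s` (any, with the two bounds) is at most `cel + 1` and at least `cel` -/
lemma cel_le_of (hx : 0 < x) (h0 : 0 ≤ (n : ℝ) + β * Real.logb 2 x)
    (h : 1 / 2 * x ^ β ≤ lam n s) : cel n x β ≤ s + 1 := by
  have h1 := lam_le_of (n := n) (β := β) hx h0
  have h3 : (0 : ℝ) < 2 ^ n := by positivity
  have h4 : lam n (cel n x β) ≤ 2 * lam n s := by linarith
  have h5 : (2 : ℝ) ^ cel n x β ≤ 2 ^ (s + 1) := by
    rw [lam, lam] at h4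
    rw [pow_succ]
    have := mul_le_mul_of_nonneg_right h4 h3.le
    rw [div_mul_cancel₀ _ h3.ne'] at this
    calc (2 : ℝ) ^ cel n x β ≤ 2 * (2 ^ s / 2 ^ n) * 2 ^ n := this
      _ = 2 ^ s * 2 := by
        rw [mul_assoc, div_mul_cancel₀ _ h3.ne', mul_comm]
  exact (pow_le_pow_iff_right₀ (by norm_num : (1 : ℝ) < 2)).1 h5

lemma le_cel_of (hx : 0 < x) (h : lam n s ≤ x ^ β) : s ≤ cel n x β := by
  have h3 : (0 : ℝ) < 2 ^ n := by positivity
  rw [lam, div_le_iff₀ h3] at h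
  have h4 : (2 : ℝ) ^ (s : ℝ) ≤ (2 : ℝ) ^ ((n : ℝ) + β * Real.logb 2 x) := by
    rw [two_expo n hx, Real.rpow_natCast]
    linarith
  have h5 : (s : ℝ) ≤ (n : ℝ) + β * Real.logb 2 x :=
    (Real.rpow_le_rpow_left_iff (by norm_num : (1 : ℝ) < 2)).1 h4
  exact Nat.le_floor h5

/-- **any two choices are ordered** when the exponents differ by `log 2` -/
theorem cells_mono (hx : 0 < x) (hx' : 0 < x') (hs : lam n s ≤ x ^ β)
    (hs' : 1 / 2 * x' ^ β' ≤ lam n' s')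
    (h : (n : ℝ) * Real.log 2 + β * Real.log x + Real.log 2 ≤
      (n' : ℝ) * Real.log 2 + β' * Real.log x') : s ≤ s' := by
  have h3 : (0 : ℝ) < 2 ^ n := by positivity
  have h3' : (0 : ℝ) < 2 ^ n' := by positivity
  rw [lam, div_le_iff₀ h3] at hs
  rw [lam, le_div_iff₀ h3'] at hs'
  have h1 : (2 : ℝ) * (x ^ β * 2 ^ n) ≤ x' ^ β' * 2 ^ n' := by
    have e1 : (2 : ℝ) * (x ^ β * 2 ^ n) =
        Real.exp ((n : ℝ) * Real.log 2 + β * Real.log x + Real.log 2) := by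
      rw [Real.exp_add, Real.exp_add, Real.exp_log two_pos, mul_comm (n : ℝ), Real.exp_mul,
        Real.exp_log two_pos, Real.rpow_natCast, Real.rpow_def_of_pos hx, mul_comm β]
      ring
    have e2 : x' ^ β' * 2 ^ n' =
        Real.exp ((n' : ℝ) * Real.log 2 + β' * Real.log x') := by
      rw [Real.exp_add, mul_comm (n' : ℝ), Real.exp_mul,
        Real.exp_log two_pos, Real.rpow_natCast, Real.rpow_def_of_pos hx', mul_comm β']
      ring
    rw [e1, e2]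
    exact Real.exp_le_exp.2 h
  have h5 : (2 : ℝ) ^ s ≤ 2 ^ s' := by linarith
  exact (pow_le_pow_iff_right₀ (by norm_num : (1 : ℝ) < 2)).1 h5

end

end Vale.Agent.P159.H663.Cel
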