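import Vale.Agent.P159.H663.HtB
import Vale.Agent.P159.H663.Sgq
import Vale.Agent.P159.H586.Fern1
import Vale.Agent.P159.H447.MassH

/-!
P159 / module GS (helper663): **probability of the good set of sources under the exact law at a
source**, neutral cell channel: prior `μ' = nMC N l b t s x₀` (fine mass `t`, cell mass `s ≤ t`),
channel `P = obsN N l (t - s)`, posterior `nMC N l b t t x₀`.

* `one_split`, `Ech_union` (abstract);
* `gs_gen`  : one condition `F cobV J ∈ C`, `F` with neutral rows, `C` convex;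
* `gs_rs`   : `Rs (wt N b t₀) (Q₁ cobVᵀ F cobV J) ≤ δ` from AP at the mass `t₀`;
* `gs_ball` : `|F cobV J|² ≤ u`.
-/

namespace Vale.Agent.P159.H663

open Finset Matrix MeasureTheory ProbabilityTheory
open Vale.Agent.P159.TM.H104 (EM Ex Cv K3 Lg li nh Gr)
open Vale.Agent.P159.TM.H764 (EE grd)
open Vale.Agent.P159.TM.Spec (V)
open Vale.Agent.P159.TM.SpecC (Tor wT)
open Vale.Agent.P159.H37
open Vale.Agent.P159.H864
open Vale.Agent.P159.H612 (om0)
open Vale.Agent.P159.H859 (Rk Avg dB ravg)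
open Vale.Agent.P159.H239 (indh tail_split)
open Vale.Agent.P159.H816 (Gam Hb)
open Vale.Agent.P159.H963 (Neu pin nM nMC MF Pn Gnc obsN)
open Vale.Agent.P159.H447 (CN SN CN_gram CN_eq)

noncomputable section

/-! ### abstract part -/

section abs

variable {V : Type*} [Fintype V] {I : Type*} [Fintype I] {W : Type*} [Fintype W]
  {μ' : (V → ℤ) → ℝ}

/-- **one condition** -/
theorem one_split (hμ : EM μ') (J₁ : V → ℝ) (P : Matrix I V ℝ) (L : Matrix W V ℝ)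
    {C : Set (W → ℝ)} (hCm : MeasurableSet C) (hC : Convex ℝ C) (m0 : V → ℝ)
    (ha : (3 : ℝ) • (L *ᵥ (J₁ + Pᵀ *ᵥ (P *ᵥ m0))) ∈ C) {π ν : ℝ}
    (hπ : Ex μ' J₁ (indh {h | (3 : ℝ) • (L *ᵥ (Pᵀ *ᵥ (P *ᵥ (re h - m0)))) ∉ C}) ≤ π)
    (hν : ∫ g : I → ℝ, Set.indicator {g : I → ℝ | (3 : ℝ) • (L *ᵥ (Pᵀ *ᵥ g)) ∉ C}
      (fun _ => (1 : ℝ)) g ∂(gau I) ≤ ν) :
    Ech μ' J₁ P (ind {J | L *ᵥ J ∉ C}) ≤ π + ν := by
  have h := tail_split hμ J₁ P (fun _ : Unit => L) (fun _ => C) (fun _ => hCm) (fun _ => hC) m0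
    (fun _ => ha) (π := fun _ => π) (ν := fun _ => ν) (fun _ => hπ) (fun _ => hν)
  simp only [Finset.univ_unique, Finset.sum_const, Finset.card_singleton, one_smul] at h
  have e : (H239.good (fun _ : Unit => L) fun _ => C)ᶜ = {J | L *ᵥ J ∉ C} := by
    ext J
    simp [H239.good]
  rwa [e] at h

lemma EGr_sum_fin {ι : Type*} (t : Finset ι) {Φ : ι → (V → ℝ) → ℝ} (h : ∀ i, EGr (Φ i)) :
    EGr fun J => ∑ i ∈ t, Φ i J := by
  classical
  induction t using Finset.induction_on with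
  | empty => simpa using EGr.const (V := V) 0
  | insert i t hi ih =>
    simp only [Finset.sum_insert hi]
    exact (h i).add ih

/-- **union bound** -/
theorem Ech_union (hμ : EM μ') (J₁ : V → ℝ) (P : Matrix I V ℝ) {ι : Type*} (t : Finset ι)
    {B : ι → Set (V → ℝ)} (hB : ∀ i, MeasurableSet (B i)) {S : Set (V → ℝ)}
    (hS : MeasurableSet S) (h : ∀ J ∈ S, ∃ i ∈ t, J ∈ B i) :
    Ech μ' J₁ P (ind S) ≤ ∑ i ∈ t, Ech μ' J₁ P (ind (B i)) := by
  classical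
  have h1 : Ech μ' J₁ P (ind S) ≤ Ech μ' J₁ P (fun J => ∑ i ∈ t, ind (B i) J) := by
    refine Ech_mono hμ J₁ P (EGr.ind hS) (EGr_sum_fin t fun i => EGr.ind (hB i)) fun J => ?_
    by_cases hJ : J ∈ S
    · obtain ⟨i, hi, hi'⟩ := h J hJ
      have e1 : ind S J = 1 := Set.indicator_of_mem hJ _
      have e2 : ind (B i) J = 1 := Set.indicator_of_mem hi' _
      rw [e1, ← e2]
      exact Finset.single_le_sum (f := fun i => ind (B i) J) (fun j _ => ind_nonneg _ _) hi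
    · have e1 : ind S J = 0 := Set.indicator_of_notMem hJ _
      rw [e1]
      exact Finset.sum_nonneg fun j _ => ind_nonneg _ _
  refine h1.trans (le_of_eq ?_)
  clear h h1
  induction t using Finset.induction_on with
  | empty =>
    simp only [Finset.sum_empty]
    exact Ech_const hμ J₁ P 0
  | insert i t hi ih =>
    simp only [Finset.sum_insert hi]
    rw [Ech_add hμ J₁ P (EGr.ind (hB i)) (EGr_sum_fin t fun i => EGr.ind (hB i)), ih]

/-- balls are convex -/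
lemma convex_ball (u : ℝ) : Convex ℝ {v : W → ℝ | ∑ w, v w ^ 2 ≤ u} := by
  intro x hx y hy a b ha hb hab
  have h1 : ∑ w, (a • x + b • y) w ^ 2 ≤ ∑ w, (a * x w ^ 2 + b * y w ^ 2) := by
    refine Finset.sum_le_sum fun w _ => ?_
    simp only [Pi.add_apply, Pi.smul_apply, smul_eq_mul]
    have hb' : b = 1 - a := by linarith
    subst hb'
    nlinarith [mul_nonneg (mul_nonneg ha hb) (sq_nonneg (x w - y w))]
  rw [Finset.sum_add_distrib, ← Finset.mul_sum, ← Finset.mul_sum] at h1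
  have hx' : ∑ w, x w ^ 2 ≤ u := hx
  have hy' : ∑ w, y w ^ 2 ≤ u := hy
  have h2 := mul_le_mul_of_nonneg_left hx' ha
  have h3 := mul_le_mul_of_nonneg_left hy' hb
  have h4 : a * u + b * u = u := by rw [← add_mul, hab, one_mul]
  show ∑ w, (a • x + b • y) w ^ 2 ≤ u
  linarith

lemma measurableSet_ball (u : ℝ) : MeasurableSet {v : W → ℝ | ∑ w, v w ^ 2 ≤ u} :=
  measurableSet_le (by fun_prop) measurable_const

end abs

/-! ### the cell channel -/

section cell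

variable {N l : ℕ} [NeZero N] [NeZero (N / l)] {b t s κ cs : ℝ} {W : Type*} [Fintype W]

omit [NeZero N] [Fintype W] in
/-- neutral rows -/
lemma mul_Pn_of_neu {F : Matrix W (V (N / l)) ℝ} (hF : ∀ w, Neu (F w)) :
    F * (Pn : Matrix (V (N / l)) (V (N / l)) ℝ) = F := by
  ext w x
  have h1 : (F * (Pn : Matrix (V (N / l)) (V (N / l)) ℝ)) w x =
      ((Pn : Matrix (V (N / l)) (V (N / l)) ℝ)ᵀ *ᵥ (F w)) x := by
    rw [Matrix.mul_apply]
    unfold mulVec dotProduct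
    exact Finset.sum_congr rfl fun y _ => mul_comm _ _
  rw [h1, H963.Pn_transpose, H963.Pn_of_neu (hF w)]

omit [Fintype W] in
/-- the observation in the condition: field part -/
lemma cond_field (hl : l ∣ N) (h : s ≤ t) {F : Matrix W (V (N / l)) ℝ} (hF : ∀ w, Neu (F w))
    (v : V N → ℝ) :
    (F * cobV N l) *ᵥ ((obsN N l (t - s))ᵀ *ᵥ (obsN N l (t - s) *ᵥ v)) =
      ((t - s) • (F * cobV N l)) *ᵥ v := by
  have h1 : (obsN N l (t - s))ᵀ * obsN N l (t - s) = (t - s) • SN N l :=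
    H963.obsN_gram hl (sub_nonneg.2 h)
  have h2 : F * cobV N l * SN N l = F * cobV N l := by
    rw [← CN_gram hl]
    unfold H447.CN
    rw [transpose_mul, H963.Pn_transpose]
    have h3 : F * cobV N l * ((cobV N l)ᵀ * (Pn : Matrix (V (N / l)) (V (N / l)) ℝ) *
        ((Pn : Matrix (V (N / l)) (V (N / l)) ℝ) * cobV N l)) =
        F * (cobV N l * (cobV N l)ᵀ) * (Pn : Matrix (V (N / l)) (V (N / l)) ℝ) *
          (Pn : Matrix (V (N / l)) (V (N / l)) ℝ) * cobV N l := by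
      simp only [Matrix.mul_assoc]
    rw [h3, cobV_mul_tr hl, Matrix.mul_one, mul_Pn_of_neu hF, mul_Pn_of_neu hF]
  rw [mulVec_mulVec, mulVec_mulVec, Matrix.mul_assoc (F * cobV N l), h1, Matrix.mul_smul, h2]

omit [Fintype W] in
/-- the observation in the condition: noise part -/
lemma cond_noise (hl : l ∣ N) {F : Matrix W (V (N / l)) ℝ} (hF : ∀ w, Neu (F w)) (c : ℝ)
    (g : V (N / l) → ℝ) :
    (F * cobV N l) *ᵥ ((obsN N l c)ᵀ *ᵥ g) = √c • (F *ᵥ g) := by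
  unfold H963.obsN
  rw [transpose_smul, transpose_mul, H963.Pn_transpose, smul_mulVec, mulVec_smul, mulVec_mulVec]
  congr 1
  have h1 : F * cobV N l * ((cobV N l)ᵀ * (Pn : Matrix (V (N / l)) (V (N / l)) ℝ)) = F := by
    have h3 : F * cobV N l * ((cobV N l)ᵀ * (Pn : Matrix (V (N / l)) (V (N / l)) ℝ)) =
        F * (cobV N l * (cobV N l)ᵀ) * (Pn : Matrix (V (N / l)) (V (N / l)) ℝ) := by
      simp only [Matrix.mul_assoc]
    rw [h3, cobV_mul_tr hl, Matrix.mul_one, mul_Pn_of_neu hF]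
  rw [h1]

/-- **one condition of the cell channel** -/
theorem gs_gen (hb : 0 ≤ b) (hl : l ∣ N) (hs : 0 < s) (h : s ≤ t) (x₀ : V N)
    {F : Matrix W (V (N / l)) ℝ} (hF : ∀ w, Neu (F w)) {C : Set (W → ℝ)}
    (hCm : MeasurableSet C) (hC : Convex ℝ C) {J₁ : V N → ℝ}
    (hm : (3 : ℝ) • ((F * cobV N l) *ᵥ (J₁ + (t - s) • (Gm (nMC N l b t s x₀) *ᵥ J₁))) ∈ C)
    {ρ : ℝ} (hball : ∀ v : V (N / l) → ℝ, ∑ w, (F *ᵥ v) w ^ 2 ≤ ρ → (3 : ℝ) • (F *ᵥ v) ∈ C)
    {π ν : ℝ}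
    (hπ : Ex (nMC N l b t s x₀) J₁ (indh {h | ρ < ∑ w, ((((t - s) • (F * cobV N l)) *ᵥ
      (re h - Gm (nMC N l b t s x₀) *ᵥ J₁)) w) ^ 2}) ≤ π)
    (hν : ∫ g : V (N / l) → ℝ, Set.indicator {g : V (N / l) → ℝ |
      (3 : ℝ) • (√(t - s) • (F *ᵥ g)) ∉ C} (fun _ => (1 : ℝ)) g ∂(gau (V (N / l))) ≤ ν) :
    Ech (nMC N l b t s x₀) J₁ (obsN N l (t - s)) (ind {J | (F * cobV N l) *ᵥ J ∉ C}) ≤
      π + ν := by
  have hE := H963.em_nMC (N := N) hb hl hs h x₀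
  refine one_split hE J₁ (obsN N l (t - s)) (F * cobV N l) hCm hC
    (Gm (nMC N l b t s x₀) *ᵥ J₁) ?_ ?_ ?_
  · rw [mulVec_add, cond_field hl h hF]
    rw [mulVec_add, mulVec_smul] at hm
    rwa [smul_mulVec]
  · refine le_trans (TM.H104.Ex_mono hE (H239.Gr.indh _) (H239.Gr.indh _) (fun h' => ?_) J₁) hπ
    by_cases hh : h' ∈ {h : V N → ℤ | ρ < ∑ w, ((((t - s) • (F * cobV N l)) *ᵥ
      (re h - Gm (nMC N l b t s x₀) *ᵥ J₁)) w) ^ 2}
    · rw [H239.indh_of_mem hh]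
      exact H239.indh_le_one _ _
    · have h2 : ∑ w, ((((t - s) • (F * cobV N l)) *ᵥ
          (re h' - Gm (nMC N l b t s x₀) *ᵥ J₁)) w) ^ 2 ≤ ρ := not_lt.1 hh
      have h3 : ((t - s) • (F * cobV N l)) *ᵥ (re h' - Gm (nMC N l b t s x₀) *ᵥ J₁) =
          F *ᵥ ((t - s) • (cobV N l *ᵥ (re h' - Gm (nMC N l b t s x₀) *ᵥ J₁))) := by
        rw [smul_mulVec, mulVec_smul, mulVec_mulVec]
      rw [h3] at h2
      have h4 := hball _ h2
      rw [← h3, ← cond_field hl h hF] at h4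
      have h5 : indh {h : V N → ℤ | (3 : ℝ) • ((F * cobV N l) *ᵥ ((obsN N l (t - s))ᵀ *ᵥ
          (obsN N l (t - s) *ᵥ (re h - Gm (nMC N l b t s x₀) *ᵥ J₁)))) ∉ C} h' = 0 := by
        refine Set.indicator_of_notMem ?_ _
        exact fun hc => hc h4
      rw [h5]
      exact H239.indh_nonneg _ _
  · simp only [cond_noise hl hF]
    exact hν

/-- **ball condition** `|F cobV J|² ≤ u` (block means, crude bound, quadratic conditions) -/
theorem gs_ball [DecidableEq W] (hb : 0 < b) (hl : l ∣ N) (hs : 0 < s) (h : s < t)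
    (hω : om0 N b (MC N l t (2 * s)) ≤ 1 / 16) (x₀ : V N)
    {F : Matrix W (V (N / l)) ℝ} (hF : ∀ w, Neu (F w)) {k₁ r₁ : ℝ} (hk₁ : 0 < k₁)
    (h1 : ∀ φ : W → ℝ, ∑ i, (Fᵀ *ᵥ φ) i ^ 2 ≤ k₁ * ∑ i, φ i ^ 2) (hr₁ : (F * Fᵀ).trace ≤ r₁)
    {J₁ : V N → ℝ} (hR : Rs (nMC N l b t s x₀) J₁ ≤ 1) {u : ℝ} (hu : 0 < u)
    (hm : 9 * ∑ w, ((F * cobV N l) *ᵥ (J₁ + (t - s) • (Gm (nMC N l b t s x₀) *ᵥ J₁))) w ^ 2 ≤ u)
    (hr : 288 * (t - s) ^ 2 * r₁ / s ≤ u) :
    Ech (nMC N l b t s x₀) J₁ (obsN N l (t - s))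
      (ind {J | u < ∑ w, ((F * cobV N l) *ᵥ J) w ^ 2}) ≤
      Real.exp (r₁ / (2 * k₁) - s * u / (1152 * (t - s) ^ 2 * k₁)) +
        Real.exp (r₁ / (2 * k₁) - u / (36 * (t - s) * k₁)) := by
  have hc : 0 < t - s := sub_pos.2 h
  have hsq : ∀ v : W → ℝ, ∑ w, ((3 : ℝ) • v) w ^ 2 = 9 * ∑ w, v w ^ 2 := by
    intro v
    rw [Finset.mul_sum]
    refine Finset.sum_congr rfl fun w _ => ?_
    rw [Pi.smul_apply, smul_eq_mul]
    ring
  have hπ := ht_low_neu hb hl hs h.le hω x₀ hc hF hk₁ h1 hr₁ hR (ρ := u / 9) (by positivity) (by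
    have e : 16 * (t - s) ^ 2 * r₁ / s = (288 * (t - s) ^ 2 * r₁ / s) / 18 := by ring
    rw [e]
    linarith)
  -- the noise
  have hK : (Fᵀ * F)ᵀ = Fᵀ * F := by rw [transpose_mul, transpose_transpose]
  have hq : ∀ g : V (N / l) → ℝ, qf (Fᵀ * F) g = ∑ w, (F *ᵥ g) w ^ 2 := by
    intro g
    have := qf_mul_tr Fᵀ g
    rwa [transpose_transpose] at this
  have hop : ∀ g : V (N / l) → ℝ, ∑ w, (F *ᵥ g) w ^ 2 ≤ k₁ * ∑ i, g i ^ 2 := by
    intro g
    set φ : W → ℝ := F *ᵥ g with hφ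
    have e1 : ∑ w, φ w ^ 2 = (Fᵀ *ᵥ φ) ⬝ᵥ g := by
      rw [mulVec_transpose, ← dotProduct_mulVec, ← hφ, dot_self]
    have e2 : ((Fᵀ *ᵥ φ) ⬝ᵥ g) ^ 2 ≤ (∑ i, (Fᵀ *ᵥ φ) i ^ 2) * ∑ i, g i ^ 2 :=
      Finset.sum_mul_sq_le_sq_mul_sq Finset.univ (Fᵀ *ᵥ φ) g
    rw [← e1] at e2
    have e3 := mul_le_mul_of_nonneg_right (h1 φ) (sq_vec_nonneg g)
    have e4 : (∑ w, φ w ^ 2) * (∑ w, φ w ^ 2) ≤ (k₁ * ∑ i, g i ^ 2) * ∑ w, φ w ^ 2 := by
      rw [← pow_two]
      refine e2.trans (e3.trans (le_of_eq ?_))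
      ring
    rcases (sq_vec_nonneg φ).eq_or_lt with e5 | e5
    · rw [← e5]
      exact mul_nonneg hk₁.le (sq_vec_nonneg g)
    · exact le_of_mul_le_mul_right e4 e5
  have hg := gau_tail hK (fun g => by rw [hq]; exact sq_vec_nonneg _)
    (lam := 1 / (2 * k₁)) (by positivity) (fun g => by
      rw [hq]
      have := mul_le_mul_of_nonneg_left (hop g) (show (0 : ℝ) ≤ 1 / (2 * k₁) by positivity)
      refine this.trans (le_of_eq ?_)
      field_simp) (u / (9 * (t - s)))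
  have hν : ∫ g : V (N / l) → ℝ, Set.indicator {g : V (N / l) → ℝ |
      (3 : ℝ) • (√(t - s) • (F *ᵥ g)) ∉ {v : W → ℝ | ∑ w, v w ^ 2 ≤ u}} (fun _ => (1 : ℝ)) g
      ∂(gau (V (N / l))) ≤ Real.exp (r₁ / (2 * k₁) - u / (36 * (t - s) * k₁)) := by
    have hm1 : Measurable fun g : V (N / l) → ℝ => (3 : ℝ) • (√(t - s) • (F *ᵥ g)) := by fun_prop
    have hm2 : Measurable fun g : V (N / l) → ℝ => qf (Fᵀ * F) g := by
      simp only [hq]
      fun_prop
    have hA : MeasurableSet {g : V (N / l) → ℝ |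
      (3 : ℝ) • (√(t - s) • (F *ᵥ g)) ∉ {v : W → ℝ | ∑ w, v w ^ 2 ≤ u}} :=
      hm1 (measurableSet_ball u).compl
    have hB : MeasurableSet {g : V (N / l) → ℝ | u / (9 * (t - s)) ≤ qf (Fᵀ * F) g} :=
      measurableSet_le measurable_const hm2
    refine le_trans (integral_mono ((integrable_const (1 : ℝ)).indicator hA)
      ((integrable_const (1 : ℝ)).indicator hB) fun g => ?_) (hg.trans (Real.exp_le_exp.2 ?_))
    · refine Set.indicator_le_indicator_of_subset (fun g hg' => ?_) (fun _ => zero_le_one) g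
      simp only [Set.mem_ofPred_eq, not_le] at hg' ⊢
      rw [hsq] at hg'
      have e : ∑ w, (√(t - s) • (F *ᵥ g)) w ^ 2 = (t - s) * ∑ w, (F *ᵥ g) w ^ 2 := by
        rw [Finset.mul_sum]
        refine Finset.sum_congr rfl fun w _ => ?_
        rw [Pi.smul_apply, smul_eq_mul, mul_pow, Real.sq_sqrt hc.le]
      rw [e] at hg'
      rw [hq, div_le_iff₀ (by positivity)]
      nlinarith
    · have e1 : (Fᵀ * F).trace = (F * Fᵀ).trace := trace_mul_comm _ _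
      rw [e1]
      have e2 : 1 / (2 * k₁) * (F * Fᵀ).trace ≤ r₁ / (2 * k₁) := by
        rw [div_mul_eq_mul_div, one_mul]
        exact div_le_div_of_nonneg_right hr₁ (by positivity)
      have e3 : 1 / (2 * k₁) * (u / (9 * (t - s))) / 2 = u / (36 * (t - s) * k₁) := by
        field_simp
        ring
      linarith
  have hmain := gs_gen hb.le hl hs h.le x₀ hF (measurableSet_ball u) (convex_ball u) (J₁ := J₁)
    (by
      rw [Set.mem_ofPred_eq, hsq]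
      exact hm) (ρ := u / 9) (fun v hv => by
      rw [Set.mem_ofPred_eq, hsq]
      linarith) hπ hν
  have e : {J : V N → ℝ | (F * cobV N l) *ᵥ J ∉ {v : W → ℝ | ∑ w, v w ^ 2 ≤ u}} =
      {J | u < ∑ w, ((F * cobV N l) *ᵥ J) w ^ 2} := by
    ext J
    simp only [Set.mem_ofPred_eq, not_le]
  rw [e] at hmain
  refine hmain.trans (le_of_eq ?_)
  congr 3
  field_simp
  ring

end cell

end

end Vale.Agent.P159.H663
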