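import Vale.Agent.P159.H663.Off

/-!
P159 / module GS (helper663), part 5: **the numbers of `gs_class`**, explicit constants.

`ξ = q l` side of the blocks, `t₀ = ξ⁻²`, posterior mass `t ∈ [t₀, 4 t₀]`, prior mass
`s ≥ t₀ / (2 M²)`, fine scale `l₀ l = ξ / A`.
-/

namespace Vale.Agent.P159.H663

open Finset Matrix MeasureTheory ProbabilityTheory
open Vale.Agent.P159.TM.H764 (EE grd)
open Vale.Agent.P159.TM.Spec (V)
open Vale.Agent.P159.TM.SpecC (Tor wT)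
open Vale.Agent.P159.H37
open Vale.Agent.P159.H864
open Vale.Agent.P159.H612 (om0)
open Vale.Agent.P159.H859 (Rk Avg dB ravg)
open Vale.Agent.P159.H816 (Gam Hb)
open Vale.Agent.P159.H963 (Neu pin nM nMC MF Pn Gnc obsN)

noncomputable section

/-- the coercivity constant -/
def kap (b : ℝ) : ℝ := 1 / (b + 12 * max b 1 ^ 2)

lemma kap_pos {b : ℝ} (hb : 0 < b) : 0 < kap b := by
  unfold kap
  have : 0 < max b 1 := lt_max_of_lt_right one_pos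
  positivity

lemma kap_le {b : ℝ} (hb : 0 < b) : kap b ≤ 1 := by
  unfold kap
  have h : 1 ≤ max b 1 := le_max_right _ _
  rw [div_le_one (by positivity)]
  nlinarith

lemma kap_cs {b : ℝ} (hb : 0 < b) : kap b * (b + 12 * max b 1 ^ 2 * (1 : ℝ) ^ 2) ≤ 1 := by
  unfold kap
  have h : 0 < max b 1 := lt_max_of_lt_right one_pos
  rw [one_pow, mul_one, one_div, inv_mul_cancel₀ (by positivity)]

/-- the standing numbers -/
structure GN (N l l₀ q : ℕ) (b s t t₀ M A X Q₁ d : ℝ) : Prop where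
  dl : l ∣ N
  dl0 : l₀ ∣ q
  dq : q ∣ N / l
  t0 : 0 < t₀
  tξ : t₀ * ((q : ℝ) * l) ^ 2 = 1
  A0 : (q : ℝ) = A * l₀
  A1 : 1 ≤ A
  M1 : 1 ≤ M
  lo : t₀ ≤ t
  hi : t ≤ 4 * t₀
  slo : t₀ ≤ 2 * M ^ 2 * s
  shi : 2 * s ≤ t₀
  MN : M * ((q : ℝ) * l) ≤ N
  X0 : 0 < X
  Q0 : 0 < Q₁
  /-- LOW -/
  n1 : 196608 * (A ^ 2 * M ^ 2) * Q₁ ^ 2 ≤ X ^ 2
  dd : 0 ≤ d
  /-- offset -/
  n2 : 393216 * d * Q₁ ^ 2 ≤ kap b * A ^ 2 * X ^ 2
  /-- logarithm -/
  n2b : 98304 * (3 + Real.log ((N / l : ℕ) : ℝ)) * Q₁ ^ 2 ≤ kap b * X ^ 2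
  /-- slope of a single site -/
  n3 : 64 * M ^ 4 * (3 + Real.log N) * A ^ 2 * t₀ *
    (X ^ 2 / Q₁ ^ 2 * A ^ 2 + 2 * ((N / l : ℕ) : ℝ) ^ 2) ≤ 1

section num

variable {N l l₀ q : ℕ} {b s t t₀ M A X Q₁ d : ℝ}

lemma GN.s0 (h : GN N l l₀ q b s t t₀ M A X Q₁ d) : 0 < s := by
  have h1 := h.slo
  have h2 := h.t0
  have h3 : 0 < M := lt_of_lt_of_le one_pos h.M1
  by_contra hc
  have h4 : s ≤ 0 := not_lt.1 hc
  nlinarith [mul_nonneg (pow_pos h3 2).le (neg_nonneg.2 h4)]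

lemma GN.st (h : GN N l l₀ q b s t t₀ M A X Q₁ d) : s < t := by
  have h1 := h.shi
  have h2 := h.t0
  have h3 := h.lo
  linarith

lemma GN.clo (h : GN N l l₀ q b s t t₀ M A X Q₁ d) : t₀ / 2 ≤ t - s := by
  have h1 := h.shi
  have h3 := h.lo
  linarith

lemma GN.chi (h : GN N l l₀ q b s t t₀ M A X Q₁ d) : t - s ≤ 4 * t₀ := by
  have h1 := h.s0
  have h3 := h.hi
  linarith

lemma GN.c0 (h : GN N l l₀ q b s t t₀ M A X Q₁ d) : 0 < t - s := sub_pos.2 h.st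

/-- `t₀ / (32 M²) ≤ s t₀² / (t - s)²` in the form used -/
lemma GN.rat (h : GN N l l₀ q b s t t₀ M A X Q₁ d) :
    1 / (32 * t₀ * M ^ 2) ≤ s / (t - s) ^ 2 := by
  have h0 := h.t0
  have h1 := h.c0
  have hM : 0 < M := lt_of_lt_of_le one_pos h.M1
  rw [div_le_div_iff₀ (by positivity) (by positivity), one_mul]
  have h2 : (t - s) ^ 2 ≤ (4 * t₀) ^ 2 := pow_le_pow_left₀ h1.le h.chi 2
  have h3 := h.slo
  nlinarith

lemma GN.l0 (h : GN N l l₀ q b s t t₀ M A X Q₁ d) : (0 : ℝ) < l := by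
  have h1 := h.tξ
  rcases Nat.eq_zero_or_pos l with h2 | h2
  · subst h2
    simp at h1
  · exact_mod_cast h2

lemma GN.q0 (h : GN N l l₀ q b s t t₀ M A X Q₁ d) : (0 : ℝ) < q := by
  have h1 := h.tξ
  rcases Nat.eq_zero_or_pos q with h2 | h2
  · subst h2
    simp at h1
  · exact_mod_cast h2

lemma GN.ll0 (h : GN N l l₀ q b s t t₀ M A X Q₁ d) : (0 : ℝ) < l₀ := by
  have h1 := h.A0
  have h2 := h.q0
  have hA : 0 < A := lt_of_lt_of_le one_pos h.A1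
  by_contra hc
  have h3 : (l₀ : ℝ) ≤ 0 := not_lt.1 hc
  nlinarith [mul_nonneg hA.le (neg_nonneg.2 h3)]

/-- `t₀ (l₀ l)² = A⁻²` -/
lemma GN.tρ (h : GN N l l₀ q b s t t₀ M A X Q₁ d) :
    t₀ * ((l₀ : ℝ) * l) ^ 2 * A ^ 2 = 1 := by
  have h1 := h.tξ
  rw [h.A0] at h1
  rw [← h1]
  ring

lemma GN.N0 (h : GN N l l₀ q b s t t₀ M A X Q₁ d) : (0 : ℝ) < N := by
  have h1 := h.MN
  have hM : 0 < M := lt_of_lt_of_le one_pos h.M1
  have := mul_pos hM (mul_pos h.q0 h.l0)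
  linarith

/-- `κ / (s N²) ≤ 2` -/
lemma GN.sN (h : GN N l l₀ q b s t t₀ M A X Q₁ d) (hb : 0 < b) :
    kap b / (s * (N : ℝ) ^ 2) ≤ 2 := by
  have h0 := h.t0
  have hs := h.s0
  have hN := h.N0
  have hM : 0 < M := lt_of_lt_of_le one_pos h.M1
  rw [div_le_iff₀ (by positivity)]
  have h1 : (M * ((q : ℝ) * l)) ^ 2 ≤ (N : ℝ) ^ 2 :=
    pow_le_pow_left₀ (by have := h.q0; have := h.l0; positivity) h.MN 2
  have h2 : M ^ 2 * ((q : ℝ) * l) ^ 2 ≤ (N : ℝ) ^ 2 := by rw [← mul_pow]; exact h1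
  have h3 := mul_le_mul_of_nonneg_left h2 hs.le
  have h4 := h.slo
  have h5 := h.tξ
  have h6 : (0 : ℝ) < ((q : ℝ) * l) ^ 2 := by have := h.q0; have := h.l0; positivity
  have h7 : t₀ * ((q : ℝ) * l) ^ 2 ≤ 2 * M ^ 2 * s * ((q : ℝ) * l) ^ 2 :=
    mul_le_mul_of_nonneg_right h4 h6.le
  have h8 := kap_le hb
  nlinarith

/-- the constant of the gradients -/
lemma GN.gam (h : GN N l l₀ q b s t t₀ M A X Q₁ d) (hb : 0 < b) :
    Gam N t s (kap b) ≤ 256 * M ^ 4 * (3 + Real.log N) := by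
  have h0 := h.t0
  have hs := h.s0
  have hM : 0 < M := lt_of_lt_of_le one_pos h.M1
  have hlog : 0 ≤ Real.log N := Real.log_natCast_nonneg _
  have h1 : t / s ≤ 8 * M ^ 2 := by
    rw [div_le_iff₀ hs]
    have h2 := h.hi
    have h3 := h.slo
    nlinarith
  have h2 : (t / s) ^ 2 ≤ (8 * M ^ 2) ^ 2 := pow_le_pow_left₀
    (div_nonneg (h.t0.le.trans h.lo) hs.le) h1 2
  have h3 := h.sN hb
  have h4 : 0 ≤ kap b / (s * (N : ℝ) ^ 2) := by
    have := kap_pos hb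
    positivity
  unfold H816.Gam
  calc 4 * (t / s) ^ 2 * (kap b / (s * (N : ℝ) ^ 2) + (1 + Real.log N))
      ≤ 4 * (8 * M ^ 2) ^ 2 * (2 + (1 + Real.log N)) := by gcongr
    _ = _ := by ring

lemma GN.gam0 (h : GN N l l₀ q b s t t₀ M A X Q₁ d) (hb : 0 < b) :
    0 ≤ Gam N t s (kap b) := by
  have hlog : 0 ≤ Real.log N := Real.log_natCast_nonneg _
  have hs := h.s0
  have := kap_pos hb
  unfold H816.Gam
  positivity

lemma GN.ha (h : GN N l l₀ q b s t t₀ M A X Q₁ d) : 9 * Q₁ ^ 2 * (t - s) ≤ X ^ 2 * t₀ := by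
  have h1 := h.n1
  have h2 := h.chi
  have h3 := h.t0
  have hA := h.A1
  have hM := h.M1
  have h4 : 1 ≤ A ^ 2 * M ^ 2 := by
    have h5 : 1 ≤ A ^ 2 := one_le_pow₀ hA
    have h6 : 1 ≤ M ^ 2 := one_le_pow₀ hM
    nlinarith
  have h5 : 0 < Q₁ ^ 2 := pow_pos h.Q0 2
  have h6 : 36 * Q₁ ^ 2 ≤ X ^ 2 := by
    refine le_trans ?_ h1
    have := mul_le_mul_of_nonneg_right h4 h5.le
    nlinarith
  nlinarith [mul_le_mul_of_nonneg_left h2 h5.le]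

/-- `n1` in the other direction -/
lemma GN.H1 (h : GN N l l₀ q b s t t₀ M A X Q₁ d) :
    196608 * (A ^ 2 * M ^ 2) ≤ X ^ 2 / Q₁ ^ 2 := by
  rw [le_div_iff₀ (pow_pos h.Q0 2)]
  exact h.n1

lemma GN.H2 (h : GN N l l₀ q b s t t₀ M A X Q₁ d) :
    393216 * d ≤ kap b * A ^ 2 * (X ^ 2 / Q₁ ^ 2) := by
  rw [← mul_div_assoc, le_div_iff₀ (pow_pos h.Q0 2)]
  exact h.n2

lemma GN.H3 (h : GN N l l₀ q b s t t₀ M A X Q₁ d) :
    98304 * (3 + Real.log ((N / l : ℕ) : ℝ)) ≤ kap b * (X ^ 2 / Q₁ ^ 2) := by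
  rw [← mul_div_assoc, le_div_iff₀ (pow_pos h.Q0 2)]
  exact h.n2b

lemma GN.ρeq (h : GN N l l₀ q b s t t₀ M A X Q₁ d) :
    X ^ 2 * t₀ / (12 * Q₁ ^ 2) = t₀ * (X ^ 2 / Q₁ ^ 2) / 12 := by
  have := h.Q0
  field_simp

/-- the coarse exponential -/
lemma GN.ex1 (h : GN N l l₀ q b s t t₀ M A X Q₁ d) (hb : 0 < b) {m : ℕ}
    (hm : (m : ℝ) ≤ (q : ℝ) ^ 2) {H : ℝ} (hH : 0 < H) (H1 : 196608 * (A ^ 2 * M ^ 2) ≤ H) :
    (m : ℝ) / (2 * (l₀ : ℝ) ^ 2) - s * (t₀ * H / 12) / (512 * (t - s) ^ 2) ≤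
      -(kap b * H / (393216 * M ^ 2)) := by
  have h0 := h.t0
  have hc := h.c0
  have hll := h.ll0
  have hM : 0 < M := lt_of_lt_of_le one_pos h.M1
  have hk1 := kap_le hb
  have hml : (m : ℝ) / (l₀ : ℝ) ^ 2 ≤ A ^ 2 := by
    rw [div_le_iff₀ (by positivity), ← mul_pow, ← h.A0]
    exact hm
  have f1 : (m : ℝ) / (2 * (l₀ : ℝ) ^ 2) ≤ A ^ 2 / 2 := by
    have : (m : ℝ) / (2 * (l₀ : ℝ) ^ 2) = (m : ℝ) / (l₀ : ℝ) ^ 2 / 2 := by field_simp
    rw [this]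
    linarith
  have f2 : H / (196608 * M ^ 2) ≤ s * (t₀ * H / 12) / (512 * (t - s) ^ 2) := by
    have := mul_le_mul_of_nonneg_right h.rat (show 0 ≤ t₀ * H / 6144 by positivity)
    refine le_trans (le_of_eq ?_) (this.trans (le_of_eq ?_))
    · field_simp
      norm_num
    · field_simp
      ring
  have f3 : A ^ 2 / 2 ≤ H / (393216 * M ^ 2) := by
    rw [le_div_iff₀ (by positivity)]
    linarith
  have f4 : kap b * H / (393216 * M ^ 2) ≤ H / (393216 * M ^ 2) := by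
    apply div_le_div_of_nonneg_right _ (by positivity)
    exact mul_le_of_le_one_left hH.le hk1
  have f5 : H / (196608 * M ^ 2) = 2 * (H / (393216 * M ^ 2)) := by
    field_simp
    norm_num
  linarith

/-- the fine exponential, trace part -/
lemma GN.ex2a (h : GN N l l₀ q b s t t₀ M A X Q₁ d) (hb : 0 < b) {m : ℕ}
    (hm : (m : ℝ) ≤ (q : ℝ) ^ 2) :
    m * (kap b / (s * (N : ℝ) ^ 2) + (1 + Real.log ((N / l : ℕ) : ℝ))) /
      (8 * (l₀ : ℝ) ^ 2) ≤ A ^ 2 * (3 + Real.log ((N / l : ℕ) : ℝ)) / 8 := by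
  have hs := h.s0
  have hN := h.N0
  have hk := kap_pos hb
  have hll := h.ll0
  have hlog : 0 ≤ Real.log ((N / l : ℕ) : ℝ) := Real.log_natCast_nonneg _
  have hml : (m : ℝ) / (l₀ : ℝ) ^ 2 ≤ A ^ 2 := by
    rw [div_le_iff₀ (by positivity), ← mul_pow, ← h.A0]
    exact hm
  have g2 := h.sN hb
  have g3 : 0 ≤ kap b / (s * (N : ℝ) ^ 2) := by positivity
  generalize kap b / (s * (N : ℝ) ^ 2) = z at g2 g3 ⊢
  generalize Real.log ((N / l : ℕ) : ℝ) = w at hlog ⊢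
  have g1 : m * (z + (1 + w)) / (8 * (l₀ : ℝ) ^ 2) = (m : ℝ) / (l₀ : ℝ) ^ 2 * (z + (1 + w)) / 8 := by
    field_simp
  rw [g1]
  have g4 : (m : ℝ) / (l₀ : ℝ) ^ 2 * (z + (1 + w)) ≤ A ^ 2 * (3 + w) :=
    mul_le_mul hml (by linarith) (by linarith) (by positivity)
  linarith

/-- the fine exponential, main part -/
lemma GN.ex2b (h : GN N l l₀ q b s t t₀ M A X Q₁ d) (hb : 0 < b) {H : ℝ} (hH : 0 < H) :
    kap b * A ^ 2 * H / 196608 ≤
      kap b * (t₀ * H / 12) / (1024 * (t - s) ^ 2 * ((l₀ : ℝ) * l) ^ 2) := by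
  have h0 := h.t0
  have hc := h.c0
  have hl := h.l0
  have hll := h.ll0
  have hk := kap_pos hb
  have g1 : (t - s) ^ 2 ≤ (4 * t₀) ^ 2 := pow_le_pow_left₀ hc.le h.chi 2
  have g2 := h.tρ
  set ρ : ℝ := ((l₀ : ℝ) * l) ^ 2 with hρ
  have hρ0 : 0 < ρ := by positivity
  have g3 : (t - s) ^ 2 * ρ * A ^ 2 ≤ 16 * t₀ := by
    calc (t - s) ^ 2 * ρ * A ^ 2 ≤ (4 * t₀) ^ 2 * ρ * A ^ 2 := by gcongr
      _ = 16 * t₀ * (t₀ * ρ * A ^ 2) := by ring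
      _ = 16 * t₀ := by rw [g2, mul_one]
  have hden : 0 < 1024 * (t - s) ^ 2 * ρ := by positivity
  rw [le_div_iff₀ hden]
  have g4 := mul_le_mul_of_nonneg_left g3 (show 0 ≤ kap b * H * (1 / 192) by positivity)
  calc kap b * A ^ 2 * H / 196608 * (1024 * (t - s) ^ 2 * ρ)
      = kap b * H * (1 / 192) * ((t - s) ^ 2 * ρ * A ^ 2) := by ring
    _ ≤ kap b * H * (1 / 192) * (16 * t₀) := g4
    _ = kap b * (t₀ * H / 12) := by ring

/-- the fine exponential -/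
lemma GN.ex2 (h : GN N l l₀ q b s t t₀ M A X Q₁ d) (hb : 0 < b) {m : ℕ}
    (hm : (m : ℝ) ≤ (q : ℝ) ^ 2) {H : ℝ} (hH : 0 < H) (H2 : 393216 * d ≤ kap b * A ^ 2 * H)
    (H3 : 98304 * (3 + Real.log ((N / l : ℕ) : ℝ)) ≤ kap b * H) :
    d / 2 + m * (kap b / (s * (N : ℝ) ^ 2) + (1 + Real.log ((N / l : ℕ) : ℝ))) /
      (8 * (l₀ : ℝ) ^ 2) - kap b * (t₀ * H / 12) / (1024 * (t - s) ^ 2 * ((l₀ : ℝ) * l) ^ 2) ≤
      -(kap b * H / (393216 * M ^ 2)) := by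
  have f1 := h.ex2a hb hm
  have f2 := h.ex2b hb hH
  have hk := kap_pos hb
  have hM : 0 < M := lt_of_lt_of_le one_pos h.M1
  have hA2 : 1 ≤ A ^ 2 := one_le_pow₀ h.A1
  have hM2 : 1 ≤ M ^ 2 := one_le_pow₀ h.M1
  generalize m * (kap b / (s * (N : ℝ) ^ 2) + (1 + Real.log ((N / l : ℕ) : ℝ))) /
      (8 * (l₀ : ℝ) ^ 2) = z1 at f1 ⊢
  generalize kap b * (t₀ * H / 12) / (1024 * (t - s) ^ 2 * ((l₀ : ℝ) * l) ^ 2) = z2 at f2 ⊢
  generalize Real.log ((N / l : ℕ) : ℝ) = w at f1 H3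
  have f3 : d / 2 ≤ kap b * A ^ 2 * H / 786432 := by linarith
  have f4 : A ^ 2 * (3 + w) / 8 ≤ kap b * A ^ 2 * H / 786432 := by
    have := mul_le_mul_of_nonneg_left H3 (sq_nonneg A)
    have e1 : A ^ 2 * (98304 * (3 + w)) = 98304 * (A ^ 2 * (3 + w)) := by ring
    have e2 : A ^ 2 * (kap b * H) = kap b * A ^ 2 * H := by ring
    rw [e1, e2] at this
    linarith
  have f5 : kap b * H / (393216 * M ^ 2) ≤ kap b * A ^ 2 * H / 393216 := by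
    rw [div_le_div_iff₀ (by positivity) (by norm_num)]
    have g1 : 1 ≤ A ^ 2 * M ^ 2 := one_le_mul_of_one_le_of_one_le hA2 hM2
    have g2 := mul_le_mul_of_nonneg_left g1 (show 0 ≤ kap b * H * 393216 by positivity)
    calc kap b * H * 393216 = kap b * H * 393216 * 1 := by ring
      _ ≤ kap b * H * 393216 * (A ^ 2 * M ^ 2) := g2
      _ = kap b * A ^ 2 * H * (393216 * M ^ 2) := by ring
  linarith

/-- the noise exponential -/
lemma GN.ex3 (h : GN N l l₀ q b s t t₀ M A X Q₁ d) (hb : 0 < b) :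
    -(X ^ 2 * t₀ / (63 * Q₁ ^ 2 * (t - s))) ≤
      -(kap b * (X ^ 2 / Q₁ ^ 2) / (393216 * M ^ 2)) := by
  have h0 := h.t0
  have hc := h.c0
  have hQ := h.Q0
  have hX := h.X0
  have hk1 := kap_le hb
  have hM : 0 < M := lt_of_lt_of_le one_pos h.M1
  have hM2 : 1 ≤ M ^ 2 := one_le_pow₀ h.M1
  have e1 : X ^ 2 * t₀ / (63 * Q₁ ^ 2 * (t - s)) = X ^ 2 / Q₁ ^ 2 * (t₀ / (63 * (t - s))) := by
    field_simp
  rw [e1]
  set H : ℝ := X ^ 2 / Q₁ ^ 2 with hH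
  have hH0 : 0 < H := by positivity
  have f1 : H / 252 ≤ H * (t₀ / (63 * (t - s))) := by
    have g1 : (1 : ℝ) / 252 ≤ t₀ / (63 * (t - s)) := by
      rw [div_le_div_iff₀ (by norm_num) (by positivity)]
      have := h.chi
      linarith
    have := mul_le_mul_of_nonneg_left g1 hH0.le
    linarith
  have f2 : kap b * H / (393216 * M ^ 2) ≤ H / 252 := by
    rw [div_le_div_iff₀ (by positivity) (by norm_num)]
    have g1 : kap b * H ≤ H := mul_le_of_le_one_left hH0.le hk1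
    have g2 : H ≤ H * M ^ 2 := le_mul_of_one_le_right hH0.le hM2
    have g3 : 0 ≤ H * M ^ 2 := by positivity
    linarith
  linarith

/-- the number of one block condition -/
theorem GN.gsA (h : GN N l l₀ q b s t t₀ M A X Q₁ d) (hb : 0 < b) {m : ℕ}
    (hm : (m : ℝ) ≤ (q : ℝ) ^ 2) :
    gsA N l s t (kap b) X Q₁ t₀ d l₀ m ≤
      5 * Real.exp (-(kap b * (X ^ 2 / Q₁ ^ 2) / (393216 * M ^ 2))) := by
  have hQ := h.Q0
  have hX := h.X0
  have hH0 : 0 < X ^ 2 / Q₁ ^ 2 := by positivity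
  have e1 := h.ex1 hb hm hH0 h.H1
  have e2 := h.ex2 hb hm hH0 h.H2 h.H3
  have e3 := h.ex3 hb
  unfold H663.gsA
  rw [h.ρeq]
  have g1 := Real.exp_le_exp.2 e1
  have g2 := Real.exp_le_exp.2 e2
  have g3 := Real.exp_le_exp.2 e3
  linarith

/-- the number of one ball condition -/
theorem GN.gsB (h : GN N l l₀ q b s t t₀ M A X Q₁ d) {k r u E : ℝ} (hk : 0 < k) (hr : 0 ≤ r)
    (hE : 0 ≤ E) (hu : 36864 * t₀ * M ^ 2 * (r / 2 + k * E) ≤ u) :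
    gsB s t k r u ≤ 2 * Real.exp (-E) ∧ 288 * (t - s) ^ 2 * r / s ≤ u := by
  have h0 := h.t0
  have hs := h.s0
  have hc := h.c0
  have hM : 0 < M := lt_of_lt_of_le one_pos h.M1
  have hM2 : 1 ≤ M ^ 2 := one_le_pow₀ h.M1
  have hrat := h.rat
  have hu0 : 0 ≤ u := le_trans (by positivity) hu
  have key : r / (2 * k) + E ≤ u / (36864 * t₀ * M ^ 2 * k) := by
    rw [le_div_iff₀ (by positivity)]
    refine le_trans (le_of_eq ?_) hu
    field_simp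
  refine ⟨?_, ?_⟩
  · unfold H663.gsB
    have e1 : r / (2 * k) - s * u / (1152 * (t - s) ^ 2 * k) ≤ -E := by
      have := mul_le_mul_of_nonneg_right hrat (show 0 ≤ u / (1152 * k) by positivity)
      have f1 : u / (36864 * t₀ * M ^ 2 * k) ≤ s * u / (1152 * (t - s) ^ 2 * k) := by
        refine le_trans (le_of_eq ?_) (this.trans (le_of_eq ?_))
        · field_simp
          ring
        · field_simp
      linarith
    have e2 : r / (2 * k) - u / (36 * (t - s) * k) ≤ -E := by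
      have f1 : u / (36864 * t₀ * M ^ 2 * k) ≤ u / (36 * (t - s) * k) := by
        apply div_le_div_of_nonneg_left hu0 (by positivity)
        have := h.chi
        have g1 : 36 * (t - s) ≤ 144 * t₀ := by linarith
        have g2 : 144 * t₀ ≤ 36864 * t₀ * M ^ 2 := by nlinarith
        nlinarith
      linarith
    have g1 := Real.exp_le_exp.2 e1
    have g2 := Real.exp_le_exp.2 e2
    linarith
  · rw [div_le_iff₀ hs]
    have g1 : (t - s) ^ 2 ≤ 32 * t₀ * M ^ 2 * s := by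
      have := hrat
      rw [div_le_div_iff₀ (by positivity) (by positivity), one_mul] at this
      linarith
    have g2 : 18432 * t₀ * M ^ 2 * r ≤ u := by
      refine le_trans ?_ hu
      have : 0 ≤ t₀ * M ^ 2 * (k * E) := by positivity
      nlinarith
    calc 288 * (t - s) ^ 2 * r ≤ 288 * (32 * t₀ * M ^ 2 * s) * r := by gcongr
      _ = (9216 * t₀ * M ^ 2 * r) * s := by ring
      _ ≤ u * s := by
          refine mul_le_mul_of_nonneg_right ?_ hs.le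
          have : 0 ≤ t₀ * M ^ 2 * r := by positivity
          linarith

end num

/-! ### the class with numbers -/

section final

variable {N l l₀ q : ℕ} [NeZero N] [NeZero (N / l)] {b s t t₀ M A X Q₁ d : ℝ}
  {ι₁ ι₂ : Type*} [Fintype ι₁] [Fintype ι₂]

omit [NeZero N] [NeZero (N / l)] in
/-- the site condition `hsd` of `gs_class` -/
lemma GN.hsd (h : GN N l l₀ q b s t t₀ M A X Q₁ d) (hb : 0 < b) :
    4 * Gam N t s (kap b) * (kap b / (16 * ((l₀ : ℝ) * l) ^ 2) *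
      (kap b * (X ^ 2 * t₀ / (12 * Q₁ ^ 2)) / (512 * (t - s) ^ 2 * ((l₀ : ℝ) * l) ^ 2) +
        2 * ((N / l : ℕ) : ℝ) ^ 2)) ≤ (1 : ℝ) ^ 2 := by
  have h0 := h.t0
  have hc := h.c0
  have hl := h.l0
  have hll := h.ll0
  have hk := kap_pos hb
  have hk1 := kap_le hb
  have hX := h.X0
  have hQ := h.Q0
  have hG := h.gam hb
  have hG0 := h.gam0 hb
  have hA : 0 < A := lt_of_lt_of_le one_pos h.A1
  have hlog : 0 ≤ Real.log N := Real.log_natCast_nonneg _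
  have h3 := h.n3
  rw [h.ρeq, one_pow]
  set H : ℝ := X ^ 2 / Q₁ ^ 2 with hH
  have hH0 : 0 < H := by positivity
  have g2 := h.tρ
  set ρ : ℝ := ((l₀ : ℝ) * l) ^ 2 with hρ
  have hρ0 : 0 < ρ := by positivity
  set n2 : ℝ := ((N / l : ℕ) : ℝ) ^ 2 with hn2
  have hn0 : 0 ≤ n2 := sq_nonneg _
  have hρi : 1 / ρ = t₀ * A ^ 2 := by
    rw [div_eq_iff hρ0.ne']
    linarith
  have f1 : kap b / (16 * ρ) ≤ t₀ * A ^ 2 / 16 := by
    have : kap b / (16 * ρ) = kap b * (1 / ρ) / 16 := by field_simp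
    rw [this, hρi]
    have := mul_le_mul_of_nonneg_right hk1 (show 0 ≤ t₀ * A ^ 2 by positivity)
    linarith
  have f2 : kap b * (t₀ * H / 12) / (512 * (t - s) ^ 2 * ρ) ≤ H * A ^ 2 := by
    have g1 : (t₀ / 2) ^ 2 ≤ (t - s) ^ 2 := pow_le_pow_left₀ (by positivity) h.clo 2
    have g3 : kap b * (t₀ * H / 12) / (512 * (t - s) ^ 2 * ρ) ≤
        1 * (t₀ * H / 12) / (512 * (t₀ / 2) ^ 2 * ρ) := by gcongr
    refine g3.trans ?_
    have e : 1 * (t₀ * H / 12) / (512 * (t₀ / 2) ^ 2 * ρ) = H / (1536 * t₀) * (1 / ρ) := by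
      field_simp
      norm_num
    rw [e, hρi]
    have e2 : H / (1536 * t₀) * (t₀ * A ^ 2) = H * A ^ 2 / 1536 := by field_simp
    rw [e2]
    have : 0 ≤ H * A ^ 2 := by positivity
    linarith
  have f3 : 0 ≤ kap b * (t₀ * H / 12) / (512 * (t - s) ^ 2 * ρ) := by positivity
  have f4 : kap b / (16 * ρ) *
      (kap b * (t₀ * H / 12) / (512 * (t - s) ^ 2 * ρ) + 2 * n2) ≤
      t₀ * A ^ 2 / 16 * (H * A ^ 2 + 2 * n2) :=
    mul_le_mul f1 (by linarith) (by linarith) (by positivity)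
  have f5 : 0 ≤ t₀ * A ^ 2 / 16 * (H * A ^ 2 + 2 * n2) := by positivity
  calc 4 * Gam N t s (kap b) * (kap b / (16 * ρ) *
        (kap b * (t₀ * H / 12) / (512 * (t - s) ^ 2 * ρ) + 2 * n2))
      ≤ 4 * Gam N t s (kap b) * (t₀ * A ^ 2 / 16 * (H * A ^ 2 + 2 * n2)) :=
        mul_le_mul_of_nonneg_left f4 (by positivity)
    _ ≤ 4 * (256 * M ^ 4 * (3 + Real.log N)) * (t₀ * A ^ 2 / 16 * (H * A ^ 2 + 2 * n2)) := by
        refine mul_le_mul_of_nonneg_right ?_ f5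
        linarith
    _ = 64 * M ^ 4 * (3 + Real.log N) * A ^ 2 * t₀ * (H * A ^ 2 + 2 * n2) := by ring
    _ ≤ 1 := h3

omit [NeZero N] [NeZero (N / l)] in
/-- the budget `hρ` of `gs_class` -/
lemma GN.hρ (h : GN N l l₀ q b s t t₀ M A X Q₁ d) (hb : 0 < b) {m : ℕ}
    (hm : (m : ℝ) ≤ (q : ℝ) ^ 2) :
    64 * (t - s) ^ 2 * m / (s * (l₀ : ℝ) ^ 2) +
      64 * (t - s) ^ 2 * ((l₀ : ℝ) * l) ^ 2 / kap b * d ≤ X ^ 2 * t₀ / (12 * Q₁ ^ 2) / 2 := by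
  have h0 := h.t0
  have hs := h.s0
  have hc := h.c0
  have hl := h.l0
  have hll := h.ll0
  have hk := kap_pos hb
  have hX := h.X0
  have hQ := h.Q0
  have hA : 0 < A := lt_of_lt_of_le one_pos h.A1
  have hM : 0 < M := lt_of_lt_of_le one_pos h.M1
  have H1 := h.H1
  have H2 := h.H2
  have hd0 := h.dd
  rw [h.ρeq]
  set H : ℝ := X ^ 2 / Q₁ ^ 2 with hH
  have hH0 : 0 < H := by positivity
  have g2 := h.tρ
  set ρ : ℝ := ((l₀ : ℝ) * l) ^ 2 with hρ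
  have hρ0 : 0 < ρ := by positivity
  have hml : (m : ℝ) / (l₀ : ℝ) ^ 2 ≤ A ^ 2 := by
    rw [div_le_iff₀ (by positivity), ← mul_pow, ← h.A0]
    exact hm
  have hrat : (t - s) ^ 2 / s ≤ 32 * t₀ * M ^ 2 := by
    have := h.rat
    rw [div_le_div_iff₀ (by positivity) (by positivity), one_mul] at this
    rw [div_le_iff₀ hs]
    linarith
  have f1 : 64 * (t - s) ^ 2 * m / (s * (l₀ : ℝ) ^ 2) ≤ t₀ * (2048 * (A ^ 2 * M ^ 2)) := by
    have e : 64 * (t - s) ^ 2 * m / (s * (l₀ : ℝ) ^ 2) =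
        64 * ((t - s) ^ 2 / s) * ((m : ℝ) / (l₀ : ℝ) ^ 2) := by field_simp
    rw [e]
    calc 64 * ((t - s) ^ 2 / s) * ((m : ℝ) / (l₀ : ℝ) ^ 2)
        ≤ 64 * (32 * t₀ * M ^ 2) * A ^ 2 := by gcongr
      _ = _ := by ring
  have f2 : 64 * (t - s) ^ 2 * ρ / kap b * d ≤ t₀ * (H / 384) := by
    have g1 : (t - s) ^ 2 ≤ (4 * t₀) ^ 2 := pow_le_pow_left₀ hc.le h.chi 2
    have g3 : 64 * (t - s) ^ 2 * ρ / kap b * d ≤ 64 * (4 * t₀) ^ 2 * ρ / kap b * d := by gcongr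
    refine g3.trans ?_
    have e : 64 * (4 * t₀) ^ 2 * ρ / kap b * d = t₀ * (1024 * (t₀ * ρ) / kap b * d) := by
      field_simp
      ring
    rw [e]
    refine mul_le_mul_of_nonneg_left ?_ h0.le
    have e3 : t₀ * ρ = 1 / A ^ 2 := by
      rw [eq_div_iff (by positivity)]
      exact g2
    rw [e3]
    have e4 : 1024 * (1 / A ^ 2) / kap b * d = 1024 * d / (kap b * A ^ 2) := by field_simp
    rw [e4, div_le_iff₀ (by positivity)]
    have e5 : H / 384 * (kap b * A ^ 2) = kap b * A ^ 2 * H / 384 := by ring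
    rw [e5]
    linarith
  have f3 : t₀ * (2048 * (A ^ 2 * M ^ 2)) ≤ t₀ * (H / 96) :=
    mul_le_mul_of_nonneg_left (by linarith) h0.le
  have f4 : 0 ≤ t₀ * H := by positivity
  linarith

/-- **the class at a source, explicit numbers** -/
theorem gs_num (G : GN N l l₀ q b s t t₀ M A X Q₁ d) (hb : 0 < b)
    (hω : om0 N b (MC N l t (2 * s)) ≤ 1 / 16) (x₀ : V N)
    (Bl : ι₁ → Finset (V (N / l))) (hBl : ∀ i, ((Bl i).card : ℝ) ≤ (q : ℝ) ^ 2)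
    {T : Matrix (V (N / l)) (V (N / l)) ℝ} (hT : TC T) {δ : ℝ}
    (hAP : ∀ i, (gau (V (N / l))).real
      {g | δ < rsC N l b t₀ ((X * √t₀) • (dB (Bl i) *ᵥ g))} ≤ 1 / 30)
    {e : V (N / l) → ℝ} (hen : Neu e)
    (hm : ∀ i, rsC N l b t₀ ((3 * Q₁) • (bE (Bl i) q T *ᵥ (cobV N l *ᵥ ((cobV N l)ᵀ *ᵥ e +
      (t - s) • (Gm (nMC N l b t s x₀) *ᵥ ((cobV N l)ᵀ *ᵥ e)))))) ≤ δ)
    (hd : qf (Rk s (kap b / (l : ℝ) ^ 2)) e -
      qf (Gm (nMC N l b t s x₀)) ((cobV N l)ᵀ *ᵥ e) ≤ d)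
    (he : 4 * Gam N t s (kap b) * ∑ i, e i ^ 2 ≤ (1 : ℝ) ^ 2)
    (F : ι₂ → Matrix (V (N / l)) (V (N / l)) ℝ) (hF : ∀ j w, Neu (F j w)) {k r u : ι₂ → ℝ}
    (hk : ∀ j, 0 < k j) (hFk : ∀ j, ∀ φ : V (N / l) → ℝ,
      ∑ i, ((F j)ᵀ *ᵥ φ) i ^ 2 ≤ k j * ∑ i, φ i ^ 2)
    (hr0 : ∀ j, 0 ≤ r j) (hFr : ∀ j, (F j * (F j)ᵀ).trace ≤ r j)
    {E : ℝ} (hE : 0 < E) (hu : ∀ j, 36864 * t₀ * M ^ 2 * (r j / 2 + k j * E) ≤ u j)
    (hm2 : ∀ j, 9 * ∑ w, (F j *ᵥ (cobV N l *ᵥ ((cobV N l)ᵀ *ᵥ e +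
      (t - s) • (Gm (nMC N l b t s x₀) *ᵥ ((cobV N l)ᵀ *ᵥ e))))) w ^ 2 ≤ u j)
    {σ : ℝ} (hσ : σ ∈ Set.Icc (0 : ℝ) 1)
    (hR : Rs (nMC N l b t s x₀) (σ • ((cobV N l)ᵀ *ᵥ e)) ≤ 1) :
    Ech (nMC N l b t s x₀) (σ • ((cobV N l)ᵀ *ᵥ e)) (obsN N l (t - s))
      (ind (cls N l b t₀ Q₁ δ q T Bl F u)ᶜ) ≤
      Fintype.card ι₁ * (5 * Real.exp (-(kap b * (X ^ 2 / Q₁ ^ 2) / (393216 * M ^ 2)))) +
        Fintype.card ι₂ * (2 * Real.exp (-E)) := by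
  have hM : 0 < M := lt_of_lt_of_le one_pos G.M1
  have h0 := G.t0
  have hu0 : ∀ j, 0 < u j := fun j => by
    refine lt_of_lt_of_le ?_ (hu j)
    have := hk j
    have := hr0 j
    positivity
  refine gs_class hb G.dl G.s0 G.st hω (kap_pos hb) zero_le_one (kap_cs hb) le_rfl x₀ G.dl0 G.dq
    Bl hT G.t0 G.X0 G.Q0 hAP G.ha hen hm G.dd hd he (G.hsd hb) (fun i => G.hρ hb (hBl i)) F hF hk
    hFk hFr hu0 hm2 (fun j => (G.gsB (hk j) (hr0 j) hE.le (hu j)).2) ?_ hσ hR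
  refine add_le_add ?_ ?_
  · refine (Finset.sum_le_sum fun i _ => G.gsA hb (hBl i)).trans (le_of_eq ?_)
    rw [Finset.sum_const, nsmul_eq_mul, Finset.card_univ]
  · refine (Finset.sum_le_sum fun j _ =>
      (G.gsB (hk j) (hr0 j) hE.le (hu j)).1).trans (le_of_eq ?_)
    rw [Finset.sum_const, nsmul_eq_mul, Finset.card_univ]

/-- **(T0) with numbers**: block source of amplitude `Xm` at the mass `tm`, block `B` of side
`tm^(-1/2)`, offset `d = 8 Xm² (E + 1/2 + 2 (1 + log (N/l)) / κ)` -/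
theorem off_num (G : GN N l l₀ q b s t t₀ M A X Q₁ d) (hb : 0 < b) (x₀ : V N)
    {Xm tm E : ℝ} (hXm : 0 < Xm) (htm : 0 < tm) (h1 : tm ≤ 2 * s) (h2 : s ≤ 4 * tm)
    (hE : 0 ≤ E) (B : Finset (V (N / l))) (hB : (B.card : ℝ) * (tm * (l : ℝ) ^ 2) ≤ 1)
    (hd : 8 * Xm ^ 2 * (E + 1 / 2 + 2 * (1 + Real.log ((N / l : ℕ) : ℝ)) / kap b) ≤ d)
    (hn : 1024 * M ^ 4 * (3 + Real.log N) * (4 * Xm ^ 2 * tm * (B.card / 2 + E)) ≤ 1) :
    (gau (V (N / l))).real {g | ¬ (qf (Rk s (kap b / (l : ℝ) ^ 2)) (bsrc (Xm * √tm) B g) -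
        qf (Gm (nMC N l b t s x₀)) ((cobV N l)ᵀ *ᵥ bsrc (Xm * √tm) B g) ≤ d ∧
        4 * Gam N t s (kap b) * ∑ i, bsrc (Xm * √tm) B g i ^ 2 ≤ (1 : ℝ) ^ 2)} ≤
      2 * Real.exp (-E) := by
  have hc : 0 < Xm * √tm := mul_pos hXm (Real.sqrt_pos.2 htm)
  have hc2 : (Xm * √tm) ^ 2 = Xm ^ 2 * tm := by rw [mul_pow, Real.sq_sqrt htm.le]
  have hs := G.s0
  have hl := G.l0
  have hN := G.N0
  have hk := kap_pos hb
  have hlog : 0 ≤ Real.log ((N / l : ℕ) : ℝ) := Real.log_natCast_nonneg _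
  have hlogN : 0 ≤ Real.log N := Real.log_natCast_nonneg _
  have hM : 0 < M := lt_of_lt_of_le one_pos G.M1
  have hmain := off_src hb G.dl hs G.st hk x₀ hc B d
    (4 * (Xm ^ 2 * tm) * (B.card / 2 + E)) (cs := 1) ?_ (G.gam0 hb)
  · refine hmain.trans ?_
    rw [hc2]
    have e1 : B.card * ((l : ℝ) ^ 2 / (N : ℝ) ^ 2 +
        s * (l : ℝ) ^ 2 * (1 + Real.log ((N / l : ℕ) : ℝ)) / kap b) / 2 -
        s * d / (4 * (Xm ^ 2 * tm)) ≤ -E := by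
      generalize Real.log ((N / l : ℕ) : ℝ) = w at hlog hd ⊢
      have f1 : (B.card : ℝ) * ((l : ℝ) ^ 2 / (N : ℝ) ^ 2) ≤ 1 := by
        have g1 : (B.card : ℝ) ≤ ((N / l : ℕ) : ℝ) ^ 2 := by
          have h5 : (B.card : ℝ) ≤ (Fintype.card (V (N / l)) : ℝ) := by
            exact_mod_cast Finset.card_le_univ B
          rwa [TM.H764.card_V] at h5
        have g2 : ((N / l : ℕ) : ℝ) ^ 2 * ((l : ℝ) ^ 2 / (N : ℝ) ^ 2) = 1 := by
          rw [Nat.cast_div G.dl hl.ne']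
          field_simp
        rw [← g2]
        exact mul_le_mul_of_nonneg_right g1 (by positivity)
      have f2 : (B.card : ℝ) * (s * (l : ℝ) ^ 2 * (1 + w) / kap b) ≤ 4 * (1 + w) / kap b := by
        have g1 : (B.card : ℝ) * (s * (l : ℝ) ^ 2) ≤ 4 := by
          calc (B.card : ℝ) * (s * (l : ℝ) ^ 2) ≤ B.card * (4 * tm * (l : ℝ) ^ 2) := by gcongr
            _ = 4 * (B.card * (tm * (l : ℝ) ^ 2)) := by ring
            _ ≤ 4 := by linarith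
        have g2 := mul_le_mul_of_nonneg_right g1 (show 0 ≤ (1 + w) / kap b by positivity)
        calc (B.card : ℝ) * (s * (l : ℝ) ^ 2 * (1 + w) / kap b)
            = B.card * (s * (l : ℝ) ^ 2) * ((1 + w) / kap b) := by ring
          _ ≤ 4 * ((1 + w) / kap b) := g2
          _ = _ := by ring
      have f3 : E + 1 / 2 + 2 * (1 + w) / kap b ≤ s * d / (4 * (Xm ^ 2 * tm)) := by
        rw [le_div_iff₀ (by positivity)]
        have g1 : 0 ≤ E + 1 / 2 + 2 * (1 + w) / kap b := by positivity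
        have g2 : tm * (8 * Xm ^ 2 * (E + 1 / 2 + 2 * (1 + w) / kap b)) ≤ 2 * s * d :=
          mul_le_mul h1 hd (by positivity) (by positivity)
        linarith
      have f4 : B.card * ((l : ℝ) ^ 2 / (N : ℝ) ^ 2 + s * (l : ℝ) ^ 2 * (1 + w) / kap b) / 2 =
          (B.card * ((l : ℝ) ^ 2 / (N : ℝ) ^ 2)) / 2 +
            (B.card * (s * (l : ℝ) ^ 2 * (1 + w) / kap b)) / 2 := by ring
      rw [f4]
      have f5 : 4 * (1 + w) / kap b / 2 = 2 * (1 + w) / kap b := by ring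
      linarith
    have e2 : (B.card : ℝ) / 2 - 4 * (Xm ^ 2 * tm) * (B.card / 2 + E) /
        (4 * (Xm ^ 2 * tm)) ≤ -E := by
      have : 4 * (Xm ^ 2 * tm) * (B.card / 2 + E) / (4 * (Xm ^ 2 * tm)) = B.card / 2 + E := by
        field_simp
      rw [this]
      linarith
    have g1 := Real.exp_le_exp.2 e1
    have g2 := Real.exp_le_exp.2 e2
    linarith
  · have hG := G.gam hb
    have h3 : 0 ≤ 4 * (Xm ^ 2 * tm) * (B.card / 2 + E) := by positivity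
    have h4 := mul_le_mul_of_nonneg_right hG h3
    have e : 1024 * M ^ 4 * (3 + Real.log N) * (4 * Xm ^ 2 * tm * (B.card / 2 + E)) =
        4 * (256 * M ^ 4 * (3 + Real.log N) * (4 * (Xm ^ 2 * tm) * (B.card / 2 + E))) := by ring
    rw [e] at hn
    rw [one_pow]
    linarith

end final

end

end Vale.Agent.P159.H663
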