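import Vale.Agent.P159.H663.Gs

/-!
P159 / module GS (helper663), part 2: the block condition
`Rs (wt N b t₀) (Q₁ cobVᵀ 1_B (1 - Av) T cobV J) ≤ δ` (S1 of the good set of sources) under the
exact law at a source `e`, `Rs μ' e ≤ 1`.

* `row_neu'`, `bE_neu`, `ht_blk_neu'` (no condition on the zero mode of `T`);
* `gs_rs` : probability `≤ HT + 2 exp (- X² t₀ / (63 Q₁² (t - s)))`, radius
  `ρ = X² t₀ / (12 Q₁²)` of the ball from AP.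
-/

namespace Vale.Agent.P159.H663

open Finset Matrix MeasureTheory ProbabilityTheory
open Vale.Agent.P159.TM.H104 (EM Ex Cv K3 Lg li nh Gr)
open Vale.Agent.P159.TM.H764 (EE grd)
open Vale.Agent.P159.TM.Spec (V)
open Vale.Agent.P159.TM.SpecC (Tor wT)
open Vale.Agent.P159.H37
open Vale.Agent.P159.H864
open Vale.Agent.P159.H612 (om0)
open Vale.Agent.P159.H859 (Rk Avg dB ravg psd_of)
open Vale.Agent.P159.H239 (indh tail_split)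
open Vale.Agent.P159.H816 (Gam Hb)
open Vale.Agent.P159.H963 (Neu pin nM nMC MF Pn Gnc obsN)

noncomputable section

section gen

variable {n : ℕ} [NeZero n]

/-- neutral rows are preserved -/
lemma row_neu' {I : Type*} {T : Matrix (V n) (V n) ℝ} (hT : TC T) {F : Matrix I (V n) ℝ} {i : I}
    (hF : Neu (F i)) : Neu ((F * T) i) := by
  rw [row_contr hT F i]
  unfold H963.Neu at hF ⊢
  rw [ti_sum hT.ti]
  have : ∑ y, (fun y => F i y) y = 0 := hF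
  rw [this, mul_zero]

lemma dB_mul_row (B : Finset (V n)) {F : Matrix (V n) (V n) ℝ}
    (hF : ∀ x ∈ B, ∑ y, F x y = 0) (x : V n) : Neu ((dB B * F) x) := by
  unfold H963.Neu
  have : ∀ y, (dB B * F) x y = if x ∈ B then F x y else 0 := fun y => dB_mul_apply B F x y
  simp only [this]
  split_ifs with h
  · exact hF x h
  · simp

lemma cellP_row_one {q : ℕ} (hq : q ∣ n) (x : V n) : ∑ y, cellP n q x y = 1 := by
  have := ne_div hq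
  exact H963.cellP_ones hq x

/-- rows of the block cut -/
lemma bE_neu {q : ℕ} (hq : q ∣ n) (B : Finset (V n)) {T : Matrix (V n) (V n) ℝ} (hT : TC T)
    (x : V n) : Neu (bE B q T x) := by
  refine row_neu' hT (dB_mul_row B (fun x _ => ?_) x)
  simp only [Matrix.sub_apply, Finset.sum_sub_distrib, cellP_row_one hq]
  simp [Matrix.one_apply]

lemma cE1_neu {l₀ q : ℕ} (h0 : l₀ ∣ n) (hq : q ∣ n) (B : Finset (V n))
    {T : Matrix (V n) (V n) ℝ} (hT : TC T) (x : V n) : Neu (cE1 B l₀ (cellP n q) T x) := by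
  refine row_neu' hT (dB_mul_row B (fun x _ => ?_) x)
  simp only [Matrix.sub_apply, Finset.sum_sub_distrib, cellP_row_one hq, cellP_row_one h0,
    sub_self]

lemma cE2_neu {l₀ : ℕ} (h0 : l₀ ∣ n) (B : Finset (V n))
    {T : Matrix (V n) (V n) ℝ} (hT : TC T) (x : V n) : Neu (cE2 B l₀ T x) := by
  refine row_neu' hT (dB_mul_row B (fun x _ => ?_) x)
  simp only [Matrix.sub_apply, Finset.sum_sub_distrib, cellP_row_one h0]
  simp [Matrix.one_apply]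

lemma dB_idem (B : Finset (V n)) : dB B * dB B = dB B := by
  unfold H859.dB
  rw [diagonal_mul_diagonal]
  congr 1
  funext x
  split_ifs <;> simp

/-- the cut is supported in the block -/
lemma bE_supp (B : Finset (V n)) (q : ℕ) (T : Matrix (V n) (V n) ℝ) (v : V n → ℝ) :
    dB B *ᵥ (bE B q T *ᵥ v) = bE B q T *ᵥ v := by
  unfold bE
  rw [mulVec_mulVec, ← Matrix.mul_assoc, ← Matrix.mul_assoc, dB_idem]

/-- the fine projection is a contraction -/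
lemma fineP_sq_le {q : ℕ} (hq : q ∣ n) (u : V n → ℝ) :
    ∑ x, ((1 - cellP n q) *ᵥ u) x ^ 2 ≤ ∑ x, u x ^ 2 := by
  have := ne_div hq
  have h1 : ∑ x, ((1 - cellP n q) *ᵥ u) x ^ 2 = qf (1 - cellP n q) u := by
    have h2 := qf_mul_tr (1 - cellP n q) u
    have h3 : (1 - cellP n q)ᵀ = 1 - cellP n q := by
      rw [transpose_sub, transpose_one, cellP_tr]
    rw [h3] at h2
    rw [← h2]
    congr 1
    rw [Matrix.mul_sub, Matrix.mul_one, Matrix.sub_mul, Matrix.one_mul, cellP_idem hq, sub_self,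
      sub_zero]
  have h4 : qf (1 : Matrix (V n) (V n) ℝ) u = ∑ x, u x ^ 2 := by
    rw [qf_eq, one_mulVec, dot_self]
  rw [h1, H864.qf_sub_mat, h4]
  linarith [qf_cellP_nonneg hq u]

lemma bE_tr {q : ℕ} (B : Finset (V n)) {T : Matrix (V n) (V n) ℝ} (hT : TC T) (φ : V n → ℝ) :
    (bE B q T)ᵀ *ᵥ φ = T *ᵥ ((1 - cellP n q) *ᵥ (dB B *ᵥ φ)) := by
  unfold bE
  rw [transpose_mul, transpose_mul, dB_tr, hT.ti.transpose, transpose_sub, cellP_tr,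
    transpose_one, ← mulVec_mulVec, ← mulVec_mulVec]

/-- `E Eᵀ ≤ 1_B` -/
lemma bE_psd {q : ℕ} (hq : q ∣ n) (B : Finset (V n)) {T : Matrix (V n) (V n) ℝ} (hT : TC T)
    (c : ℝ) : ((c • dB B) * (c • dB B)ᵀ - (c • bE B q T) * (c • bE B q T)ᵀ).PosSemidef := by
  refine psd_of ?_ fun φ => ?_
  · rw [transpose_sub, transpose_mul, transpose_mul, transpose_transpose, transpose_transpose]
  · rw [H864.qf_sub_mat, qf_mul_tr, qf_mul_tr, sub_nonneg]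
    have e : ∀ F : Matrix (V n) (V n) ℝ, ∑ i, ((c • F)ᵀ *ᵥ φ) i ^ 2 =
        c ^ 2 * ∑ i, (Fᵀ *ᵥ φ) i ^ 2 := by
      intro F
      rw [transpose_smul, smul_mulVec, Finset.mul_sum]
      exact Finset.sum_congr rfl fun i _ => by rw [Pi.smul_apply, smul_eq_mul, mul_pow]
    rw [e, e]
    refine mul_le_mul_of_nonneg_left ?_ (sq_nonneg c)
    rw [bE_tr B hT, dB_tr]
    exact (hT.contr _).trans (fineP_sq_le hq _)

end gen

section blocks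

variable {N l : ℕ} [NeZero N] [NeZero (N / l)] {b t τ s κ cs : ℝ}

/-- **HT on a block, neutral model**, any zero mode of `T` -/
theorem ht_blk_neu' (hb : 0 < b) (hl : l ∣ N) (hτ : 0 < τ) (h : τ ≤ t)
    (hω : om0 N b (MC N l t (2 * τ)) ≤ 1 / 16) (hκ : 0 < κ)
    (hcs0 : 0 ≤ cs) (hcs : κ * (b + 12 * max b 1 ^ 2 * cs ^ 2) ≤ 1) (hcs1 : cs ≤ 1) (x₀ : V N)
    {c : ℝ} (hc : 0 < c) {l₀ q : ℕ} (h0 : l₀ ∣ q) (hq : q ∣ N / l) (B : Finset (V (N / l)))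
    {T : Matrix (V (N / l)) (V (N / l)) ℝ} (hT : TC T)
    {e : V (N / l) → ℝ} (hen : Neu e) (hR : Rs (nMC N l b t τ x₀) ((cobV N l)ᵀ *ᵥ e) ≤ 1)
    {d : ℝ} (hd : qf (Rk τ (κ / (l : ℝ) ^ 2)) e -
      qf (Gm (nMC N l b t τ x₀)) ((cobV N l)ᵀ *ᵥ e) ≤ d)
    (he : 4 * Gam N t τ κ * ∑ i, e i ^ 2 ≤ cs ^ 2) {ρ : ℝ} (hρ0 : 0 ≤ ρ)
    (hs : 4 * Gam N t τ κ * (κ / (16 * ((l₀ : ℝ) * l) ^ 2) *
      (κ * ρ / (512 * c ^ 2 * ((l₀ : ℝ) * l) ^ 2) + 2 * ((N / l : ℕ) : ℝ) ^ 2)) ≤ cs ^ 2)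
    (hρ : 64 * c ^ 2 * B.card / (τ * (l₀ : ℝ) ^ 2) + 64 * c ^ 2 * ((l₀ : ℝ) * l) ^ 2 / κ * d ≤
      ρ / 2) :
    Ex (nMC N l b t τ x₀) ((cobV N l)ᵀ *ᵥ e) (indh {h | ρ < ∑ w,
      (((c • (bE B q T * cobV N l)) *ᵥ
        (re h - Gm (nMC N l b t τ x₀) *ᵥ ((cobV N l)ᵀ *ᵥ e))) w) ^ 2}) ≤
      Real.exp (B.card / (2 * (l₀ : ℝ) ^ 2) - τ * ρ / (512 * c ^ 2)) +
        2 * Real.exp (d / 2 +
          B.card * (κ / (τ * (N : ℝ) ^ 2) + (1 + Real.log ((N / l : ℕ) : ℝ))) / (8 * (l₀ : ℝ) ^ 2) -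
          κ * ρ / (1024 * c ^ 2 * ((l₀ : ℝ) * l) ^ 2)) := by
  have hlR : (0 : ℝ) < l := by exact_mod_cast l_pos hl
  have hl0 : (0 : ℝ) < l₀ := by
    exact_mod_cast Nat.pos_of_dvd_of_pos (h0.trans hq) (NeZero.pos _)
  have hqR : (0 : ℝ) < q := by exact_mod_cast Nat.pos_of_dvd_of_pos hq (NeZero.pos _)
  have hlq : (l₀ : ℝ) ≤ q := by
    exact_mod_cast Nat.le_of_dvd (Nat.pos_of_dvd_of_pos hq (NeZero.pos _)) h0
  have hκ' : 0 < κ / (l : ℝ) ^ 2 := by positivity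
  have h0n := h0.trans hq
  have hadd : cE1 B l₀ (cellP (N / l) q) T + cE2 B l₀ T = bE B q T := cE_add _ _ _ _
  have hr₁ : (cE1 B l₀ (cellP (N / l) q) T * (cE1 B l₀ (cellP (N / l) q) T)ᵀ).trace ≤
      4 * B.card / (l₀ : ℝ) ^ 2 := by
    refine (E1_trace h0n (cellP (N / l) q) hT).trans ?_
    rw [bA_trace hq]
    have h5 : (B.card : ℝ) / (q : ℝ) ^ 2 ≤ (B.card : ℝ) / (l₀ : ℝ) ^ 2 := by
      refine div_le_div_of_nonneg_left (Nat.cast_nonneg _) (by positivity) ?_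
      exact pow_le_pow_left₀ hl0.le hlq 2
    have h6 : 2 * (B.card : ℝ) / (l₀ : ℝ) ^ 2 + 2 * ((B.card : ℝ) / (l₀ : ℝ) ^ 2) =
        4 * B.card / (l₀ : ℝ) ^ 2 := by ring
    linarith
  have hr₂ : ∑ w, qf (Rk τ (κ / (l : ℝ) ^ 2)) (cE2 B l₀ T w) ≤
      B.card * (4 * (1 / (τ * ((N / l : ℕ) : ℝ) ^ 2) +
        (1 + Real.log ((N / l : ℕ) : ℝ)) / (κ / (l : ℝ) ^ 2))) := by
    have h5 := E2_trace (B := B) h0n hT hτ hκ'
    rwa [H859.trace_conj] at h5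
  have hmain := ht_neu hb hl hτ h hω hκ hcs0 hcs hcs1 x₀ hc
    (E₁ := cE1 B l₀ (cellP (N / l) q) T) (E₂ := cE2 B l₀ T)
    (cE1_neu h0n hq B hT) (cE2_neu h0n B hT) (k₁ := 2 * (1 + 1)) (by norm_num)
    (E1_sq h0n hT (bA_sq hq B)) hr₁
    (k₂ := 16 * (l₀ : ℝ) ^ 2 / (κ / (l : ℝ) ^ 2)) (by positivity) (E2_op h0n hT hτ hκ') hr₂
    (E2_sq h0n hT) hen hR hd he hρ0 (by
      refine le_trans (le_of_eq ?_) hs
      rw [TM.H764.card_V]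
      congr 1
      field_simp
      ring) (by
      refine le_trans (le_of_eq ?_) hρ
      field_simp
      ring)
  rw [hadd] at hmain
  refine hmain.trans (add_le_add (le_of_eq ?_) (le_of_eq ?_))
  · congr 1
    field_simp
    ring
  · rw [blk_num hl h0n hτ hκ B]
    congr 3
    field_simp
    ring

/-- the functional of the block condition -/
def rsC (N l : ℕ) [NeZero N] [NeZero (N / l)] (b t₀ : ℝ) (v : V (N / l) → ℝ) : ℝ :=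
  Rs (wt N b t₀) ((cobV N l)ᵀ *ᵥ v)

lemma rsC_meas (hb : 0 ≤ b) {t₀ : ℝ} (ht : 0 < t₀) : Measurable (rsC N l b t₀) := by
  have h1 : Measurable fun v : V (N / l) → ℝ => (cobV N l)ᵀ *ᵥ v := by fun_prop
  exact (H586.rs_meas (H789.em_wt hb ht)).comp h1

lemma rsC_convex (hb : 0 ≤ b) {t₀ : ℝ} (ht : 0 < t₀) :
    ConvexOn ℝ Set.univ (rsC N l b t₀) := by
  have h1 := H789.Rs_convex (H789.em_wt (N := N) hb ht) H789.ev_wt (H789.pk_wt hb ht)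
  exact h1.comp_linearMap (Matrix.mulVecLin (cobV N l)ᵀ)

lemma rsC_even (v : V (N / l) → ℝ) {t₀ : ℝ} : rsC N l b t₀ (-v) = rsC N l b t₀ v := by
  unfold rsC
  rw [mulVec_neg, H789.Rs_neg H789.ev_wt]

/-- the convex set of the block condition -/
def cRs (N l : ℕ) [NeZero N] [NeZero (N / l)] (b t₀ Q₁ δ : ℝ) : Set (V (N / l) → ℝ) :=
  {v | rsC N l b t₀ (Q₁ • v) ≤ δ}

lemma cRs_meas (hb : 0 ≤ b) {t₀ : ℝ} (ht : 0 < t₀) (Q₁ δ : ℝ) :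
    MeasurableSet (cRs N l b t₀ Q₁ δ) :=
  measurableSet_le ((rsC_meas hb ht).comp (measurable_const_smul Q₁)) measurable_const

lemma cRs_convex (hb : 0 ≤ b) {t₀ : ℝ} (ht : 0 < t₀) (Q₁ δ : ℝ) :
    Convex ℝ (cRs N l b t₀ Q₁ δ) := by
  intro x hx y hy a c ha hc hac
  have h1 := (rsC_convex (N := N) (l := l) hb ht).2 (Set.mem_univ (Q₁ • x))
    (Set.mem_univ (Q₁ • y)) ha hc hac
  have hx' : rsC N l b t₀ (Q₁ • x) ≤ δ := hx
  have hy' : rsC N l b t₀ (Q₁ • y) ≤ δ := hy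
  have e : Q₁ • (a • x + c • y) = a • Q₁ • x + c • Q₁ • y := by module
  show rsC N l b t₀ (Q₁ • (a • x + c • y)) ≤ δ
  rw [e]
  simp only [smul_eq_mul] at h1
  have h2 := mul_le_mul_of_nonneg_left hx' ha
  have h3 := mul_le_mul_of_nonneg_left hy' hc
  have h4 : a * δ + c * δ = δ := by rw [← add_mul, hac, one_mul]
  linarith

/-- the ball inside the convex set of the block condition -/
theorem cRs_ball (hb : 0 ≤ b) {t₀ : ℝ} (ht₀ : 0 < t₀) {X Q₁ δ : ℝ} (hX : 0 < X) (hQ : 0 < Q₁)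
    (B : Finset (V (N / l)))
    (hAP : (gau (V (N / l))).real {g | δ < rsC N l b t₀ ((X * √t₀) • (dB B *ᵥ g))} ≤ 1 / 30)
    {w : V (N / l) → ℝ} (hw : dB B *ᵥ w = w) (hρ : ∑ x, w x ^ 2 ≤ X ^ 2 * t₀ / (12 * Q₁ ^ 2)) :
    (3 : ℝ) • w ∈ cRs N l b t₀ Q₁ δ := by
  have hst : 0 < √t₀ := Real.sqrt_pos.2 ht₀
  have hp : (gau (V (N / l))).real {g | δ < rsC N l b t₀ (((X * √t₀) • dB B) *ᵥ g)} ≤ 1 / 30 := by
    simpa only [smul_mulVec] using hAP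
  have hh : ∑ i, ((6 * Q₁ / (X * √t₀)) • w) i ^ 2 ≤ 3 := by
    have e : ∑ i, ((6 * Q₁ / (X * √t₀)) • w) i ^ 2 = (6 * Q₁ / (X * √t₀)) ^ 2 * ∑ i, w i ^ 2 := by
      rw [Finset.mul_sum]
      exact Finset.sum_congr rfl fun i _ => by rw [Pi.smul_apply, smul_eq_mul, mul_pow]
    rw [e]
    refine (mul_le_mul_of_nonneg_left hρ (sq_nonneg _)).trans (le_of_eq ?_)
    rw [div_pow, mul_pow, mul_pow, Real.sq_sqrt ht₀.le]
    field_simp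
    ring
  have h1 := H586.cm_f (rsC_meas hb ht₀) (rsC_convex hb ht₀) (fun v => rsC_even v)
    ((X * √t₀) • dB B) hp hh
  have e2 : (1 / 2 : ℝ) • (((X * √t₀) • dB B) *ᵥ ((6 * Q₁ / (X * √t₀)) • w)) =
      Q₁ • (3 : ℝ) • w := by
    rw [smul_mulVec, mulVec_smul, hw, smul_smul, smul_smul, smul_smul]
    congr 1
    field_simp
    ring
  rw [e2] at h1
  exact h1

/-- the noise in the block condition -/
theorem cRs_noise (hb : 0 ≤ b) {t₀ : ℝ} (ht₀ : 0 < t₀) {X Q₁ δ : ℝ} (hX : 0 < X) (hQ : 0 < Q₁)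
    {q : ℕ} (hq : q ∣ N / l) (B : Finset (V (N / l))) {T : Matrix (V (N / l)) (V (N / l)) ℝ}
    (hT : TC T)
    (hAP : (gau (V (N / l))).real {g | δ < rsC N l b t₀ ((X * √t₀) • (dB B *ᵥ g))} ≤ 1 / 30)
    {c : ℝ} (hc : 0 < c) (ha : 9 * Q₁ ^ 2 * c ≤ X ^ 2 * t₀) :
    ∫ g : V (N / l) → ℝ, Set.indicator {g : V (N / l) → ℝ |
      (3 : ℝ) • (√c • (bE B q T *ᵥ g)) ∉ cRs N l b t₀ Q₁ δ} (fun _ => (1 : ℝ)) g
      ∂(gau (V (N / l))) ≤ 2 * Real.exp (-(X ^ 2 * t₀ / (63 * Q₁ ^ 2 * c))) := by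
  have hst : 0 < √t₀ := Real.sqrt_pos.2 ht₀
  have hsc : 0 < √c := Real.sqrt_pos.2 hc
  set a : ℝ := X * √t₀ / (3 * Q₁ * √c) with had
  have ha1 : 1 ≤ a := by
    rw [had, le_div_iff₀ (by positivity), one_mul]
    refine le_of_sq_le_sq ?_ (by positivity)
    rw [mul_pow, mul_pow, mul_pow, Real.sq_sqrt hc.le, Real.sq_sqrt ht₀.le]
    linarith
  have hp : (gau (V (N / l))).real {g | δ < rsC N l b t₀ (((X * √t₀) • dB B) *ᵥ g)} ≤ 1 / 30 := by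
    simpa only [smul_mulVec] using hAP
  have h1 := H586.fern_small_f (rsC_meas (N := N) (l := l) hb ht₀) (rsC_convex hb ht₀)
    (fun v => rsC_even v) (A := (X * √t₀) • bE B q T) (B := (X * √t₀) • dB B)
    (bE_psd hq B hT _) hp ha1
  have hset : {g : V (N / l) → ℝ | (3 : ℝ) • (√c • (bE B q T *ᵥ g)) ∉ cRs N l b t₀ Q₁ δ} =
      {g | δ < rsC N l b t₀ (a⁻¹ • (((X * √t₀) • bE B q T) *ᵥ g))} := by
    ext g
    have e : a⁻¹ • (((X * √t₀) • bE B q T) *ᵥ g) = Q₁ • (3 : ℝ) • (√c • (bE B q T *ᵥ g)) := by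
      rw [smul_mulVec, smul_smul, smul_smul, smul_smul]
      congr 1
      rw [had]
      field_simp
    rw [Set.mem_ofPred_eq, Set.mem_ofPred_eq, e]
    show ¬ (rsC N l b t₀ (Q₁ • (3 : ℝ) • (√c • (bE B q T *ᵥ g))) ≤ δ) ↔ _
    exact not_le
  rw [hset]
  have hms : MeasurableSet {g : V (N / l) → ℝ |
      δ < rsC N l b t₀ (a⁻¹ • (((X * √t₀) • bE B q T) *ᵥ g))} := by
    have hm1 : Measurable fun g : V (N / l) → ℝ => a⁻¹ • (((X * √t₀) • bE B q T) *ᵥ g) := by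
      fun_prop
    exact measurableSet_lt measurable_const ((rsC_meas hb ht₀).comp hm1)
  rw [integral_indicator hms]
  simp only [integral_const, smul_eq_mul, mul_one, measureReal_restrict_apply_univ]
  refine h1.trans (le_of_eq ?_)
  have e3 : a ^ 2 / 7 = X ^ 2 * t₀ / (63 * Q₁ ^ 2 * c) := by
    rw [had, div_pow, mul_pow, mul_pow, mul_pow, Real.sq_sqrt hc.le, Real.sq_sqrt ht₀.le]
    field_simp
    ring
  rw [e3]

/-- **(S1) under the exact law at a source** -/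
theorem gs_rs (hb : 0 < b) (hl : l ∣ N) (hs : 0 < s) (h : s < t)
    (hω : om0 N b (MC N l t (2 * s)) ≤ 1 / 16) (hκ : 0 < κ)
    (hcs0 : 0 ≤ cs) (hcs : κ * (b + 12 * max b 1 ^ 2 * cs ^ 2) ≤ 1) (hcs1 : cs ≤ 1) (x₀ : V N)
    {l₀ q : ℕ} (h0 : l₀ ∣ q) (hq : q ∣ N / l) (B : Finset (V (N / l)))
    {T : Matrix (V (N / l)) (V (N / l)) ℝ} (hT : TC T)
    {t₀ : ℝ} (ht₀ : 0 < t₀) {X Q₁ δ : ℝ} (hX : 0 < X) (hQ : 0 < Q₁)
    (hAP : (gau (V (N / l))).real {g | δ < rsC N l b t₀ ((X * √t₀) • (dB B *ᵥ g))} ≤ 1 / 30)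
    (ha : 9 * Q₁ ^ 2 * (t - s) ≤ X ^ 2 * t₀)
    {e : V (N / l) → ℝ} (hen : Neu e) (hR : Rs (nMC N l b t s x₀) ((cobV N l)ᵀ *ᵥ e) ≤ 1)
    (hm : rsC N l b t₀ ((3 * Q₁) • ((bE B q T * cobV N l) *ᵥ ((cobV N l)ᵀ *ᵥ e +
      (t - s) • (Gm (nMC N l b t s x₀) *ᵥ ((cobV N l)ᵀ *ᵥ e))))) ≤ δ)
    {d : ℝ} (hd : qf (Rk s (κ / (l : ℝ) ^ 2)) e -
      qf (Gm (nMC N l b t s x₀)) ((cobV N l)ᵀ *ᵥ e) ≤ d)
    (he : 4 * Gam N t s κ * ∑ i, e i ^ 2 ≤ cs ^ 2)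
    (hsd : 4 * Gam N t s κ * (κ / (16 * ((l₀ : ℝ) * l) ^ 2) *
      (κ * (X ^ 2 * t₀ / (12 * Q₁ ^ 2)) / (512 * (t - s) ^ 2 * ((l₀ : ℝ) * l) ^ 2) +
        2 * ((N / l : ℕ) : ℝ) ^ 2)) ≤ cs ^ 2)
    (hρ : 64 * (t - s) ^ 2 * B.card / (s * (l₀ : ℝ) ^ 2) +
      64 * (t - s) ^ 2 * ((l₀ : ℝ) * l) ^ 2 / κ * d ≤ X ^ 2 * t₀ / (12 * Q₁ ^ 2) / 2) :
    Ech (nMC N l b t s x₀) ((cobV N l)ᵀ *ᵥ e) (obsN N l (t - s))
      (ind {J | δ < rsC N l b t₀ (Q₁ • ((bE B q T * cobV N l) *ᵥ J))}) ≤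
      (Real.exp (B.card / (2 * (l₀ : ℝ) ^ 2) -
          s * (X ^ 2 * t₀ / (12 * Q₁ ^ 2)) / (512 * (t - s) ^ 2)) +
        2 * Real.exp (d / 2 +
          B.card * (κ / (s * (N : ℝ) ^ 2) + (1 + Real.log ((N / l : ℕ) : ℝ))) / (8 * (l₀ : ℝ) ^ 2) -
          κ * (X ^ 2 * t₀ / (12 * Q₁ ^ 2)) / (1024 * (t - s) ^ 2 * ((l₀ : ℝ) * l) ^ 2))) +
        2 * Real.exp (-(X ^ 2 * t₀ / (63 * Q₁ ^ 2 * (t - s)))) := by
  have hc : 0 < t - s := sub_pos.2 h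
  have hπ := ht_blk_neu' hb hl hs h.le hω hκ hcs0 hcs hcs1 x₀ hc h0 hq B hT hen hR hd he
    (ρ := X ^ 2 * t₀ / (12 * Q₁ ^ 2)) (by positivity) hsd hρ
  have hν := cRs_noise (N := N) (l := l) hb.le ht₀ hX hQ hq B hT hAP hc ha
  have hmain := gs_gen hb.le hl hs h.le x₀ (bE_neu hq B hT) (cRs_meas hb.le ht₀ Q₁ δ)
    (cRs_convex hb.le ht₀ Q₁ δ) (J₁ := (cobV N l)ᵀ *ᵥ e) (by
      show rsC N l b t₀ (Q₁ • (3 : ℝ) • _) ≤ δ
      rw [smul_smul, mul_comm Q₁ 3]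
      exact hm)
    (ρ := X ^ 2 * t₀ / (12 * Q₁ ^ 2))
    (fun v hv => cRs_ball hb.le ht₀ hX hQ B hAP (bE_supp B q T v) hv) hπ hν
  have e1 : {J : V N → ℝ | (bE B q T * cobV N l) *ᵥ J ∉ cRs N l b t₀ Q₁ δ} =
      {J | δ < rsC N l b t₀ (Q₁ • ((bE B q T * cobV N l) *ᵥ J))} := by
    ext J
    show ¬ (rsC N l b t₀ (Q₁ • ((bE B q T * cobV N l) *ᵥ J)) ≤ δ) ↔ _
    exact not_le
  rwa [e1] at hmain

end blocks

end

end Vale.Agent.P159.H663
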