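import Vale.Agent.P159.H663.HtTr
import Vale.Agent.P159.H239.Ap2

/-!
P159 / module HT (helper663): **assembly of the tail of the field under the exact law**, abstract.

`A = A₁ + A₂`. LOW part `A₁`: covariance domination in every source (`H816.ht_Cm`), mean by
`Rs μ J ≤ 1` (`H239.mean_part`). FINE part `A₂`: reference mean `m₂` (bare), tail `π₂`.
Conclusion: `P_J (|A (h - G J)|² > ρ) ≤ exp (θ₁ tr S - θ₁ ρ₁ / 2) + π₂`,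
`4 ρ₁ + 8 tr S + 4 ρ₂ + 4 d₂ ≤ ρ`.
-/

namespace Vale.Agent.P159.H663

open Finset Matrix MeasureTheory ProbabilityTheory
open Vale.Agent.P159.TM.H104 (EM Ex Cv K3 Lg li nh Gr)
open Vale.Agent.P159.H37
open Vale.Agent.P159.H239 (indh indh_nonneg indh_le_one indh_of_mem mean_part sum_sq_add_le)

noncomputable section

variable {V W : Type*} [Fintype V] [Fintype W] {μ : (V → ℤ) → ℝ}

/-- four-term bound of the square -/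
lemma sq4 (A₁ A₂ : Matrix W V ℝ) (v e₁ e₂ m : V → ℝ) :
    ∑ w, (((A₁ + A₂) *ᵥ (v - m)) w) ^ 2 ≤
      4 * ∑ w, ((A₁ *ᵥ (v - e₁)) w) ^ 2 + 4 * ∑ w, ((A₁ *ᵥ (e₁ - m)) w) ^ 2 +
        (4 * ∑ w, ((A₂ *ᵥ (v - e₂)) w) ^ 2 + 4 * ∑ w, ((A₂ *ᵥ (e₂ - m)) w) ^ 2) := by
  have h1 : (A₁ + A₂) *ᵥ (v - m) = fun w => (A₁ *ᵥ (v - e₁) + A₁ *ᵥ (e₁ - m)) w +
      (A₂ *ᵥ (v - e₂) + A₂ *ᵥ (e₂ - m)) w := by
    funext w
    have e1 : A₁ *ᵥ (v - e₁) + A₁ *ᵥ (e₁ - m) = A₁ *ᵥ (v - m) := by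
      rw [← mulVec_add]
      congr 1
      abel
    have e2 : A₂ *ᵥ (v - e₂) + A₂ *ᵥ (e₂ - m) = A₂ *ᵥ (v - m) := by
      rw [← mulVec_add]
      congr 1
      abel
    rw [e1, e2, add_mulVec]
    rfl
  have h2 := sum_sq_add_le (A₁ *ᵥ (v - e₁) + A₁ *ᵥ (e₁ - m)) (A₂ *ᵥ (v - e₂) + A₂ *ᵥ (e₂ - m))
  have h3 := sum_sq_add_le (A₁ *ᵥ (v - e₁)) (A₁ *ᵥ (e₁ - m))
  have h4 := sum_sq_add_le (A₂ *ᵥ (v - e₂)) (A₂ *ᵥ (e₂ - m))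
  rw [h1]
  simp only [Pi.add_apply] at h2 h3 h4 ⊢
  linarith

/-- indicator of a set contained in a union -/
lemma ind_or {Ω : Type*} {s t u : Set Ω} {h : Ω} (hs : h ∈ s → h ∈ t ∨ h ∈ u) :
    s.indicator (fun _ => (1 : ℝ)) h ≤
      t.indicator (fun _ => (1 : ℝ)) h + u.indicator (fun _ => (1 : ℝ)) h := by
  have ht := Set.indicator_nonneg (s := t) (f := fun _ => (1 : ℝ)) (fun _ _ => zero_le_one) h
  have hu := Set.indicator_nonneg (s := u) (f := fun _ => (1 : ℝ)) (fun _ _ => zero_le_one) h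
  by_cases hh : h ∈ s
  · rw [Set.indicator_of_mem hh]
    rcases hs hh with h1 | h1
    · rw [Set.indicator_of_mem h1]
      linarith
    · rw [Set.indicator_of_mem h1 (f := fun _ => (1 : ℝ))]
      linarith
  · rw [Set.indicator_of_notMem hh]
    linarith

/-- **HT, abstract assembly** -/
theorem ht_asm [DecidableEq W] (hμ : EM μ) (hE : Ev μ) (hK : PK μ) (J : V → ℝ) (hR : Rs μ J ≤ 1)
    {A A₁ A₂ : Matrix W V ℝ} (hA : A = A₁ + A₂)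
    -- low part
    {S : Matrix W W ℝ} (hS : Sᵀ = S)
    (hC : ∀ (J : V → ℝ) (φ : W → ℝ), qf (Cm μ J) (A₁ᵀ *ᵥ φ) ≤ qf S φ)
    {θ : ℝ} (hθ : 0 ≤ θ) (h1 : ∀ φ : W → ℝ, θ * qf S φ ≤ (∑ k, φ k ^ 2) / 2) {ρ₁ : ℝ}
    -- fine part
    {m₂ : V → ℝ} {ρ₂ π₂ d₂ : ℝ}
    (h2 : Ex μ J ({h : V → ℤ | ρ₂ ≤ ∑ w, ((A₂ *ᵥ (re h - m₂)) w) ^ 2}.indicator
      fun _ => (1 : ℝ)) ≤ π₂)
    (hd : ∑ w, ((A₂ *ᵥ (m₂ - Gm μ *ᵥ J)) w) ^ 2 ≤ d₂)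
    {ρ : ℝ} (hρ : 4 * ρ₁ + 8 * S.trace + 4 * ρ₂ + 4 * d₂ ≤ ρ) :
    Ex μ J (indh {h | ρ < ∑ w, ((A *ᵥ (re h - Gm μ *ᵥ J)) w) ^ 2}) ≤
      Real.exp (θ * S.trace - θ * ρ₁ / 2) + π₂ := by
  have hlow := H816.ht_Cm hμ A₁ hS hC hθ h1 J ρ₁
  -- the mean of the low part
  have hrow : ∀ w (J : V → ℝ), qf (Cm μ J) (H239.row A₁ w) ≤ S w w := by
    intro w J
    have e1 : A₁ᵀ *ᵥ (Pi.single w (1 : ℝ)) = H239.row A₁ w := by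
      funext x
      simp [H239.row, mulVec_single]
    have e2 : qf S (Pi.single w (1 : ℝ)) = S w w := by
      rw [qf_eq]
      simp
    rw [← e1, ← e2]
    exact hC J _
  have hmean := mean_part hμ hE hK A₁ J hrow hR
  have htr : ∑ w, S w w = S.trace := rfl
  rw [htr] at hmean
  have hgr : ∀ E : Set (V → ℤ), Gr (E.indicator fun _ => (1 : ℝ)) := by
    intro E
    refine Gr.of_bdd (C := 1) fun h => ?_
    rw [abs_of_nonneg (Set.indicator_nonneg (fun _ _ => zero_le_one) h)]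
    exact Set.indicator_le_self' (fun _ _ => zero_le_one) h
  refine le_trans ?_ (add_le_add hlow h2)
  rw [← TM.H104.Ex_add hμ (hgr _) (hgr _)]
  refine TM.H104.Ex_mono hμ (hgr _) ((hgr _).add (hgr _)) (fun h => ?_) J
  have hsq := sq4 A₁ A₂ (re h) (mn μ J) m₂ (Gm μ *ᵥ J)
  rw [← hA] at hsq
  refine ind_or (s := {h : V → ℤ | ρ < ∑ w, ((A *ᵥ (re h - Gm μ *ᵥ J)) w) ^ 2}) fun hc => ?_
  have hc' : ρ < ∑ w, ((A *ᵥ (re h - Gm μ *ᵥ J)) w) ^ 2 := hc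
  by_contra hn
  rw [not_or] at hn
  have ha : ¬ ρ₁ ≤ ∑ w, ((A₁ *ᵥ (re h - mn μ J)) w) ^ 2 := hn.1
  have hb : ¬ ρ₂ ≤ ∑ w, ((A₂ *ᵥ (re h - m₂)) w) ^ 2 := hn.2
  linarith [not_le.1 ha, not_le.1 hb]

/-- **HT at source `0`** (reference mean `0` everywhere) -/
theorem ht_asm0 [DecidableEq W] (hμ : EM μ) (hE : Ev μ) (hK : PK μ)
    {A A₁ A₂ : Matrix W V ℝ} (hA : A = A₁ + A₂)
    {S : Matrix W W ℝ} (hS : Sᵀ = S)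
    (hC : ∀ (J : V → ℝ) (φ : W → ℝ), qf (Cm μ J) (A₁ᵀ *ᵥ φ) ≤ qf S φ)
    {θ : ℝ} (hθ : 0 ≤ θ) (h1 : ∀ φ : W → ℝ, θ * qf S φ ≤ (∑ k, φ k ^ 2) / 2) {ρ₁ : ℝ}
    {ρ₂ π₂ : ℝ}
    (h2 : Ex μ 0 ({h : V → ℤ | ρ₂ ≤ ∑ w, ((A₂ *ᵥ (re h - 0)) w) ^ 2}.indicator
      fun _ => (1 : ℝ)) ≤ π₂)
    {ρ : ℝ} (hρ : 4 * ρ₁ + 8 * S.trace + 4 * ρ₂ ≤ ρ) :
    Ex μ 0 (indh {h | ρ < ∑ w, ((A *ᵥ re h) w) ^ 2}) ≤
      Real.exp (θ * S.trace - θ * ρ₁ / 2) + π₂ := by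
  have hR : Rs μ 0 ≤ 1 := by
    unfold Rs
    rw [qf_zero_vec]
    norm_num
  have h := ht_asm hμ hE hK 0 hR hA hS hC hθ h1 (ρ₁ := ρ₁) (m₂ := 0) (d₂ := 0) h2
    (by simp) (ρ := ρ) (by linarith)
  simpa only [mulVec_zero, sub_zero] using h

end

end Vale.Agent.P159.H663
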