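import Vale.Agent.P159.H663.HtN

/-!
P159 / module HT (helper663): **the tail of the field on blocks**.

Cells `V n`, `n = N / l`; `B` a set of cells, `q ∣ n` the side (in cells) of the blocks whose mean
is removed, `l₀ ∣ n` the scale of the split, `T` a contraction commuting with translations
(`T = 1 - (t - τ') Gnc`; neutral model: with zero mode `0`, e.g. `T * Pn`).
`bE B q T = 1_B (1 - cellP n q) T`. Under `Rs μ' (cobVᵀ e) ≤ 1`: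

`P_J (|c bE cobV (h - G' J)|² > ρ) ≤ exp (|B| / (2 l₀²) - τ ρ / (512 c²))`
`  + 2 exp (d / 2 + |B| (κ / (τ N²) + 1 + log n) / (8 l₀²) - κ ρ / (1024 c² (l₀ l)²))`.
-/

namespace Vale.Agent.P159.H663

open Finset Matrix MeasureTheory ProbabilityTheory
open Vale.Agent.P159.TM.H104 (EM Ex Cv K3 Lg li nh Gr)
open Vale.Agent.P159.TM.H764 (EE grd)
open Vale.Agent.P159.TM.Spec (V)
open Vale.Agent.P159.TM.SpecC (Tor wT)
open Vale.Agent.P159.H37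
open Vale.Agent.P159.H864
open Vale.Agent.P159.H612 (om0)
open Vale.Agent.P159.H859 (Rk Avg dB ravg)
open Vale.Agent.P159.H239 (indh)
open Vale.Agent.P159.H816 (Gam Hb)
open Vale.Agent.P159.H963 (Neu pin nM nMC MF Pn Gnc)

noncomputable section

section gen

variable {n : ℕ} [NeZero n]

/-- row sums of a translation invariant matrix -/
lemma ti_sum {T : Matrix (V n) (V n) ℝ} (hT : TI T) (u : V n → ℝ) :
    ∑ x, (T *ᵥ u) x = sym T 0 * ∑ y, u y := by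
  have h1 : ∀ y : V n, ∑ x, T x y = sym T 0 := by
    intro y
    have h2 : ∀ x, T x y = T 0 (x - y) := fun x => by
      have : T x y = T y x := by
        conv_lhs => rw [← hT.transpose]
        rfl
      rw [this]
      exact hT.eq y x
    simp only [h2]
    rw [H864.sym_def]
    have h3 : ∀ z : V n, T 0 z * TM.H764.cN (TM.H764.dt 0 z) = T 0 z := by
      intro z
      rw [H864.dt_zero_left, TM.H764.cN_zero, mul_one]
    simp only [h3]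
    exact Fintype.sum_equiv (Equiv.subRight y) _ _ fun x => rfl
  simp only [Matrix.mulVec, dotProduct]
  rw [Finset.sum_comm]
  simp only [← Finset.sum_mul]
  rw [Finset.mul_sum]
  exact Finset.sum_congr rfl fun y _ => by rw [h1]

/-- rows of a product with a matrix with vanishing zero mode -/
lemma row_neu {I : Type*} {T : Matrix (V n) (V n) ℝ} (hT : TC T) (h0 : sym T 0 = 0)
    (F : Matrix I (V n) ℝ) (i : I) : Neu ((F * T) i) := by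
  rw [row_contr hT F i]
  unfold H963.Neu
  rw [ti_sum hT.ti, h0, zero_mul]

/-- products -/
lemma TC.mul {T T' : Matrix (V n) (V n) ℝ} (hT : TC T) (hT' : TC T') : TC (T * T') :=
  ⟨hT.ti.mul hT'.ti, fun k => by
    rw [sym_mul hT.ti hT'.ti, abs_mul]
    exact mul_le_one₀ (hT.le k) (abs_nonneg _) (hT'.le k)⟩

/-- the mean-removed block cut -/
def bE (B : Finset (V n)) (q : ℕ) (T : Matrix (V n) (V n) ℝ) : Matrix (V n) (V n) ℝ :=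
  dB B * (1 - cellP n q) * T

/-- averages over blocks: norm -/
lemma bA_sq {q : ℕ} (hq : q ∣ n) (B : Finset (V n)) (φ : V n → ℝ) :
    ∑ x, ((cellP n q)ᵀ *ᵥ (dB B *ᵥ φ)) x ^ 2 ≤ 1 * ∑ x, φ x ^ 2 := by
  rw [one_mul, cellP_tr]
  exact (cellP_sq_le hq _).trans (dB_sq_le B φ)

/-- averages over blocks: trace -/
lemma bA_trace {q : ℕ} (hq : q ∣ n) (B : Finset (V n)) :
    ∑ x ∈ B, ∑ y, cellP n q x y ^ 2 = (B.card : ℝ) / (q : ℝ) ^ 2 := by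
  simp only [cellP_row_sq hq]
  rw [Finset.sum_const, nsmul_eq_mul]
  ring

/-- norm of the fine part -/
lemma E2_sq {B : Finset (V n)} {l₀ : ℕ} (h0 : l₀ ∣ n) {T : Matrix (V n) (V n) ℝ} (hT : TC T)
    (φ : V n → ℝ) : ∑ i, ((cE2 B l₀ T)ᵀ *ᵥ φ) i ^ 2 ≤ ∑ i, φ i ^ 2 := by
  have := ne_div h0
  rw [cE2_tr B l₀ hT]
  refine (hT.contr _).trans (le_trans ?_ (dB_sq_le B φ))
  set u := dB B *ᵥ φ with hu
  have h1 : ∑ x, ((1 - cellP n l₀) *ᵥ u) x ^ 2 = qf (1 - cellP n l₀) u := by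
    have h2 := qf_mul_tr (1 - cellP n l₀) u
    have h3 : (1 - cellP n l₀)ᵀ = 1 - cellP n l₀ := by
      rw [transpose_sub, transpose_one, cellP_tr]
    rw [h3] at h2
    rw [← h2]
    congr 1
    rw [Matrix.mul_sub, Matrix.mul_one, Matrix.sub_mul, Matrix.one_mul, cellP_idem h0, sub_self,
      sub_zero]
  have h4 : qf (1 : Matrix (V n) (V n) ℝ) u = ∑ x, u x ^ 2 := by
    rw [qf_eq, one_mulVec, dot_self]
  rw [h1, H864.qf_sub_mat, h4]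
  linarith [qf_cellP_nonneg h0 u]

end gen

section blocks

variable {N l : ℕ} [NeZero N] [NeZero (N / l)] {b t τ κ cs : ℝ}

/-- the constants of the block cut, `k₂`, `r₂` -/
lemma blk_num (hl : l ∣ N) {l₀ : ℕ} (h0 : l₀ ∣ N / l) (hτ : 0 < τ) (hκ : 0 < κ)
    (B : Finset (V (N / l))) :
    (B.card * (4 * (1 / (τ * ((N / l : ℕ) : ℝ) ^ 2) +
      (1 + Real.log ((N / l : ℕ) : ℝ)) / (κ / (l : ℝ) ^ 2)))) /
      (2 * (16 * (l₀ : ℝ) ^ 2 / (κ / (l : ℝ) ^ 2))) =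
    B.card * (κ / (τ * (N : ℝ) ^ 2) + (1 + Real.log ((N / l : ℕ) : ℝ))) / (8 * (l₀ : ℝ) ^ 2) := by
  have h1 : (0 : ℝ) < l := by exact_mod_cast l_pos hl
  have hN : (0 : ℝ) < N := by exact_mod_cast NeZero.pos N
  have h2 : (0 : ℝ) < l₀ := by exact_mod_cast Nat.pos_of_dvd_of_pos h0 (NeZero.pos _)
  have e : ((N / l : ℕ) : ℝ) = (N : ℝ) / l := by rw [Nat.cast_div hl h1.ne']
  generalize Real.log ((N / l : ℕ) : ℝ) = w
  rw [e]
  field_simp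
  ring

/-- **HT on a block, neutral model** -/
theorem ht_blk_neu (hb : 0 < b) (hl : l ∣ N) (hτ : 0 < τ) (h : τ ≤ t)
    (hω : om0 N b (MC N l t (2 * τ)) ≤ 1 / 16) (hκ : 0 < κ)
    (hcs0 : 0 ≤ cs) (hcs : κ * (b + 12 * max b 1 ^ 2 * cs ^ 2) ≤ 1) (hcs1 : cs ≤ 1) (x₀ : V N)
    {c : ℝ} (hc : 0 < c) {l₀ q : ℕ} (h0 : l₀ ∣ q) (hq : q ∣ N / l) (B : Finset (V (N / l)))
    {T : Matrix (V (N / l)) (V (N / l)) ℝ} (hT : TC T) (hT0 : sym T 0 = 0)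
    {e : V (N / l) → ℝ} (hen : Neu e) (hR : Rs (nMC N l b t τ x₀) ((cobV N l)ᵀ *ᵥ e) ≤ 1)
    {d : ℝ} (hd : qf (Rk τ (κ / (l : ℝ) ^ 2)) e -
      qf (Gm (nMC N l b t τ x₀)) ((cobV N l)ᵀ *ᵥ e) ≤ d)
    (he : 4 * Gam N t τ κ * ∑ i, e i ^ 2 ≤ cs ^ 2) {ρ : ℝ} (hρ0 : 0 ≤ ρ)
    (hs : 4 * Gam N t τ κ * (κ / (16 * ((l₀ : ℝ) * l) ^ 2) *
      (κ * ρ / (512 * c ^ 2 * ((l₀ : ℝ) * l) ^ 2) + 2 * ((N / l : ℕ) : ℝ) ^ 2)) ≤ cs ^ 2)
    (hρ : 64 * c ^ 2 * B.card / (τ * (l₀ : ℝ) ^ 2) + 64 * c ^ 2 * ((l₀ : ℝ) * l) ^ 2 / κ * d ≤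
      ρ / 2) :
    Ex (nMC N l b t τ x₀) ((cobV N l)ᵀ *ᵥ e) (indh {h | ρ < ∑ w,
      (((c • (bE B q T * cobV N l)) *ᵥ
        (re h - Gm (nMC N l b t τ x₀) *ᵥ ((cobV N l)ᵀ *ᵥ e))) w) ^ 2}) ≤
      Real.exp (B.card / (2 * (l₀ : ℝ) ^ 2) - τ * ρ / (512 * c ^ 2)) +
        2 * Real.exp (d / 2 +
          B.card * (κ / (τ * (N : ℝ) ^ 2) + (1 + Real.log ((N / l : ℕ) : ℝ))) / (8 * (l₀ : ℝ) ^ 2) -
          κ * ρ / (1024 * c ^ 2 * ((l₀ : ℝ) * l) ^ 2)) := by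
  have hlR : (0 : ℝ) < l := by exact_mod_cast l_pos hl
  have hl0 : (0 : ℝ) < l₀ := by
    exact_mod_cast Nat.pos_of_dvd_of_pos (h0.trans hq) (NeZero.pos _)
  have hqR : (0 : ℝ) < q := by exact_mod_cast Nat.pos_of_dvd_of_pos hq (NeZero.pos _)
  have hlq : (l₀ : ℝ) ≤ q := by
    exact_mod_cast Nat.le_of_dvd (Nat.pos_of_dvd_of_pos hq (NeZero.pos _)) h0
  have hκ' : 0 < κ / (l : ℝ) ^ 2 := by positivity
  have h0n := h0.trans hq
  have hadd : cE1 B l₀ (cellP (N / l) q) T + cE2 B l₀ T = bE B q T := cE_add _ _ _ _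
  have hr₁ : (cE1 B l₀ (cellP (N / l) q) T * (cE1 B l₀ (cellP (N / l) q) T)ᵀ).trace ≤
      4 * B.card / (l₀ : ℝ) ^ 2 := by
    refine (E1_trace h0n (cellP (N / l) q) hT).trans ?_
    rw [bA_trace hq]
    have h5 : (B.card : ℝ) / (q : ℝ) ^ 2 ≤ (B.card : ℝ) / (l₀ : ℝ) ^ 2 := by
      refine div_le_div_of_nonneg_left (Nat.cast_nonneg _) (by positivity) ?_
      exact pow_le_pow_left₀ hl0.le hlq 2
    have h6 : 2 * (B.card : ℝ) / (l₀ : ℝ) ^ 2 + 2 * ((B.card : ℝ) / (l₀ : ℝ) ^ 2) =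
        4 * B.card / (l₀ : ℝ) ^ 2 := by ring
    linarith
  have hr₂ : ∑ w, qf (Rk τ (κ / (l : ℝ) ^ 2)) (cE2 B l₀ T w) ≤
      B.card * (4 * (1 / (τ * ((N / l : ℕ) : ℝ) ^ 2) +
        (1 + Real.log ((N / l : ℕ) : ℝ)) / (κ / (l : ℝ) ^ 2))) := by
    have h5 := E2_trace (B := B) h0n hT hτ hκ'
    rwa [H859.trace_conj] at h5
  have hmain := ht_neu hb hl hτ h hω hκ hcs0 hcs hcs1 x₀ hc
    (E₁ := cE1 B l₀ (cellP (N / l) q) T) (E₂ := cE2 B l₀ T)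
    (row_neu hT hT0 _) (row_neu hT hT0 _) (k₁ := 2 * (1 + 1)) (by norm_num)
    (E1_sq h0n hT (bA_sq hq B)) hr₁
    (k₂ := 16 * (l₀ : ℝ) ^ 2 / (κ / (l : ℝ) ^ 2)) (by positivity) (E2_op h0n hT hτ hκ') hr₂
    (E2_sq h0n hT) hen hR hd he hρ0 (by
      refine le_trans (le_of_eq ?_) hs
      rw [TM.H764.card_V]
      congr 1
      field_simp
      ring) (by
      refine le_trans (le_of_eq ?_) hρ
      field_simp
      ring)
  rw [hadd] at hmain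
  refine hmain.trans (add_le_add (le_of_eq ?_) (le_of_eq ?_))
  · congr 1
    field_simp
    ring
  · rw [blk_num hl h0n hτ hκ B]
    congr 3
    field_simp
    ring

/-- **HT on a block, integer model** -/
theorem ht_blk_int (hb : 0 < b) (hl : l ∣ N) (hτ : 0 < τ) (h : τ ≤ t)
    (hω : om0 N b (MC N l t (2 * τ)) ≤ 1 / 16) (hκ : 0 < κ)
    (hcs0 : 0 ≤ cs) (hcs : κ * (b + 12 * max b 1 ^ 2 * cs ^ 2) ≤ 1) (hcs1 : cs ≤ 1)
    {c : ℝ} (hc : 0 < c) {l₀ q : ℕ} (h0 : l₀ ∣ q) (hq : q ∣ N / l) (B : Finset (V (N / l)))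
    {T : Matrix (V (N / l)) (V (N / l)) ℝ} (hT : TC T)
    {e : V (N / l) → ℝ} (hR : Rs (wM (wT b N) (MC N l t τ)) ((cobV N l)ᵀ *ᵥ e) ≤ 1)
    {d : ℝ} (hd : qf (Rk τ (κ / (l : ℝ) ^ 2)) e - qf (Gc l (GM N l b t τ)) e ≤ d)
    (he : 4 * Gam N t τ κ * ∑ i, e i ^ 2 ≤ cs ^ 2) {ρ : ℝ} (hρ0 : 0 ≤ ρ)
    (hs : 4 * Gam N t τ κ * (κ / (16 * ((l₀ : ℝ) * l) ^ 2) *
      (κ * ρ / (512 * c ^ 2 * ((l₀ : ℝ) * l) ^ 2) + 2 * ((N / l : ℕ) : ℝ) ^ 2)) ≤ cs ^ 2)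
    (hρ : 64 * c ^ 2 * B.card / (τ * (l₀ : ℝ) ^ 2) + 64 * c ^ 2 * ((l₀ : ℝ) * l) ^ 2 / κ * d ≤
      ρ / 2) :
    Ex (wM (wT b N) (MC N l t τ)) ((cobV N l)ᵀ *ᵥ e) (indh {h | ρ < ∑ w,
      (((c • (bE B q T * cobV N l)) *ᵥ
        (re h - Gm (wM (wT b N) (MC N l t τ)) *ᵥ ((cobV N l)ᵀ *ᵥ e))) w) ^ 2}) ≤
      Real.exp (B.card / (2 * (l₀ : ℝ) ^ 2) - τ * ρ / (512 * c ^ 2)) +
        2 * Real.exp (d / 2 +
          B.card * (κ / (τ * (N : ℝ) ^ 2) + (1 + Real.log ((N / l : ℕ) : ℝ))) / (8 * (l₀ : ℝ) ^ 2) -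
          κ * ρ / (1024 * c ^ 2 * ((l₀ : ℝ) * l) ^ 2)) := by
  have hlR : (0 : ℝ) < l := by exact_mod_cast l_pos hl
  have hl0 : (0 : ℝ) < l₀ := by
    exact_mod_cast Nat.pos_of_dvd_of_pos (h0.trans hq) (NeZero.pos _)
  have hqR : (0 : ℝ) < q := by exact_mod_cast Nat.pos_of_dvd_of_pos hq (NeZero.pos _)
  have hlq : (l₀ : ℝ) ≤ q := by
    exact_mod_cast Nat.le_of_dvd (Nat.pos_of_dvd_of_pos hq (NeZero.pos _)) h0
  have hκ' : 0 < κ / (l : ℝ) ^ 2 := by positivity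
  have h0n := h0.trans hq
  have hadd : cE1 B l₀ (cellP (N / l) q) T + cE2 B l₀ T = bE B q T := cE_add _ _ _ _
  have hr₁ : (cE1 B l₀ (cellP (N / l) q) T * (cE1 B l₀ (cellP (N / l) q) T)ᵀ).trace ≤
      4 * B.card / (l₀ : ℝ) ^ 2 := by
    refine (E1_trace h0n (cellP (N / l) q) hT).trans ?_
    rw [bA_trace hq]
    have h5 : (B.card : ℝ) / (q : ℝ) ^ 2 ≤ (B.card : ℝ) / (l₀ : ℝ) ^ 2 := by
      refine div_le_div_of_nonneg_left (Nat.cast_nonneg _) (by positivity) ?_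
      exact pow_le_pow_left₀ hl0.le hlq 2
    have h6 : 2 * (B.card : ℝ) / (l₀ : ℝ) ^ 2 + 2 * ((B.card : ℝ) / (l₀ : ℝ) ^ 2) =
        4 * B.card / (l₀ : ℝ) ^ 2 := by ring
    linarith
  have hr₂ : ∑ w, qf (Rk τ (κ / (l : ℝ) ^ 2)) (cE2 B l₀ T w) ≤
      B.card * (4 * (1 / (τ * ((N / l : ℕ) : ℝ) ^ 2) +
        (1 + Real.log ((N / l : ℕ) : ℝ)) / (κ / (l : ℝ) ^ 2))) := by
    have h5 := E2_trace (B := B) h0n hT hτ hκ'
    rwa [H859.trace_conj] at h5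
  have hmain := ht_int hb hl hτ h hω hκ hcs0 hcs hcs1 hc
    (E₁ := cE1 B l₀ (cellP (N / l) q) T) (E₂ := cE2 B l₀ T)
    (k₁ := 2 * (1 + 1)) (by norm_num)
    (E1_sq h0n hT (bA_sq hq B)) hr₁
    (k₂ := 16 * (l₀ : ℝ) ^ 2 / (κ / (l : ℝ) ^ 2)) (by positivity) (E2_op h0n hT hτ hκ') hr₂
    (E2_sq h0n hT) hR hd he hρ0 (by
      refine le_trans (le_of_eq ?_) hs
      rw [TM.H764.card_V]
      congr 1
      field_simp
      ring) (by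
      refine le_trans (le_of_eq ?_) hρ
      field_simp
      ring)
  rw [hadd] at hmain
  refine hmain.trans (add_le_add (le_of_eq ?_) (le_of_eq ?_))
  · congr 1
    field_simp
    ring
  · rw [blk_num hl h0n hτ hκ B]
    congr 3
    field_simp
    ring

end blocks

end

end Vale.Agent.P159.H663
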