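import Vale.Agent.P159.H663.HtT
import Vale.Agent.P159.H864.Fn1

/-!
P159 / module HT (helper663): **block cut-offs** `E = 1_B (1 - A) T = E₁ + E₂`,
`E₁ = 1_B (P₀ - A) T`, `E₂ = 1_B (1 - P₀) T`; `P₀ = cellP n l₀`, `A` an arbitrary matrix (average
removed), `T` a contraction commuting with translations (`T = 1`, `T = 1 - q P G`).

* `E1_sq`    : `|E₁ᵀ φ|² ≤ 2 (1 + a) |φ|²` when `|Aᵀ 1_B φ|² ≤ a |φ|²`;
* `E1_trace` : `tr (E₁ E₁ᵀ) ≤ 2 |B| / l₀² + 2 ∑_{x ∈ B} ∑_y A(x,y)²`;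
* `E2_op`    : `<E₂ᵀ φ, R E₂ᵀ φ> ≤ 16 l₀² / κ |φ|²`, `R = (r + κ lapM)⁻¹`;
* `E2_trace` : `tr (E₂ R E₂ᵀ) ≤ 4 |B| (1 / (r n²) + (1 + log n) / κ)`.
-/

namespace Vale.Agent.P159.H663

open Finset Matrix MeasureTheory ProbabilityTheory
open Vale.Agent.P159.TM.H764 (EE grd)
open Vale.Agent.P159.TM.Spec (V)
open Vale.Agent.P159.H37
open Vale.Agent.P159.H864
open Vale.Agent.P159.H859 (Rk Avg dB ravg)

noncomputable section

variable {n : ℕ} [NeZero n]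

/-- contraction commuting with translations -/
structure TC (T : Matrix (V n) (V n) ℝ) : Prop where
  ti : TI T
  le : ∀ k, |sym T k| ≤ 1

lemma TC.one : TC (1 : Matrix (V n) (V n) ℝ) :=
  ⟨TI.one, fun k => by rw [sym_one, abs_one]⟩

lemma TC.sq_le {T : Matrix (V n) (V n) ℝ} (hT : TC T) (k : V n) : sym T k * sym T k ≤ 1 := by
  have h := hT.le k
  have h1 := abs_nonneg (sym T k)
  rw [← abs_mul_abs_self]
  nlinarith

lemma TC.of_nonneg {T : Matrix (V n) (V n) ℝ} (hT : TI T) (h0 : ∀ k, 0 ≤ sym T k)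
    (h1 : ∀ k, sym T k ≤ 1) : TC T :=
  ⟨hT, fun k => by rw [abs_of_nonneg (h0 k)]; exact h1 k⟩

/-- `|T u|² ≤ |u|²` -/
lemma TC.contr {T : Matrix (V n) (V n) ℝ} (hT : TC T) (u : V n → ℝ) :
    ∑ x, (T *ᵥ u) x ^ 2 ≤ ∑ x, u x ^ 2 := by
  have h := (qf_le_iff (hT.ti.mul hT.ti) TI.one).2 (fun k => by
    rw [sym_mul hT.ti hT.ti, sym_one]
    exact hT.sq_le k) u
  have e1 : qf (T * T) u = ∑ x, (T *ᵥ u) x ^ 2 := by
    have := qf_mul_tr T u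
    rwa [hT.ti.transpose] at this
  have e2 : qf (1 : Matrix (V n) (V n) ℝ) u = ∑ x, u x ^ 2 := by
    rw [qf_eq, one_mulVec, dot_self]
  rwa [e1, e2] at h

/-- forms commuting with `T` decrease -/
lemma TC.form {T R : Matrix (V n) (V n) ℝ} (hT : TC T) (hR : TI R) (h0 : ∀ k, 0 ≤ sym R k)
    (u : V n → ℝ) : qf R (T *ᵥ u) ≤ qf R u := by
  have h := (qf_le_iff ((hT.ti.mul hR).mul hT.ti) hR).2 (fun k => by
    rw [sym_mul (hT.ti.mul hR) hT.ti, sym_mul hT.ti hR]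
    have h1 := mul_le_mul_of_nonneg_right (hT.sq_le k) (h0 k)
    calc sym T k * sym R k * sym T k = sym T k * sym T k * sym R k := by ring
      _ ≤ 1 * sym R k := h1
      _ = _ := one_mul _) u
  have e1 : qf (T * R * T) u = qf R (T *ᵥ u) := by
    rw [qf_eq, qf_eq, ← mulVec_mulVec, ← mulVec_mulVec, dotProduct_mulVec, ← mulVec_transpose,
      hT.ti.transpose]
  rwa [e1] at h

omit [NeZero n] in
lemma dB_tr (B : Finset (V n)) : (dB B)ᵀ = dB B := by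
  unfold dB
  rw [diagonal_transpose]

lemma dB_sq_le (B : Finset (V n)) (φ : V n → ℝ) :
    ∑ x, (dB B *ᵥ φ) x ^ 2 ≤ ∑ x, φ x ^ 2 := by
  refine Finset.sum_le_sum fun x _ => ?_
  unfold dB
  rw [mulVec_diagonal]
  split_ifs
  · rw [one_mul]
  · rw [zero_mul]
    nlinarith [sq_nonneg (φ x)]

/-- averages over cells are contractions -/
lemma cellP_sq_le {l₀ : ℕ} (h : l₀ ∣ n) (y : V n → ℝ) :
    ∑ x, (cellP n l₀ *ᵥ y) x ^ 2 ≤ ∑ x, y x ^ 2 := by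
  have := ne_div h
  have h1 : ∑ x, (cellP n l₀ *ᵥ y) x ^ 2 = qf (cellP n l₀) y := by
    have h2 := qf_mul_tr (cellP n l₀) y
    rw [cellP_tr, cellP_idem h] at h2
    exact h2.symm
  rw [h1]
  exact qf_cellP_le h y

/-- coarse part of the cut -/
def cE1 (B : Finset (V n)) (l₀ : ℕ) (A T : Matrix (V n) (V n) ℝ) : Matrix (V n) (V n) ℝ :=
  dB B * (cellP n l₀ - A) * T

/-- fine part of the cut -/
def cE2 (B : Finset (V n)) (l₀ : ℕ) (T : Matrix (V n) (V n) ℝ) : Matrix (V n) (V n) ℝ :=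
  dB B * (1 - cellP n l₀) * T

lemma cE_add (B : Finset (V n)) (l₀ : ℕ) (A T : Matrix (V n) (V n) ℝ) :
    cE1 B l₀ A T + cE2 B l₀ T = dB B * (1 - A) * T := by
  unfold cE1 cE2
  rw [← Matrix.add_mul, ← Matrix.mul_add]
  congr 2
  abel

lemma cE1_tr (B : Finset (V n)) (l₀ : ℕ) (A : Matrix (V n) (V n) ℝ) {T : Matrix (V n) (V n) ℝ}
    (hT : TC T) (φ : V n → ℝ) :
    (cE1 B l₀ A T)ᵀ *ᵥ φ = T *ᵥ (cellP n l₀ *ᵥ (dB B *ᵥ φ) - Aᵀ *ᵥ (dB B *ᵥ φ)) := by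
  unfold cE1
  rw [transpose_mul, transpose_mul, dB_tr, hT.ti.transpose, transpose_sub, cellP_tr,
    ← mulVec_mulVec, ← mulVec_mulVec, sub_mulVec]

lemma cE2_tr (B : Finset (V n)) (l₀ : ℕ) {T : Matrix (V n) (V n) ℝ} (hT : TC T) (φ : V n → ℝ) :
    (cE2 B l₀ T)ᵀ *ᵥ φ = T *ᵥ ((1 - cellP n l₀) *ᵥ (dB B *ᵥ φ)) := by
  unfold cE2
  rw [transpose_mul, transpose_mul, dB_tr, hT.ti.transpose, transpose_sub, cellP_tr,
    transpose_one, ← mulVec_mulVec, ← mulVec_mulVec]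

/-- norm of the coarse part -/
theorem E1_sq {B : Finset (V n)} {l₀ : ℕ} (h0 : l₀ ∣ n) {A T : Matrix (V n) (V n) ℝ} (hT : TC T)
    {a : ℝ} (hA : ∀ φ : V n → ℝ, ∑ x, (Aᵀ *ᵥ (dB B *ᵥ φ)) x ^ 2 ≤ a * ∑ x, φ x ^ 2)
    (φ : V n → ℝ) :
    ∑ i, ((cE1 B l₀ A T)ᵀ *ᵥ φ) i ^ 2 ≤ 2 * (1 + a) * ∑ i, φ i ^ 2 := by
  rw [cE1_tr B l₀ A hT]
  refine (hT.contr _).trans ?_
  have h1 := (cellP_sq_le h0 (dB B *ᵥ φ)).trans (dB_sq_le B φ)
  have h2 := hA φ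
  have h3 : ∑ x, (cellP n l₀ *ᵥ (dB B *ᵥ φ) - Aᵀ *ᵥ (dB B *ᵥ φ)) x ^ 2 ≤
      2 * ∑ x, (cellP n l₀ *ᵥ (dB B *ᵥ φ)) x ^ 2 + 2 * ∑ x, (Aᵀ *ᵥ (dB B *ᵥ φ)) x ^ 2 := by
    rw [Finset.mul_sum, Finset.mul_sum, ← Finset.sum_add_distrib]
    refine Finset.sum_le_sum fun x _ => ?_
    rw [Pi.sub_apply]
    nlinarith [sq_nonneg ((cellP n l₀ *ᵥ (dB B *ᵥ φ)) x + (Aᵀ *ᵥ (dB B *ᵥ φ)) x)]
  linarith

/-- trace of a Gram matrix -/
lemma trace_gram {I J : Type*} [Fintype I] [Fintype J] (E : Matrix I J ℝ) :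
    (E * Eᵀ).trace = ∑ i, ∑ j, E i j ^ 2 := by
  unfold Matrix.trace
  refine Finset.sum_congr rfl fun i _ => ?_
  rw [diag_apply, Matrix.mul_apply]
  exact Finset.sum_congr rfl fun j _ => by rw [transpose_apply]; ring

/-- rows of a product with a contraction -/
lemma row_contr {I : Type*} {T : Matrix (V n) (V n) ℝ} (hT : TC T) (F : Matrix I (V n) ℝ) (i : I) :
    (F * T) i = T *ᵥ (fun y => F i y) := by
  funext z
  rw [Matrix.mul_apply]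
  unfold mulVec dotProduct
  refine Finset.sum_congr rfl fun y _ => ?_
  have : T y z = T z y := by
    conv_lhs => rw [← hT.ti.transpose]
    rfl
  rw [this, mul_comm]

lemma dB_mul_apply (B : Finset (V n)) (F : Matrix (V n) (V n) ℝ) (x y : V n) :
    (dB B * F) x y = if x ∈ B then F x y else 0 := by
  unfold dB
  rw [diagonal_mul]
  split_ifs
  · rw [one_mul]
  · rw [zero_mul]

/-- square sum of a row of the cell average -/
lemma cellP_row_sq {l₀ : ℕ} (h0 : l₀ ∣ n) (x : V n) :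
    ∑ y, cellP n l₀ x y ^ 2 = 1 / (l₀ : ℝ) ^ 2 := by
  have := ne_div h0
  have hl : (0 : ℝ) < l₀ := by exact_mod_cast Nat.pos_of_dvd_of_pos h0 (NeZero.pos n)
  have h1 : ∑ y, cellP n l₀ x y ^ 2 = (cellP n l₀ * cellP n l₀) x x := by
    rw [Matrix.mul_apply]
    refine Finset.sum_congr rfl fun y _ => ?_
    have : cellP n l₀ y x = cellP n l₀ x y := by
      conv_lhs => rw [← cellP_tr]
      rfl
    rw [this, pow_two]
  rw [h1, cellP_idem h0, cellP_apply h0, if_pos rfl]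
  rw [one_div]

/-- trace of the coarse part -/
theorem E1_trace {B : Finset (V n)} {l₀ : ℕ} (h0 : l₀ ∣ n) (A : Matrix (V n) (V n) ℝ)
    {T : Matrix (V n) (V n) ℝ} (hT : TC T) :
    (cE1 B l₀ A T * (cE1 B l₀ A T)ᵀ).trace ≤
      2 * (B.card : ℝ) / (l₀ : ℝ) ^ 2 + 2 * ∑ x ∈ B, ∑ y, A x y ^ 2 := by
  rw [trace_gram]
  have h1 : ∀ x, ∑ y, cE1 B l₀ A T x y ^ 2 ≤
      if x ∈ B then 2 * (1 / (l₀ : ℝ) ^ 2) + 2 * ∑ y, A x y ^ 2 else 0 := by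
    intro x
    have e : cE1 B l₀ A T x = T *ᵥ (fun y => (dB B * (cellP n l₀ - A)) x y) := by
      unfold cE1
      exact row_contr hT _ x
    rw [e]
    refine (hT.contr _).trans ?_
    split_ifs with hx
    · rw [← cellP_row_sq h0 x, Finset.mul_sum, Finset.mul_sum, ← Finset.sum_add_distrib]
      refine Finset.sum_le_sum fun y _ => ?_
      rw [dB_mul_apply, if_pos hx, Matrix.sub_apply]
      nlinarith [sq_nonneg (cellP n l₀ x y + A x y)]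
    · refine le_of_eq (Finset.sum_eq_zero fun y _ => ?_)
      rw [dB_mul_apply, if_neg hx]
      norm_num
  refine (Finset.sum_le_sum fun x _ => h1 x).trans (le_of_eq ?_)
  rw [← Finset.sum_filter, Finset.filter_mem_eq_inter, Finset.univ_inter, Finset.sum_add_distrib,
    Finset.sum_const, nsmul_eq_mul, ← Finset.mul_sum]
  ring

/-- operator norm of the fine part -/
theorem E2_op {B : Finset (V n)} {l₀ : ℕ} (h0 : l₀ ∣ n) {T : Matrix (V n) (V n) ℝ} (hT : TC T)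
    {r κ : ℝ} (hr : 0 < r) (hκ : 0 < κ) (φ : V n → ℝ) :
    qf (Rk r κ) ((cE2 B l₀ T)ᵀ *ᵥ φ) ≤ 16 * (l₀ : ℝ) ^ 2 / κ * ∑ i, φ i ^ 2 := by
  have := ne_div h0
  have hsR : ∀ k : V n, 0 ≤ sym (Rk r κ) k := fun k => by
    rw [H859.sym_Rk hr hκ.le]
    exact (inv_pos.2 (H859.op_pos hr hκ.le k)).le
  rw [cE2_tr B l₀ hT]
  refine (hT.form (H859.ti_Rk r κ) hsR _).trans ?_
  refine (H859.op_fine h0 (H859.ti_Rk r κ) hr hκ (fun k => le_of_eq (H859.sym_Rk hr hκ.le k))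
    _).trans ?_
  exact mul_le_mul_of_nonneg_left (dB_sq_le B φ) (by positivity)

/-- trace of the fine part -/
theorem E2_trace {B : Finset (V n)} {l₀ : ℕ} (h0 : l₀ ∣ n) {T : Matrix (V n) (V n) ℝ} (hT : TC T)
    {r κ : ℝ} (hr : 0 < r) (hκ : 0 < κ) :
    (cE2 B l₀ T * Rk r κ * (cE2 B l₀ T)ᵀ).trace ≤
      B.card * (4 * (1 / (r * (n : ℝ) ^ 2) + (1 + Real.log n) / κ)) := by
  have := ne_div h0
  have hsR : ∀ k : V n, 0 ≤ sym (Rk r κ) k := fun k => by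
    rw [H859.sym_Rk hr hκ.le]
    exact (inv_pos.2 (H859.op_pos hr hκ.le k)).le
  have h1 := H859.gtr1 (H859.ti_Rk (n := n) r κ) hr hκ
    (fun k => le_of_eq (H859.sym_Rk hr hκ.le k)) (H859.avg_cellP h0 B)
  refine le_trans ?_ h1
  rw [← H859.trace_dB, H859.trace_conj, H859.trace_conj]
  refine Finset.sum_le_sum fun x _ => ?_
  have e : cE2 B l₀ T x = T *ᵥ (fun y => (dB B * (1 - cellP n l₀)) x y) := by
    unfold cE2
    exact row_contr hT _ x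
  rw [e]
  exact hT.form (H859.ti_Rk r κ) hsR _

end

end Vale.Agent.P159.H663
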