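import Vale.Agent.P159.H663.HtE
import Vale.Agent.P159.H816.HtFine

/-!
P159 / module HT (helper663): **the tail of the field, final form**, integer and neutral model.

`μ' = wM (wT b N) (MC N l t τ)` resp. `nMC N l b t τ x₀`, `J = cobVᵀ e`, `R = Rk τ (κ / l²)`,
`A = c • ((E₁ + E₂) * cobV N l)`. Under `Rs μ' J ≤ 1`:

`P_J (|A (h - G' J)|² > ρ) ≤ exp (r₁ / (2 k₁) - τ ρ / (128 c² k₁))`
`  + 2 exp (d / 2 + r₂ / (2 k₂) - ρ / (64 c² k₂))`,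

`E₁ᵀ ≤ √k₁`, `tr E₁ E₁ᵀ ≤ r₁`, `E₂ R E₂ᵀ ≤ k₂`, `tr E₂ R E₂ᵀ ≤ r₂`, `<e, R e> - <J, G' J> ≤ d`,
`16 c² r₁ / τ + 4 c² k₂ d ≤ ρ / 2`.
* `ht_int`, `ht_neu`; * `ht_low_int`, `ht_low_neu` : only a coarse part (block means, crude bound).
-/

namespace Vale.Agent.P159.H663

open Finset Matrix MeasureTheory ProbabilityTheory
open Vale.Agent.P159.TM.H104 (EM Ex Cv K3 Lg li nh Gr)
open Vale.Agent.P159.TM.H764 (EE grd)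
open Vale.Agent.P159.TM.Spec (V)
open Vale.Agent.P159.TM.SpecC (Tor wT)
open Vale.Agent.P159.H37
open Vale.Agent.P159.H864
open Vale.Agent.P159.H612 (om0)
open Vale.Agent.P159.H859 (Rk Avg dB ravg)
open Vale.Agent.P159.H239 (indh)
open Vale.Agent.P159.H816 (Gam Hb)
open Vale.Agent.P159.H963 (Neu pin nM nMC MF Pn)

noncomputable section

/-! ### sources of a pinned weight -/

section pinned

variable {V : Type*} [Fintype V] [DecidableEq V]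

/-- the source at the pin is irrelevant -/
lemma T_pin_src (μ : (V → ℤ) → ℝ) (x₀ : V) (J : V → ℝ) (F : (V → ℤ) → ℝ) (a : ℝ) :
    TM.H104.T (pin μ x₀) (J + a • Pi.single x₀ 1) F = TM.H104.T (pin μ x₀) J F := by
  unfold TM.H104.T
  refine tsum_congr fun h => ?_
  by_cases h0 : h x₀ = 0
  · rw [TM.H104.li_add]
    have e : li (a • (Pi.single x₀ 1 : V → ℝ)) h = 0 := by
      unfold li
      refine Finset.sum_eq_zero fun x _ => ?_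
      rw [Pi.smul_apply]
      by_cases hx : x = x₀
      · rw [hx, h0]
        simp
      · rw [Pi.single_eq_of_ne hx]
        simp
    rw [e, add_zero]
  · rw [H963.pin_of_ne h0]
    ring

lemma Ex_pin_src (μ : (V → ℤ) → ℝ) (x₀ : V) (J : V → ℝ) (F : (V → ℤ) → ℝ) (a : ℝ) :
    Ex (pin μ x₀) (J + a • Pi.single x₀ 1) F = Ex (pin μ x₀) J F := by
  unfold TM.H104.Ex
  rw [T_pin_src, T_pin_src]

lemma Cm_pin_src (μ : (V → ℤ) → ℝ) (x₀ : V) (J : V → ℝ) (a : ℝ) :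
    Cm (pin μ x₀) (J + a • Pi.single x₀ 1) = Cm (pin μ x₀) J := by
  ext x y
  show Cv _ _ _ _ = Cv _ _ _ _
  unfold TM.H104.Cv
  rw [Ex_pin_src, Ex_pin_src, Ex_pin_src]

/-- a bound for neutral sources is a bound for all sources -/
lemma Cm_pin_all (μ : (V → ℤ) → ℝ) (x₀ : V) {u : V → ℝ} {K : ℝ}
    (h : ∀ J : V → ℝ, Neu J → qf (Cm (pin μ x₀) J) u ≤ K) (J : V → ℝ) :
    qf (Cm (pin μ x₀) J) u ≤ K := by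
  rw [← Cm_pin_src μ x₀ J (-∑ x, J x)]
  refine h _ ?_
  unfold H963.Neu
  simp only [Pi.add_apply, Pi.smul_apply, smul_eq_mul, Finset.sum_add_distrib, ← Finset.mul_sum]
  simp

end pinned

/-! ### Cauchy-Schwarz on a subspace -/

section neu

variable {V W : Type*} [Fintype V] [DecidableEq V] [Fintype W]

/-- `|C D J|² ≤ k <J, D J>`, `D` nonnegative on the neutral vectors -/
lemma sq_form_neu [Nonempty V] {D : Matrix V V ℝ} (hD : Dᵀ = D) (h0 : ∀ u, Neu u → 0 ≤ qf D u)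
    {C : Matrix W V ℝ} (hC : ∀ w, Neu (C w)) {k : ℝ} (hk : 0 ≤ k)
    (h : ∀ φ : W → ℝ, qf D (Cᵀ *ᵥ φ) ≤ k * ∑ i, φ i ^ 2) {J : V → ℝ} (hJ : Neu J) :
    ∑ w, ((C *ᵥ (D *ᵥ J)) w) ^ 2 ≤ k * qf D J := by
  have hP : (Pn : Matrix V V ℝ)ᵀ = Pn := H963.Pn_transpose
  have hn : ∀ u : V → ℝ, Neu u → (Pn : Matrix V V ℝ) *ᵥ u = u := fun u hu => H963.Pn_of_neu hu
  have hCt : ∀ φ : W → ℝ, Neu (Cᵀ *ᵥ φ) := fun φ => Neu.obs hC φ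
  set D' : Matrix V V ℝ := Pn * D * Pn with hD'
  have hq : ∀ u : V → ℝ, qf D' u = qf D ((Pn : Matrix V V ℝ) *ᵥ u) := by
    intro u
    rw [hD', qf_eq, qf_eq, ← mulVec_mulVec, ← mulVec_mulVec, dotProduct_mulVec,
      ← mulVec_transpose, hP]
  have h1 : D'ᵀ = D' := by
    rw [hD', transpose_mul, transpose_mul, hP, hD, Matrix.mul_assoc]
  have h2 := sq_form_le h1 (fun u => by rw [hq]; exact h0 _ (H963.neu_Pn u)) C hk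
    (fun φ => by rw [hq, hn _ (hCt φ)]; exact h φ) J
  rw [hq, hn J hJ] at h2
  have h3 : C *ᵥ (D' *ᵥ J) = C *ᵥ (D *ᵥ J) := by
    rw [hD', ← mulVec_mulVec, ← mulVec_mulVec, hn J hJ]
    funext w
    show C w ⬝ᵥ ((Pn : Matrix V V ℝ) *ᵥ (D *ᵥ J)) = C w ⬝ᵥ (D *ᵥ J)
    rw [dotProduct_mulVec, ← mulVec_transpose, hP, hn _ (hC w)]
  rwa [h3] at h2

end neu

/-! ### the core -/

section core

variable {N l : ℕ} [NeZero N] [NeZero (N / l)] {b t τ κ cs : ℝ} {W : Type*} [Fintype W]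

/-- assembly for a weight with all the inputs -/
theorem ht_core [DecidableEq W] {μ : (V N → ℤ) → ℝ} (hE : EM μ) (hev : Ev μ) (hpk : PK μ)
    (hτ : 0 < τ) {c : ℝ} (hc : 0 < c) {E₁ E₂ : Matrix W (V (N / l)) ℝ} {k₁ r₁ : ℝ} (hk₁ : 0 < k₁)
    (hC : ∀ (J : V N → ℝ) (φ : W → ℝ), qf (Cm μ J) ((c • (E₁ * cobV N l))ᵀ *ᵥ φ) ≤
      qf ((2 * c ^ 2 / τ) • (E₁ * E₁ᵀ)) φ)
    (h1 : ∀ φ : W → ℝ, ∑ i, (E₁ᵀ *ᵥ φ) i ^ 2 ≤ k₁ * ∑ i, φ i ^ 2) (hr₁ : (E₁ * E₁ᵀ).trace ≤ r₁)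
    {J : V N → ℝ} (hR : Rs μ J ≤ 1) {m₂ : V N → ℝ} {ρ₂ π₂ d₂ : ℝ}
    (h2 : Ex μ J ({h : V N → ℤ |
      ρ₂ ≤ ∑ w, (((c • (E₂ * cobV N l)) *ᵥ (re h - m₂)) w) ^ 2}.indicator
      fun _ => (1 : ℝ)) ≤ π₂)
    (hd : ∑ w, (((c • (E₂ * cobV N l)) *ᵥ (m₂ - Gm μ *ᵥ J)) w) ^ 2 ≤ d₂)
    {ρ₁ ρ : ℝ} (hρ : 4 * ρ₁ + 16 * c ^ 2 * r₁ / τ + 4 * ρ₂ + 4 * d₂ ≤ ρ) :
    Ex μ J (indh {h | ρ < ∑ w,
      (((c • ((E₁ + E₂) * cobV N l)) *ᵥ (re h - Gm μ *ᵥ J)) w) ^ 2}) ≤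
      Real.exp (r₁ / (2 * k₁) - τ * ρ₁ / (8 * c ^ 2 * k₁)) + π₂ := by
  set θ : ℝ := τ / (4 * c ^ 2 * k₁) with hθ
  have hθ0 : 0 ≤ θ := by positivity
  have hA : c • ((E₁ + E₂) * cobV N l) = c • (E₁ * cobV N l) + c • (E₂ * cobV N l) := by
    rw [Matrix.add_mul, smul_add]
  have hS : ((2 * c ^ 2 / τ) • (E₁ * E₁ᵀ))ᵀ = (2 * c ^ 2 / τ) • (E₁ * E₁ᵀ) := by
    rw [transpose_smul, transpose_mul, transpose_transpose]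
  have hθS : ∀ φ : W → ℝ, θ * qf ((2 * c ^ 2 / τ) • (E₁ * E₁ᵀ)) φ ≤ (∑ k, φ k ^ 2) / 2 := by
    intro φ
    rw [qf_smul_mat, qf_mul_tr]
    have e1 : θ * (2 * c ^ 2 / τ) = 1 / (2 * k₁) := by
      rw [hθ]
      field_simp
      norm_num
    rw [← mul_assoc, e1]
    have h3 := mul_le_mul_of_nonneg_left (h1 φ) (show (0 : ℝ) ≤ 1 / (2 * k₁) by positivity)
    refine h3.trans (le_of_eq ?_)
    field_simp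
  have htr : ((2 * c ^ 2 / τ) • (E₁ * E₁ᵀ)).trace ≤ 2 * c ^ 2 / τ * r₁ := by
    rw [trace_smul, smul_eq_mul]
    exact mul_le_mul_of_nonneg_left hr₁ (by positivity)
  have h3 := ht_asm hE hev hpk J hR hA hS hC hθ0 hθS
    (ρ₁ := ρ₁) h2 hd (ρ := ρ) (by
      have : 8 * (2 * c ^ 2 / τ * r₁) = 16 * c ^ 2 * r₁ / τ := by ring
      linarith)
  refine h3.trans (add_le_add (Real.exp_le_exp.2 ?_) le_rfl)
  have h4 : θ * ((2 * c ^ 2 / τ) • (E₁ * E₁ᵀ)).trace ≤ θ * (2 * c ^ 2 / τ * r₁) :=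
    mul_le_mul_of_nonneg_left htr hθ0
  have h5 : θ * (2 * c ^ 2 / τ * r₁) = r₁ / (2 * k₁) := by
    rw [hθ]
    field_simp
    norm_num
  have h6 : θ * ρ₁ / 2 = τ * ρ₁ / (8 * c ^ 2 * k₁) := by
    rw [hθ]
    field_simp
    ring
  linarith

/-- coarse part only -/
theorem ht_core_low [DecidableEq W] {μ : (V N → ℤ) → ℝ} (hE : EM μ) (hev : Ev μ) (hpk : PK μ)
    (hτ : 0 < τ) {c : ℝ} (hc : 0 < c) {E₁ : Matrix W (V (N / l)) ℝ} {k₁ r₁ : ℝ} (hk₁ : 0 < k₁)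
    (hC : ∀ (J : V N → ℝ) (φ : W → ℝ), qf (Cm μ J) ((c • (E₁ * cobV N l))ᵀ *ᵥ φ) ≤
      qf ((2 * c ^ 2 / τ) • (E₁ * E₁ᵀ)) φ)
    (h1 : ∀ φ : W → ℝ, ∑ i, (E₁ᵀ *ᵥ φ) i ^ 2 ≤ k₁ * ∑ i, φ i ^ 2) (hr₁ : (E₁ * E₁ᵀ).trace ≤ r₁)
    {J : V N → ℝ} (hR : Rs μ J ≤ 1) {ρ : ℝ} (hρ0 : 0 < ρ) (hρ : 16 * c ^ 2 * r₁ / τ ≤ ρ / 2) :
    Ex μ J (indh {h | ρ < ∑ w,
      (((c • (E₁ * cobV N l)) *ᵥ (re h - Gm μ *ᵥ J)) w) ^ 2}) ≤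
      Real.exp (r₁ / (2 * k₁) - τ * ρ / (128 * c ^ 2 * k₁)) := by
  have h2 : Ex μ J ({h : V N → ℤ |
      ρ / 16 ≤ ∑ w, (((c • ((0 : Matrix W (V (N / l)) ℝ) * cobV N l)) *ᵥ (re h - 0)) w) ^ 2
      }.indicator fun _ => (1 : ℝ)) ≤ 0 := by
    have e : {h : V N → ℤ |
      ρ / 16 ≤ ∑ w, (((c • ((0 : Matrix W (V (N / l)) ℝ) * cobV N l)) *ᵥ (re h - 0)) w) ^ 2} =
      ∅ := by
      ext h
      simp only [Matrix.zero_mul, smul_zero, zero_mulVec, Pi.zero_apply, Set.mem_ofPred_eq,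
        Set.mem_empty_iff_false, iff_false, not_le]
      simp
      positivity
    rw [e]
    simp only [Set.indicator_empty]
    rw [TM.H104.Ex_const hE]
  have h3 := ht_core hE hev hpk hτ hc (E₂ := 0) hk₁ hC h1 hr₁ hR (m₂ := 0) h2 (d₂ := 0) (by
    simp) (ρ₁ := ρ / 16) (ρ := ρ) (by linarith)
  rw [add_zero, add_zero] at h3
  refine h3.trans (le_of_eq ?_)
  congr 2
  ring

end core

/-! ### the two models -/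

section models

variable {N l : ℕ} [NeZero N] [NeZero (N / l)] {b t τ κ cs : ℝ} {W : Type*} [Fintype W]

omit [Fintype W] in
lemma cell_row (hl : l ∣ N) (c : ℝ) {E : Matrix W (V (N / l)) ℝ} (hE : ∀ w, Neu (E w)) (w : W) :
    Neu ((c • (E * cobV N l)) w) := by
  have e : (c • (E * cobV N l)) w = c • ((cobV N l)ᵀ *ᵥ (E w)) := by
    funext x
    rw [Matrix.smul_apply, Pi.smul_apply, Matrix.mul_apply]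
    congr 1
    unfold mulVec dotProduct
    exact Finset.sum_congr rfl fun y _ => mul_comm _ _
  rw [e]
  exact (H963.neu_cobV_tr hl (hE w)).smul c

/-- the covariance of the neutral model in every source, factor `2` -/
theorem cov_two_n (hb : 0 < b) (hl : l ∣ N) (hτ : 0 < τ) (h : τ ≤ t)
    (hω : om0 N b (MC N l t (2 * τ)) ≤ 1 / 16) (x₀ : V N) (J : V N → ℝ) {g : V (N / l) → ℝ}
    (hg : Neu g) :
    qf (Cm (nMC N l b t τ x₀) J) ((cobV N l)ᵀ *ᵥ g) ≤ 2 / τ * ∑ i, g i ^ 2 := by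
  refine Cm_pin_all _ x₀ (fun J hJ => ?_) J
  have h1 := H764.cov_cell_n hb hl hτ h (by linarith) 0 x₀ hJ (H963.neu_cobV_tr hl hg)
  rw [H770.wTD_zero] at h1
  set ω := om0 N b (MC N l t (2 * τ)) with hωd
  have h0 : 0 ≤ ω := by
    have h2 := H764.om0_nonneg (τ := τ) hb (H764.ch_cell (b := b) hb hl hτ h 0)
    rw [H764.dbM_cell hl] at h2
    exact h2
  refine h1.trans (mul_le_mul_of_nonneg_right ?_ (sq_vec_nonneg g))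
  have h3 : (0 : ℝ) < 1 - ω := by linarith
  have h4 : 4 * ω / (1 - ω) ≤ 1 := by
    rw [div_le_one h3]
    linarith
  exact div_le_div_of_nonneg_right (by linarith) hτ.le

/-- **LOW, neutral model** -/
theorem low_dom_n (hb : 0 < b) (hl : l ∣ N) (hτ : 0 < τ) (h : τ ≤ t)
    (hω : om0 N b (MC N l t (2 * τ)) ≤ 1 / 16) (x₀ : V N) (c : ℝ)
    {E : Matrix W (V (N / l)) ℝ} (hE : ∀ w, Neu (E w)) (J : V N → ℝ) (φ : W → ℝ) :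
    qf (Cm (nMC N l b t τ x₀) J) ((c • (E * cobV N l))ᵀ *ᵥ φ) ≤
      qf ((2 * c ^ 2 / τ) • (E * Eᵀ)) φ := by
  rw [cell_tr, qf_smul, qf_smul_mat, qf_mul_tr]
  refine (mul_le_mul_of_nonneg_left (cov_two_n hb hl hτ h hω x₀ J (Neu.obs hE φ))
    (sq_nonneg c)).trans (le_of_eq ?_)
  ring

/-- reference means, neutral model -/
theorem mean_two_n (hb : 0 ≤ b) (hl : l ∣ N) (hτ : 0 < τ) (h : τ ≤ t) (hκ : 0 ≤ κ)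
    (hbκ : b * κ ≤ 1) (x₀ : V N) (c : ℝ) {E : Matrix W (V (N / l)) ℝ} (hEn : ∀ w, Neu (E w))
    {k : ℝ} (hk : 0 ≤ k)
    (hE : ∀ φ : W → ℝ, qf (Rk τ (κ / (l : ℝ) ^ 2)) (Eᵀ *ᵥ φ) ≤ k * ∑ i, φ i ^ 2)
    {e : V (N / l) → ℝ} (he : Neu e) :
    ∑ w, (((c • (E * cobV N l)) *ᵥ (Hb N l t τ κ *ᵥ ((cobV N l)ᵀ *ᵥ e) -
      Gm (nMC N l b t τ x₀) *ᵥ ((cobV N l)ᵀ *ᵥ e))) w) ^ 2 ≤
      c ^ 2 * (k * (qf (Rk τ (κ / (l : ℝ) ^ 2)) e -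
        qf (Gm (nMC N l b t τ x₀)) ((cobV N l)ᵀ *ᵥ e))) := by
  set H : Matrix (V N) (V N) ℝ := Hb N l t τ κ with hH
  set G : Matrix (V N) (V N) ℝ := Gm (nMC N l b t τ x₀) with hG
  set J : V N → ℝ := (cobV N l)ᵀ *ᵥ e with hJ
  have hMs : (MC N l t τ)ᵀ = MC N l t τ := MC_tr N l t τ
  have hMge : ∀ u : V N → ℝ, τ * ∑ x, u x ^ 2 ≤ qf (MC N l t τ) u := fun u => qf_MC_ge hl h u
  have hHs : Hᵀ = H := by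
    rw [hH]
    unfold H816.Hb
    rw [transpose_nonsing_inv, transpose_add, transpose_smul, hMs, ti_lapM.transpose]
  have hGs : Gᵀ = G := Gm_symm _
  have hHG : ∀ u : V N → ℝ, Neu u → qf G u ≤ qf H u := fun u hu =>
    H859.gmn_le_res hb (H963.mf_MC hl hτ h) x₀ hκ hbκ hu
  have hMτ : ∀ f : V N → ℝ, τ * ∑ c, (cobV N l *ᵥ f) c ^ 2 ≤ qf (MC N l t τ) f := by
    intro f
    rw [qf_MC' hl]
    have h1 : 0 ≤ t * ∑ x, (f x - (cellP N l *ᵥ f) x) ^ 2 :=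
      mul_nonneg (hτ.le.trans h) (Finset.sum_nonneg fun _ _ => sq_nonneg _)
    linarith
  have hHR : ∀ u : V (N / l) → ℝ, qf H ((cobV N l)ᵀ *ᵥ u) ≤ qf (Rk τ (κ / (l : ℝ) ^ 2)) u :=
    fun u => H859.cob_res_le hl hMs hτ hMge hτ hκ hMτ u
  have hG0 : ∀ u : V N → ℝ, 0 ≤ qf G u := fun u =>
    H114.qf_Cm_nonneg (H963.em_nMC hb hl hτ h x₀) 0 u
  have hDs : (H - G)ᵀ = H - G := by rw [transpose_sub, hHs, hGs]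
  have hJn : Neu J := H963.neu_cobV_tr hl he
  have h1 := sq_form_neu hDs (fun u hu => by
      rw [H864.qf_sub_mat, sub_nonneg]
      exact hHG u hu) (C := c • (E * cobV N l)) (cell_row hl c hEn)
    (k := c ^ 2 * k) (by positivity) (fun φ => by
      rw [cell_tr, qf_smul, mul_assoc]
      refine mul_le_mul_of_nonneg_left ?_ (sq_nonneg c)
      rw [H864.qf_sub_mat]
      linarith [hHR (Eᵀ *ᵥ φ), hG0 ((cobV N l)ᵀ *ᵥ (Eᵀ *ᵥ φ)), hE φ]) hJn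
  rw [← sub_mulVec]
  refine h1.trans ?_
  rw [mul_assoc]
  refine mul_le_mul_of_nonneg_left (mul_le_mul_of_nonneg_left ?_ hk) (sq_nonneg c)
  rw [H864.qf_sub_mat]
  linarith [hHR e]

omit [NeZero N] in
/-- the scaled fine part: operator norm, form, trace -/
lemma fine_scal {c κ' : ℝ} (hc : 0 < c) {E : Matrix W (V (N / l)) ℝ} {k₂ r₂ : ℝ} (hk₂ : 0 < k₂)
    (h2 : ∀ φ : W → ℝ, qf (Rk τ κ') (Eᵀ *ᵥ φ) ≤ k₂ * ∑ i, φ i ^ 2)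
    (hr₂ : ∑ w, qf (Rk τ κ') (E w) ≤ r₂)
    (h3 : ∀ φ : W → ℝ, ∑ i, (Eᵀ *ᵥ φ) i ^ 2 ≤ ∑ i, φ i ^ 2) :
    (∀ φ : W → ℝ, ∑ i, ((c • E)ᵀ *ᵥ φ) i ^ 2 ≤ c ^ 2 * ∑ i, φ i ^ 2) ∧
    (∀ φ : W → ℝ, 1 / (2 * c ^ 2 * k₂) * qf (Rk τ κ') ((c • E)ᵀ *ᵥ φ) ≤ (∑ i, φ i ^ 2) / 2) ∧
    1 / (2 * c ^ 2 * k₂) * ∑ w, qf (Rk τ κ') ((c • E) w) ≤ r₂ / (2 * k₂) := by
  refine ⟨fun φ => ?_, fun φ => ?_, ?_⟩
  · rw [transpose_smul, smul_mulVec]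
    have e : ∑ i, (c • (Eᵀ *ᵥ φ)) i ^ 2 = c ^ 2 * ∑ i, (Eᵀ *ᵥ φ) i ^ 2 := by
      rw [Finset.mul_sum]
      exact Finset.sum_congr rfl fun i _ => by rw [Pi.smul_apply, smul_eq_mul, mul_pow]
    rw [e]
    exact mul_le_mul_of_nonneg_left (h3 φ) (sq_nonneg c)
  · rw [transpose_smul, smul_mulVec, qf_smul]
    have h4 := mul_le_mul_of_nonneg_left (h2 φ) (show (0 : ℝ) ≤ 1 / (2 * k₂) by positivity)
    refine le_trans (le_of_eq ?_) (h4.trans (le_of_eq ?_))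
    · field_simp
    · field_simp
  · have e : ∀ w, qf (Rk τ κ') ((c • E) w) = c ^ 2 * qf (Rk τ κ') (E w) := by
      intro w
      have : (c • E) w = c • (E w) := rfl
      rw [this, qf_smul]
    simp only [e, ← Finset.mul_sum]
    have h4 := mul_le_mul_of_nonneg_left hr₂ (show (0 : ℝ) ≤ 1 / (2 * k₂) by positivity)
    refine le_trans (le_of_eq ?_) (h4.trans (le_of_eq ?_))
    · field_simp
    · field_simp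

/-- **HT, neutral model** -/
theorem ht_neu [DecidableEq W] (hb : 0 < b) (hl : l ∣ N) (hτ : 0 < τ) (h : τ ≤ t)
    (hω : om0 N b (MC N l t (2 * τ)) ≤ 1 / 16) (hκ : 0 < κ)
    (hcs0 : 0 ≤ cs) (hcs : κ * (b + 12 * max b 1 ^ 2 * cs ^ 2) ≤ 1) (hcs1 : cs ≤ 1) (x₀ : V N)
    {c : ℝ} (hc : 0 < c) {E₁ E₂ : Matrix W (V (N / l)) ℝ} (hn₁ : ∀ w, Neu (E₁ w))
    (hn₂ : ∀ w, Neu (E₂ w)) {k₁ r₁ : ℝ} (hk₁ : 0 < k₁)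
    (h1 : ∀ φ : W → ℝ, ∑ i, (E₁ᵀ *ᵥ φ) i ^ 2 ≤ k₁ * ∑ i, φ i ^ 2) (hr₁ : (E₁ * E₁ᵀ).trace ≤ r₁)
    {k₂ r₂ : ℝ} (hk₂ : 0 < k₂)
    (h2 : ∀ φ : W → ℝ, qf (Rk τ (κ / (l : ℝ) ^ 2)) (E₂ᵀ *ᵥ φ) ≤ k₂ * ∑ i, φ i ^ 2)
    (hr₂ : ∑ w, qf (Rk τ (κ / (l : ℝ) ^ 2)) (E₂ w) ≤ r₂)
    (h3 : ∀ φ : W → ℝ, ∑ i, (E₂ᵀ *ᵥ φ) i ^ 2 ≤ ∑ i, φ i ^ 2)
    {e : V (N / l) → ℝ} (hen : Neu e) (hR : Rs (nMC N l b t τ x₀) ((cobV N l)ᵀ *ᵥ e) ≤ 1)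
    {d : ℝ} (hd : qf (Rk τ (κ / (l : ℝ) ^ 2)) e -
      qf (Gm (nMC N l b t τ x₀)) ((cobV N l)ᵀ *ᵥ e) ≤ d)
    (he : 4 * Gam N t τ κ * ∑ i, e i ^ 2 ≤ cs ^ 2) {ρ : ℝ} (hρ0 : 0 ≤ ρ)
    (hs : 4 * Gam N t τ κ * (1 / k₂ * (ρ / (32 * c ^ 2 * k₂) + 2 * Fintype.card W)) ≤ cs ^ 2)
    (hρ : 16 * c ^ 2 * r₁ / τ + 4 * c ^ 2 * k₂ * d ≤ ρ / 2) :
    Ex (nMC N l b t τ x₀) ((cobV N l)ᵀ *ᵥ e) (indh {h | ρ < ∑ w,
      (((c • ((E₁ + E₂) * cobV N l)) *ᵥ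
        (re h - Gm (nMC N l b t τ x₀) *ᵥ ((cobV N l)ᵀ *ᵥ e))) w) ^ 2}) ≤
      Real.exp (r₁ / (2 * k₁) - τ * ρ / (128 * c ^ 2 * k₁)) +
        2 * Real.exp (d / 2 + r₂ / (2 * k₂) - ρ / (64 * c ^ 2 * k₂)) := by
  have hE := H963.em_nMC (N := N) hb.le hl hτ h x₀
  have hbκ : b * κ ≤ 1 := by
    have : 0 ≤ κ * (12 * max b 1 ^ 2 * cs ^ 2) := by positivity
    nlinarith
  obtain ⟨f1, f2, f3⟩ := fine_scal hc hk₂ h2 hr₂ h3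
  have hf := H816.fine_neu hb.le hl hτ h hκ hcs0 hcs hcs1 x₀ hen (A := c • E₂)
    (fun k => (hn₂ k).smul c) (θ := 1 / (2 * c ^ 2 * k₂)) (a := ρ / 16) (a0 := c ^ 2)
    (by positivity) (by positivity) (by positivity) f1 f2 he (by
      refine le_trans (le_of_eq ?_) hs
      congr 1
      field_simp
      ring)
  rw [Matrix.smul_mul] at hf
  have hm := mean_two_n hb.le hl hτ h hκ.le hbκ x₀ c hn₂ hk₂.le h2 hen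
  have h4 := ht_core hE (H963.ev_nMC hb.le t τ x₀) (H963.pk_nMC hb.le hl hτ h x₀) hτ hc
    (E₂ := E₂) hk₁ (fun J φ => low_dom_n hb hl hτ h hω x₀ c hn₁ J φ) h1 hr₁ hR
    (m₂ := Hb N l t τ κ *ᵥ ((cobV N l)ᵀ *ᵥ e)) (ρ₂ := ρ / 16) hf
    (hm.trans (mul_le_mul_of_nonneg_left (mul_le_mul_of_nonneg_left hd hk₂.le) (sq_nonneg c)))
    (ρ₁ := ρ / 16) (ρ := ρ) (by linarith)
  refine h4.trans (add_le_add (le_of_eq ?_) ?_)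
  · congr 2
    ring
  · refine mul_le_mul_of_nonneg_left (Real.exp_le_exp.2 ?_) zero_le_two
    have e1 : 1 / (2 * c ^ 2 * k₂) * (ρ / 16) / 2 = ρ / (64 * c ^ 2 * k₂) := by
      field_simp
      ring
    linarith

/-- **HT, integer model** -/
theorem ht_int [DecidableEq W] (hb : 0 < b) (hl : l ∣ N) (hτ : 0 < τ) (h : τ ≤ t)
    (hω : om0 N b (MC N l t (2 * τ)) ≤ 1 / 16) (hκ : 0 < κ)
    (hcs0 : 0 ≤ cs) (hcs : κ * (b + 12 * max b 1 ^ 2 * cs ^ 2) ≤ 1) (hcs1 : cs ≤ 1)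
    {c : ℝ} (hc : 0 < c) {E₁ E₂ : Matrix W (V (N / l)) ℝ} {k₁ r₁ : ℝ} (hk₁ : 0 < k₁)
    (h1 : ∀ φ : W → ℝ, ∑ i, (E₁ᵀ *ᵥ φ) i ^ 2 ≤ k₁ * ∑ i, φ i ^ 2) (hr₁ : (E₁ * E₁ᵀ).trace ≤ r₁)
    {k₂ r₂ : ℝ} (hk₂ : 0 < k₂)
    (h2 : ∀ φ : W → ℝ, qf (Rk τ (κ / (l : ℝ) ^ 2)) (E₂ᵀ *ᵥ φ) ≤ k₂ * ∑ i, φ i ^ 2)
    (hr₂ : ∑ w, qf (Rk τ (κ / (l : ℝ) ^ 2)) (E₂ w) ≤ r₂)
    (h3 : ∀ φ : W → ℝ, ∑ i, (E₂ᵀ *ᵥ φ) i ^ 2 ≤ ∑ i, φ i ^ 2)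
    {e : V (N / l) → ℝ} (hR : Rs (wM (wT b N) (MC N l t τ)) ((cobV N l)ᵀ *ᵥ e) ≤ 1)
    {d : ℝ} (hd : qf (Rk τ (κ / (l : ℝ) ^ 2)) e - qf (Gc l (GM N l b t τ)) e ≤ d)
    (he : 4 * Gam N t τ κ * ∑ i, e i ^ 2 ≤ cs ^ 2) {ρ : ℝ} (hρ0 : 0 ≤ ρ)
    (hs : 4 * Gam N t τ κ * (1 / k₂ * (ρ / (32 * c ^ 2 * k₂) + 2 * Fintype.card W)) ≤ cs ^ 2)
    (hρ : 16 * c ^ 2 * r₁ / τ + 4 * c ^ 2 * k₂ * d ≤ ρ / 2) :
    Ex (wM (wT b N) (MC N l t τ)) ((cobV N l)ᵀ *ᵥ e) (indh {h | ρ < ∑ w,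
      (((c • ((E₁ + E₂) * cobV N l)) *ᵥ
        (re h - Gm (wM (wT b N) (MC N l t τ)) *ᵥ ((cobV N l)ᵀ *ᵥ e))) w) ^ 2}) ≤
      Real.exp (r₁ / (2 * k₁) - τ * ρ / (128 * c ^ 2 * k₁)) +
        2 * Real.exp (d / 2 + r₂ / (2 * k₂) - ρ / (64 * c ^ 2 * k₂)) := by
  have hbκ : b * κ ≤ 1 := by
    have : 0 ≤ κ * (12 * max b 1 ^ 2 * cs ^ 2) := by positivity
    nlinarith
  obtain ⟨f1, f2, f3⟩ := fine_scal hc hk₂ h2 hr₂ h3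
  have hf := H816.fine_int hb.le hl hτ h hκ hcs0 hcs hcs1 e (c • E₂)
    (θ := 1 / (2 * c ^ 2 * k₂)) (a := ρ / 16) (a0 := c ^ 2)
    (by positivity) (by positivity) (by positivity) f1 f2 he (by
      refine le_trans (le_of_eq ?_) hs
      congr 1
      field_simp
      ring)
  rw [Matrix.smul_mul] at hf
  have hm := mean_two hb.le hl hτ h hκ.le hbκ c E₂ hk₂.le h2 e
  have h4 := ht_tor hb hl hτ h hω hc (E₂ := E₂) hk₁ h1 hr₁ hR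
    (m₂ := Hb N l t τ κ *ᵥ ((cobV N l)ᵀ *ᵥ e)) (ρ₂ := ρ / 16) hf
    (hm.trans (mul_le_mul_of_nonneg_left (mul_le_mul_of_nonneg_left hd hk₂.le) (sq_nonneg c)))
    (ρ₁ := ρ / 16) (ρ := ρ) (by linarith)
  refine h4.trans (add_le_add (le_of_eq ?_) ?_)
  · congr 2
    ring
  · refine mul_le_mul_of_nonneg_left (Real.exp_le_exp.2 ?_) zero_le_two
    have e1 : 1 / (2 * c ^ 2 * k₂) * (ρ / 16) / 2 = ρ / (64 * c ^ 2 * k₂) := by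
      field_simp
      ring
    linarith

/-- **coarse part only, neutral model** -/
theorem ht_low_neu [DecidableEq W] (hb : 0 < b) (hl : l ∣ N) (hτ : 0 < τ) (h : τ ≤ t)
    (hω : om0 N b (MC N l t (2 * τ)) ≤ 1 / 16) (x₀ : V N)
    {c : ℝ} (hc : 0 < c) {E₁ : Matrix W (V (N / l)) ℝ} (hn₁ : ∀ w, Neu (E₁ w))
    {k₁ r₁ : ℝ} (hk₁ : 0 < k₁)
    (h1 : ∀ φ : W → ℝ, ∑ i, (E₁ᵀ *ᵥ φ) i ^ 2 ≤ k₁ * ∑ i, φ i ^ 2) (hr₁ : (E₁ * E₁ᵀ).trace ≤ r₁)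
    {J : V N → ℝ} (hR : Rs (nMC N l b t τ x₀) J ≤ 1) {ρ : ℝ} (hρ0 : 0 < ρ)
    (hρ : 16 * c ^ 2 * r₁ / τ ≤ ρ / 2) :
    Ex (nMC N l b t τ x₀) J (indh {h | ρ < ∑ w,
      (((c • (E₁ * cobV N l)) *ᵥ (re h - Gm (nMC N l b t τ x₀) *ᵥ J)) w) ^ 2}) ≤
      Real.exp (r₁ / (2 * k₁) - τ * ρ / (128 * c ^ 2 * k₁)) :=
  ht_core_low (H963.em_nMC (N := N) hb.le hl hτ h x₀) (H963.ev_nMC hb.le t τ x₀)
    (H963.pk_nMC hb.le hl hτ h x₀) hτ hc hk₁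
    (fun J φ => low_dom_n hb hl hτ h hω x₀ c hn₁ J φ) h1 hr₁ hR hρ0 hρ

/-- **coarse part only, integer model** -/
theorem ht_low_int [DecidableEq W] (hb : 0 < b) (hl : l ∣ N) (hτ : 0 < τ) (h : τ ≤ t)
    (hω : om0 N b (MC N l t (2 * τ)) ≤ 1 / 16)
    {c : ℝ} (hc : 0 < c) {E₁ : Matrix W (V (N / l)) ℝ}
    {k₁ r₁ : ℝ} (hk₁ : 0 < k₁)
    (h1 : ∀ φ : W → ℝ, ∑ i, (E₁ᵀ *ᵥ φ) i ^ 2 ≤ k₁ * ∑ i, φ i ^ 2) (hr₁ : (E₁ * E₁ᵀ).trace ≤ r₁)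
    {J : V N → ℝ} (hR : Rs (wM (wT b N) (MC N l t τ)) J ≤ 1) {ρ : ℝ} (hρ0 : 0 < ρ)
    (hρ : 16 * c ^ 2 * r₁ / τ ≤ ρ / 2) :
    Ex (wM (wT b N) (MC N l t τ)) J (indh {h | ρ < ∑ w,
      (((c • (E₁ * cobV N l)) *ᵥ (re h - Gm (wM (wT b N) (MC N l t τ)) *ᵥ J)) w) ^ 2}) ≤
      Real.exp (r₁ / (2 * k₁) - τ * ρ / (128 * c ^ 2 * k₁)) :=
  ht_core_low (em_MC hb.le hl hτ h) (ev_wTM _)
    (H789.pk_wM_wT' hb.le hτ fun u => qf_MC_ge hl h u) hτ hc hk₁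
    (fun J φ => low_dom hb hl hτ h hω c E₁ J φ) h1 hr₁ hR hρ0 hρ

end models

end

end Vale.Agent.P159.H663
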