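import Vale.Agent.P159.H663.HtA
import Vale.Agent.P159.H764.NcD
import Vale.Agent.P159.H859.Gtr

/-!
P159 / module HT (helper663): **torus instance of the tail of the field**, cell letters.

`μ' = wM (wT b N) (MC N l t τ)`, `0 < τ ≤ t`; `A = c • ((E₁ + E₂) * cobV N l)`.
* `low_dom`, `low_trace`: `S = (2 c² / τ) • (E₁ E₁ᵀ)` dominates every covariance;
* `mean_two`: discrepancy of the two reference means on the fine part;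
* `ht_tor`: LOW by 764, FINE tail around any reference mean as a hypothesis.
-/

namespace Vale.Agent.P159.H663

open Finset Matrix MeasureTheory ProbabilityTheory
open Vale.Agent.P159.TM.H104 (EM Ex Cv K3 Lg li nh Gr)
open Vale.Agent.P159.TM.H764 (EE grd)
open Vale.Agent.P159.TM.Spec (V)
open Vale.Agent.P159.TM.SpecC (Tor wT)
open Vale.Agent.P159.H37
open Vale.Agent.P159.H864
open Vale.Agent.P159.H612 (om0)
open Vale.Agent.P159.H859 (Rk Avg dB ravg)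
open Vale.Agent.P159.H239 (indh)

noncomputable section

/-! ### quadratic forms of products -/

section lin

variable {V W : Type*} [Fintype V] [Fintype W]

lemma sq_vec_nonneg (x : V → ℝ) : 0 ≤ ∑ i, x i ^ 2 := Finset.sum_nonneg fun _ _ => sq_nonneg _

lemma dot_self (x : V → ℝ) : x ⬝ᵥ x = ∑ i, x i ^ 2 := by
  unfold dotProduct
  exact Finset.sum_congr rfl fun i _ => by ring

lemma qf_mul_tr (E : Matrix W V ℝ) (φ : W → ℝ) :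
    qf (E * Eᵀ) φ = ∑ i, (Eᵀ *ᵥ φ) i ^ 2 := by
  rw [qf_eq, ← mulVec_mulVec, dotProduct_mulVec, ← mulVec_transpose, dot_self]

/-- `|E Δ e|² ≤ k <e, Δ e>` when `E Δ Eᵀ ≤ k` -/
lemma sq_form_le [DecidableEq V] {Δ : Matrix V V ℝ} (hΔ : Δᵀ = Δ) (h0 : ∀ u, 0 ≤ qf Δ u) (E : Matrix W V ℝ)
    {k : ℝ} (hk : 0 ≤ k) (h : ∀ φ : W → ℝ, qf Δ (Eᵀ *ᵥ φ) ≤ k * ∑ i, φ i ^ 2) (e : V → ℝ) :
    ∑ w, ((E *ᵥ (Δ *ᵥ e)) w) ^ 2 ≤ k * qf Δ e := by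
  set φ : W → ℝ := E *ᵥ (Δ *ᵥ e) with hφ
  have h1 : bf Δ (Eᵀ *ᵥ φ) e = ∑ w, φ w ^ 2 := by
    rw [bf_eq, mulVec_transpose, ← dotProduct_mulVec, ← hφ, dot_self]
  have h2 := H864.bf_sq_le hΔ h0 (Eᵀ *ᵥ φ) e
  rw [h1] at h2
  have h3 := mul_le_mul_of_nonneg_right (h φ) (h0 e)
  have h4 : (∑ w, φ w ^ 2) * (∑ w, φ w ^ 2) ≤ (k * qf Δ e) * ∑ w, φ w ^ 2 := by
    rw [← pow_two]
    refine h2.trans (h3.trans (le_of_eq ?_))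
    ring
  rcases (sq_vec_nonneg φ).eq_or_lt with h5 | h5
  · rw [← h5]
    exact mul_nonneg hk (h0 e)
  · exact le_of_mul_le_mul_right h4 h5

end lin

/-! ### the torus -/

section torus

variable {N l : ℕ} [NeZero N] [NeZero (N / l)] {b t τ : ℝ} {W : Type*} [Fintype W]

/-- the test functions of `c • (E * cobV)` -/
lemma cell_tr (c : ℝ) (E : Matrix W (V (N / l)) ℝ) (φ : W → ℝ) :
    (c • (E * cobV N l))ᵀ *ᵥ φ = c • ((cobV N l)ᵀ *ᵥ (Eᵀ *ᵥ φ)) := by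
  rw [transpose_smul, transpose_mul, smul_mulVec, ← mulVec_mulVec]

/-- the covariance in every source, factor `2` -/
theorem cov_two (hb : 0 < b) (hl : l ∣ N) (hτ : 0 < τ) (h : τ ≤ t)
    (hω : om0 N b (MC N l t (2 * τ)) ≤ 1 / 16) (J : Tor N → ℝ) (g : V (N / l) → ℝ) :
    qf (Cm (wM (wT b N) (MC N l t τ)) J) ((cobV N l)ᵀ *ᵥ g) ≤ 2 / τ * ∑ i, g i ^ 2 := by
  have h1 := H764.cov_cell hb hl hτ h (by linarith) 0 J g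
  rw [H770.wTD_zero] at h1
  set ω := om0 N b (MC N l t (2 * τ)) with hωd
  have h0 : 0 ≤ ω := by
    have h2 := H764.om0_nonneg (τ := τ) hb (H764.ch_cell (b := b) hb hl hτ h 0)
    rw [H764.dbM_cell hl] at h2
    exact h2
  refine h1.trans (mul_le_mul_of_nonneg_right ?_ (sq_vec_nonneg g))
  have h3 : (0 : ℝ) < (1 - ω) ^ 2 := by
    have : (0 : ℝ) < 1 - ω := by linarith
    positivity
  have h4 : 8 * ω / (1 - ω) ^ 2 ≤ 1 := by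
    rw [div_le_one h3]
    nlinarith
  exact div_le_div_of_nonneg_right (by linarith) hτ.le

/-- **LOW**: domination of all covariances -/
theorem low_dom (hb : 0 < b) (hl : l ∣ N) (hτ : 0 < τ) (h : τ ≤ t)
    (hω : om0 N b (MC N l t (2 * τ)) ≤ 1 / 16) (c : ℝ) (E : Matrix W (V (N / l)) ℝ)
    (J : Tor N → ℝ) (φ : W → ℝ) :
    qf (Cm (wM (wT b N) (MC N l t τ)) J) ((c • (E * cobV N l))ᵀ *ᵥ φ) ≤
      qf ((2 * c ^ 2 / τ) • (E * Eᵀ)) φ := by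
  rw [cell_tr, qf_smul, qf_smul_mat, qf_mul_tr]
  refine (mul_le_mul_of_nonneg_left (cov_two hb hl hτ h hω J _) (sq_nonneg c)).trans (le_of_eq ?_)
  ring

/-- **discrepancy of the reference means** (bare and true linear response) on the fine part -/
theorem mean_two (hb : 0 ≤ b) (hl : l ∣ N) (hτ : 0 < τ) (h : τ ≤ t) {κ : ℝ} (hκ : 0 ≤ κ)
    (hbκ : b * κ ≤ 1) (c : ℝ) (E : Matrix W (V (N / l)) ℝ) {k : ℝ} (hk : 0 ≤ k)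
    (hE : ∀ φ : W → ℝ, qf (Rk τ (κ / (l : ℝ) ^ 2)) (Eᵀ *ᵥ φ) ≤ k * ∑ i, φ i ^ 2)
    (e : V (N / l) → ℝ) :
    ∑ w, (((c • (E * cobV N l)) *ᵥ ((MC N l t τ + κ • lapM)⁻¹ *ᵥ ((cobV N l)ᵀ *ᵥ e) -
      Gm (wM (wT b N) (MC N l t τ)) *ᵥ ((cobV N l)ᵀ *ᵥ e))) w) ^ 2 ≤
      c ^ 2 * (k * (qf (Rk τ (κ / (l : ℝ) ^ 2)) e - qf (Gc l (GM N l b t τ)) e)) := by
  set H : Matrix (V N) (V N) ℝ := (MC N l t τ + κ • lapM)⁻¹ with hH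
  set G : Matrix (V N) (V N) ℝ := Gm (wM (wT b N) (MC N l t τ)) with hG
  have hMs : (MC N l t τ)ᵀ = MC N l t τ := MC_tr N l t τ
  have hMge : ∀ u : V N → ℝ, τ * ∑ x, u x ^ 2 ≤ qf (MC N l t τ) u := fun u => qf_MC_ge hl h u
  have hHs : Hᵀ = H := by
    rw [hH, transpose_nonsing_inv, transpose_add, transpose_smul, hMs, ti_lapM.transpose]
  have hGs : Gᵀ = G := Gm_symm _
  have hHG : ∀ u : V N → ℝ, qf G u ≤ qf H u := fun u =>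
    H859.gm_le_res hb hMs hτ hMge hκ hbκ u
  have hMτ : ∀ f : V N → ℝ, τ * ∑ c, (cobV N l *ᵥ f) c ^ 2 ≤ qf (MC N l t τ) f := by
    intro f
    rw [qf_MC' hl]
    have h1 : 0 ≤ t * ∑ x, (f x - (cellP N l *ᵥ f) x) ^ 2 :=
      mul_nonneg (hτ.le.trans h) (Finset.sum_nonneg fun _ _ => sq_nonneg _)
    linarith
  have hHR : ∀ u : V (N / l) → ℝ, qf H ((cobV N l)ᵀ *ᵥ u) ≤ qf (Rk τ (κ / (l : ℝ) ^ 2)) u :=
    fun u => H859.cob_res_le hl hMs hτ hMge hτ hκ hMτ u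
  set Δ : Matrix (V (N / l)) (V (N / l)) ℝ := Gc l (H - G) with hΔ
  have hq : ∀ u : V (N / l) → ℝ, qf Δ u = qf H ((cobV N l)ᵀ *ᵥ u) - qf (Gc l (GM N l b t τ)) u := by
    intro u
    rw [hΔ, qf_Gc, H864.qf_sub_mat, qf_Gc]
    rfl
  have hGc0 : ∀ u : V (N / l) → ℝ, 0 ≤ qf (Gc l (GM N l b t τ)) u := by
    intro u
    rw [qf_Gc]
    exact H114.qf_Cm_nonneg (em_MC hb hl hτ h) 0 _
  have hΔ0 : ∀ u, 0 ≤ qf Δ u := by
    intro u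
    rw [hq, qf_Gc, sub_nonneg]
    exact hHG _
  have hΔs : Δᵀ = Δ := by
    rw [hΔ]
    unfold Gc
    rw [transpose_mul, transpose_mul, transpose_transpose, transpose_sub, hHs, hGs,
      Matrix.mul_assoc]
  have hΔE : ∀ φ : W → ℝ, qf Δ (Eᵀ *ᵥ φ) ≤ k * ∑ i, φ i ^ 2 := by
    intro φ
    rw [hq]
    linarith [hHR (Eᵀ *ᵥ φ), hGc0 (Eᵀ *ᵥ φ), hE φ]
  have h1 := sq_form_le hΔs hΔ0 E hk hΔE e
  have h2 : qf Δ e ≤ qf (Rk τ (κ / (l : ℝ) ^ 2)) e - qf (Gc l (GM N l b t τ)) e := by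
    rw [hq]
    linarith [hHR e]
  have h3 : (c • (E * cobV N l)) *ᵥ (H *ᵥ ((cobV N l)ᵀ *ᵥ e) - G *ᵥ ((cobV N l)ᵀ *ᵥ e)) =
      c • (E *ᵥ (Δ *ᵥ e)) := by
    rw [smul_mulVec, ← sub_mulVec, ← mulVec_mulVec, hΔ]
    unfold Gc
    rw [← mulVec_mulVec, ← mulVec_mulVec]
  rw [h3]
  have h4 : ∑ w, ((c • (E *ᵥ (Δ *ᵥ e))) w) ^ 2 = c ^ 2 * ∑ w, ((E *ᵥ (Δ *ᵥ e)) w) ^ 2 := by
    rw [Finset.mul_sum]
    refine Finset.sum_congr rfl fun w _ => ?_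
    rw [Pi.smul_apply, smul_eq_mul, mul_pow]
  rw [h4]
  exact mul_le_mul_of_nonneg_left (h1.trans (mul_le_mul_of_nonneg_left h2 hk)) (sq_nonneg c)

/-- **HT on the torus**, FINE tail around any reference mean `m₂` -/
theorem ht_tor [DecidableEq W] (hb : 0 < b) (hl : l ∣ N) (hτ : 0 < τ) (h : τ ≤ t)
    (hω : om0 N b (MC N l t (2 * τ)) ≤ 1 / 16) {c : ℝ} (hc : 0 < c)
    {E₁ E₂ : Matrix W (V (N / l)) ℝ} {k₁ r₁ : ℝ} (hk₁ : 0 < k₁)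
    (h1 : ∀ φ : W → ℝ, ∑ i, (E₁ᵀ *ᵥ φ) i ^ 2 ≤ k₁ * ∑ i, φ i ^ 2) (hr₁ : (E₁ * E₁ᵀ).trace ≤ r₁)
    {J : Tor N → ℝ} (hR : Rs (wM (wT b N) (MC N l t τ)) J ≤ 1)
    {m₂ : Tor N → ℝ} {ρ₂ π₂ d₂ : ℝ}
    (h2 : Ex (wM (wT b N) (MC N l t τ)) J ({h : Tor N → ℤ |
      ρ₂ ≤ ∑ w, (((c • (E₂ * cobV N l)) *ᵥ (re h - m₂)) w) ^ 2}.indicator
      fun _ => (1 : ℝ)) ≤ π₂)
    (hd : ∑ w, (((c • (E₂ * cobV N l)) *ᵥ (m₂ - Gm (wM (wT b N) (MC N l t τ)) *ᵥ J)) w) ^ 2 ≤ d₂)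
    {ρ₁ ρ : ℝ} (hρ : 4 * ρ₁ + 16 * c ^ 2 * r₁ / τ + 4 * ρ₂ + 4 * d₂ ≤ ρ) :
    Ex (wM (wT b N) (MC N l t τ)) J (indh {h | ρ < ∑ w,
      (((c • ((E₁ + E₂) * cobV N l)) *ᵥ (re h - Gm (wM (wT b N) (MC N l t τ)) *ᵥ J)) w) ^ 2}) ≤
      Real.exp (r₁ / (2 * k₁) - τ * ρ₁ / (8 * c ^ 2 * k₁)) + π₂ := by
  have hE := em_MC hb.le hl hτ h
  have hev : Ev (wM (wT b N) (MC N l t τ)) := ev_wTM _
  have hpk : PK (wM (wT b N) (MC N l t τ)) := H789.pk_wM_wT' hb.le hτ fun u => qf_MC_ge hl h u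
  set θ : ℝ := τ / (4 * c ^ 2 * k₁) with hθ
  have hθ0 : 0 ≤ θ := by positivity
  have hA : c • ((E₁ + E₂) * cobV N l) = c • (E₁ * cobV N l) + c • (E₂ * cobV N l) := by
    rw [Matrix.add_mul, smul_add]
  have hS : ((2 * c ^ 2 / τ) • (E₁ * E₁ᵀ))ᵀ = (2 * c ^ 2 / τ) • (E₁ * E₁ᵀ) := by
    rw [transpose_smul, transpose_mul, transpose_transpose]
  have hθS : ∀ φ : W → ℝ, θ * qf ((2 * c ^ 2 / τ) • (E₁ * E₁ᵀ)) φ ≤ (∑ k, φ k ^ 2) / 2 := by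
    intro φ
    rw [qf_smul_mat, qf_mul_tr]
    have e1 : θ * (2 * c ^ 2 / τ) = 1 / (2 * k₁) := by
      rw [hθ]
      field_simp
      norm_num
    rw [← mul_assoc, e1]
    have h3 := mul_le_mul_of_nonneg_left (h1 φ) (show (0 : ℝ) ≤ 1 / (2 * k₁) by positivity)
    refine h3.trans (le_of_eq ?_)
    field_simp
  have htr : ((2 * c ^ 2 / τ) • (E₁ * E₁ᵀ)).trace ≤ 2 * c ^ 2 / τ * r₁ := by
    rw [trace_smul, smul_eq_mul]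
    exact mul_le_mul_of_nonneg_left hr₁ (by positivity)
  have h3 := ht_asm hE hev hpk J hR hA hS (fun J φ => low_dom hb hl hτ h hω c E₁ J φ) hθ0 hθS
    (ρ₁ := ρ₁) h2 hd (ρ := ρ) (by
      have : 8 * (2 * c ^ 2 / τ * r₁) = 16 * c ^ 2 * r₁ / τ := by ring
      linarith)
  refine h3.trans (add_le_add (Real.exp_le_exp.2 ?_) le_rfl)
  have h4 : θ * ((2 * c ^ 2 / τ) • (E₁ * E₁ᵀ)).trace ≤ θ * (2 * c ^ 2 / τ * r₁) :=
    mul_le_mul_of_nonneg_left htr hθ0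
  have h5 : θ * (2 * c ^ 2 / τ * r₁) = r₁ / (2 * k₁) := by
    rw [hθ]
    field_simp
    norm_num
  have h6 : θ * ρ₁ / 2 = τ * ρ₁ / (8 * c ^ 2 * k₁) := by
    rw [hθ]
    field_simp
    ring
  linarith

end torus

end

end Vale.Agent.P159.H663
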