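import Vale.Agent.P159.H663.ChI
import Vale.Agent.P159.H816.HtSG

/-!
P159 / module HT (helper663): **matrix Chernoff with truncation**.

`Y = A (h - m₀)`, `K` rows. If the sub-Gaussian bound holds only for the sources
`u = √θ Aᵀ g`, `|g| ≤ G`, `G ≥ √(θ b) + √(2 |K|)`, then
`P_J (a ≤ |Y|²) ≤ 2 exp (c₀ + θ tr S - θ a / 2) + P_J (b < |Y|²)`
(the exponential moment of `|Y|²` itself may be infinite).
-/

namespace Vale.Agent.P159.H663

open Finset Matrix MeasureTheory ProbabilityTheory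
open Vale.Agent.P159.TM.H104 (EM Ex Cv K3 Lg li nh Gr)
open Vale.Agent.P159.H37

noncomputable section

variable {V K : Type*} [Fintype V] [Fintype K] {μ : (V → ℤ) → ℝ}

/-- Minkowski in squared form -/
lemma sum_sq_add_le' {g v : K → ℝ} {x y : ℝ} (hx : 0 ≤ x) (hy : 0 ≤ y)
    (hg : ∑ k, g k ^ 2 ≤ x ^ 2) (hv : ∑ k, v k ^ 2 ≤ y ^ 2) :
    ∑ k, (g + v) k ^ 2 ≤ (x + y) ^ 2 := by
  have h1 : ∑ k, g k * v k ≤ x * y := by
    refine (Real.sum_mul_le_sqrt_mul_sqrt _ _ _).trans ?_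
    have h2 : √(∑ k, g k ^ 2) ≤ x := Real.sqrt_le_iff.2 ⟨hx, hg⟩
    have h3 : √(∑ k, v k ^ 2) ≤ y := Real.sqrt_le_iff.2 ⟨hy, hv⟩
    exact mul_le_mul h2 h3 (Real.sqrt_nonneg _) hx
  have h2 : ∑ k, (g + v) k ^ 2 = ∑ k, g k ^ 2 + 2 * (∑ k, g k * v k) + ∑ k, v k ^ 2 := by
    rw [Finset.mul_sum, ← Finset.sum_add_distrib, ← Finset.sum_add_distrib]
    exact Finset.sum_congr rfl fun k _ => by rw [Pi.add_apply]; ring
  rw [h2]
  nlinarith

/-- the ball of radius `G` -/
def ballG (K : Type*) [Fintype K] (G : ℝ) : Set (K → ℝ) := {g | ∑ k, g k ^ 2 ≤ G ^ 2}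

lemma measurableSet_ballG (G : ℝ) : MeasurableSet (ballG K G) := by
  have h1 : Measurable fun g : K → ℝ => ∑ k, g k ^ 2 := by fun_prop
  exact measurableSet_le h1 measurable_const

/-- half of the Gaussian mass is in the ball of radius `√(2 |K|)` -/
lemma gau_ball (K : Type*) [Fintype K] : (1 : ℝ) / 2 ≤
    ∫ g : K → ℝ, (ballG K (√(2 * (Fintype.card K : ℝ)))).indicator (fun _ => (1 : ℝ)) g
      ∂(gau K) := by
  classical
  set n : ℝ := (Fintype.card K : ℝ) with hn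
  have hn0 : 0 ≤ n := Nat.cast_nonneg _
  have hm := measurableSet_ballG (K := K) (√(2 * n))
  have h1 : ∫ g : K → ℝ, ∑ k, g k ^ 2 ∂(gau K) = n := by
    have e : ∀ g : K → ℝ, ∑ k, g k ^ 2 =
        ∑ k, (∑ i, (Pi.single k (1 : ℝ) : K → ℝ) i * g i) *
          (∑ i, (Pi.single k (1 : ℝ) : K → ℝ) i * g i) := by
      intro g
      refine Finset.sum_congr rfl fun k _ => ?_
      rw [Fintype.sum_eq_single k fun i hi => by rw [Pi.single_eq_of_ne hi, zero_mul]]
      rw [Pi.single_eq_same, one_mul, sq]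
    simp only [e]
    rw [integral_finsetSum _ fun k _ => int_lin_mul _ _]
    simp only [gau_lin_mul]
    have e2 : ∀ k : K, ∑ i, (Pi.single k (1 : ℝ) : K → ℝ) i * (Pi.single k (1 : ℝ) : K → ℝ) i = 1 := by
      intro k
      rw [Fintype.sum_eq_single k fun i hi => by rw [Pi.single_eq_of_ne hi, zero_mul]]
      simp
    simp only [e2]
    simp [hn]
  have hi1 : Integrable (fun g : K → ℝ => ∑ k, g k ^ 2) (gau K) := by
    refine integrable_finsetSum _ fun k _ => ?_
    have := int_lin_mul (I := K) (Pi.single k (1 : ℝ)) (Pi.single k (1 : ℝ))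
    refine this.congr (Filter.Eventually.of_forall fun g => ?_)
    simp only
    rw [Fintype.sum_eq_single k fun i hi => by rw [Pi.single_eq_of_ne hi, zero_mul]]
    rw [Pi.single_eq_same, one_mul, sq]
  have hii : Integrable (fun g : K → ℝ =>
      (ballG K (√(2 * n))).indicator (fun _ => (1 : ℝ)) g) (gau K) :=
    (integrable_const (1 : ℝ)).indicator hm
  -- pointwise: `2 n (1 - 1_B) ≤ |g|²`
  have hpt : ∀ g : K → ℝ,
      2 * n * (1 - (ballG K (√(2 * n))).indicator (fun _ => (1 : ℝ)) g) ≤ ∑ k, g k ^ 2 := by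
    intro g
    by_cases hg : g ∈ ballG K (√(2 * n))
    · rw [Set.indicator_of_mem hg, sub_self, mul_zero]
      exact Finset.sum_nonneg fun k _ => sq_nonneg _
    · rw [Set.indicator_of_notMem hg, sub_zero, mul_one]
      have h2 : ¬ ∑ k, g k ^ 2 ≤ (√(2 * n)) ^ 2 := hg
      rw [Real.sq_sqrt (by positivity)] at h2
      exact (not_le.1 h2).le
  have h2 : ∫ g : K → ℝ, 2 * n * (1 - (ballG K (√(2 * n))).indicator (fun _ => (1 : ℝ)) g)
      ∂(gau K) ≤ n := by
    have h4 : Integrable (fun g : K → ℝ =>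
        2 * n * (1 - (ballG K (√(2 * n))).indicator (fun _ => (1 : ℝ)) g)) (gau K) :=
      ((integrable_const 1).sub hii).const_mul _
    exact (integral_mono h4 hi1 hpt).trans (le_of_eq h1)
  rw [integral_const_mul, integral_sub (integrable_const 1) hii] at h2
  have h3 : ∫ _g : K → ℝ, (1 : ℝ) ∂(gau K) = 1 := by simp
  rw [h3] at h2
  rcases hn0.eq_or_lt with h | h
  · -- no coordinate
    have h4 : ∀ g : K → ℝ, (ballG K (√(2 * n))).indicator (fun _ => (1 : ℝ)) g = 1 := by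
      intro g
      refine Set.indicator_of_mem ?_ _
      have hc : Fintype.card K = 0 := by
        have h5 : (Fintype.card K : ℝ) = 0 := by rw [← hn]; exact h.symm
        exact_mod_cast h5
      have he : IsEmpty K := Fintype.card_eq_zero_iff.1 hc
      show ∑ k, g k ^ 2 ≤ _
      rw [Finset.univ_eq_empty, Finset.sum_empty]
      exact sq_nonneg _
    simp only [h4, h3]
    norm_num
  · nlinarith

/-- lower bound of the truncated Laplace transform -/
lemma trunc_low {v : K → ℝ} {G c : ℝ} (hc : 0 ≤ c) (hv : ∑ k, v k ^ 2 ≤ c ^ 2)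
    (hG : c + √(2 * Fintype.card K) ≤ G) :
    Real.exp ((∑ k, v k ^ 2) / 2) ≤
      2 * ∫ g : K → ℝ, Real.exp (∑ k, v k * g k) * (ballG K G).indicator (fun _ => (1 : ℝ)) g
        ∂(gau K) := by
  rw [gau_exp_mul v fun g => (ballG K G).indicator (fun _ => (1 : ℝ)) g]
  have h1 : (1 : ℝ) / 2 ≤ ∫ g : K → ℝ, (ballG K G).indicator (fun _ => (1 : ℝ)) (g + v) ∂(gau K) := by
    refine (gau_ball K).trans ?_
    have hmeas : MeasurableSet {g : K → ℝ | g + v ∈ ballG K G} :=
      (measurable_id.add_const v) (measurableSet_ballG G)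
    have hi2 : Integrable (fun g : K → ℝ => (ballG K G).indicator (fun _ => (1 : ℝ)) (g + v))
        (gau K) := by
      have : (fun g : K → ℝ => (ballG K G).indicator (fun _ => (1 : ℝ)) (g + v)) =
          {g : K → ℝ | g + v ∈ ballG K G}.indicator fun _ => (1 : ℝ) := by
        funext g
        by_cases hg : g + v ∈ ballG K G
        · rw [Set.indicator_of_mem hg, Set.indicator_of_mem (show g ∈ {g | g + v ∈ ballG K G} from hg)]
        · rw [Set.indicator_of_notMem hg,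
            Set.indicator_of_notMem (show g ∉ {g | g + v ∈ ballG K G} from hg)]
      rw [this]
      exact (integrable_const (1 : ℝ)).indicator hmeas
    refine integral_mono ((integrable_const (1 : ℝ)).indicator (measurableSet_ballG _)) hi2
      fun g => ?_
    simp only
    by_cases hg : g ∈ ballG K (√(2 * Fintype.card K))
    · rw [Set.indicator_of_mem hg]
      have h2 : g + v ∈ ballG K G := by
        have h3 := sum_sq_add_le' (Real.sqrt_nonneg _) hc hg hv
        show ∑ k, (g + v) k ^ 2 ≤ G ^ 2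
        refine h3.trans ?_
        have h4 : 0 ≤ √(2 * Fintype.card K) + c := by positivity
        exact pow_le_pow_left₀ h4 (by linarith) 2
      rw [Set.indicator_of_mem h2]
    · rw [Set.indicator_of_notMem hg]
      exact Set.indicator_nonneg (fun _ _ => zero_le_one) _
  have h2 := mul_le_mul_of_nonneg_left h1 (Real.exp_pos ((∑ k, v k ^ 2) / 2)).le
  linarith

/-- **matrix Chernoff with truncation** -/
theorem ht_trunc (hμ : EM μ) (J m0 : V → ℝ) (A : Matrix K V ℝ) {c0 : ℝ} {S : Matrix K K ℝ}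
    (hS : Sᵀ = S) (h0 : ∀ φ : K → ℝ, 0 ≤ qf S φ) {θ : ℝ} (hθ : 0 ≤ θ)
    (h1 : ∀ φ : K → ℝ, θ * qf S φ ≤ (∑ k, φ k ^ 2) / 2) {b G : ℝ} (hb : 0 ≤ b)
    (hG : √(θ * b) + √(2 * Fintype.card K) ≤ G)
    (hSG : ∀ g : K → ℝ, ∑ k, g k ^ 2 ≤ G ^ 2 →
      Lg μ (J + √θ • (Aᵀ *ᵥ g)) - Lg μ J - (√θ • (Aᵀ *ᵥ g)) ⬝ᵥ m0 ≤ c0 + θ * qf S g / 2) (a : ℝ) :
    Ex μ J ({h : V → ℤ | a ≤ ∑ k, (A *ᵥ (re h - m0)) k ^ 2 ∧
      ∑ k, (A *ᵥ (re h - m0)) k ^ 2 ≤ b}.indicator fun _ => (1 : ℝ)) ≤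
      2 * Real.exp (c0 + θ * S.trace - θ * a / 2) := by
  classical
  have hS' : (θ • S)ᵀ = θ • S := by rw [transpose_smul, hS]
  obtain ⟨hi, hbd⟩ := H816.gau_exp_qf hS'
    (fun u => by rw [H816.qf_smul_mat]; exact mul_nonneg hθ (h0 _))
    (fun u => by rw [H816.qf_smul_mat]; exact h1 u)
  simp only [H816.qf_smul_mat, trace_smul, smul_eq_mul] at hi hbd
  have hZ := TM.H104.T_one_pos hμ J
  set Q : (V → ℤ) → ℝ := fun h => ∑ k, (A *ᵥ (re h - m0)) k ^ 2 with hQ
  set E : Set (V → ℤ) := {h : V → ℤ | a ≤ Q h ∧ Q h ≤ b} with hE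
  have hGr : Gr (E.indicator fun _ => (1 : ℝ)) := by
    refine Gr.of_bdd (C := 1) fun h => ?_
    rw [abs_of_nonneg (Set.indicator_nonneg (fun _ _ => zero_le_one) h)]
    exact Set.indicator_le_self' (fun _ _ => zero_le_one) h
  have e0 : Ex μ J (E.indicator fun _ => (1 : ℝ)) =
      TM.H104.T μ J (E.indicator fun _ => (1 : ℝ)) / TM.H104.T μ J fun _ => 1 := rfl
  rw [e0, div_le_iff₀ hZ]
  have h9 := hμ.summ hGr J
  unfold TM.H104.T
  refine h9.tsum_le_of_sum_le fun s => ?_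
  -- one term
  have hterm : ∀ h : V → ℤ, E.indicator (fun _ => (1 : ℝ)) h * μ h * Real.exp (li J h) ≤
      2 * Real.exp (-(θ * a / 2)) *
        ∫ g : K → ℝ, Real.exp (∑ k, (√θ * (A *ᵥ (re h - m0)) k) * g k) *
          (ballG K G).indicator (fun _ => (1 : ℝ)) g * (μ h * Real.exp (li J h)) ∂(gau K) := by
    intro h
    have h4 : 0 ≤ μ h * Real.exp (li J h) := mul_nonneg (hμ.nn h) (Real.exp_pos _).le
    rw [integral_mul_const]
    by_cases hh : h ∈ E
    · rw [Set.indicator_of_mem hh, one_mul]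
      have ha : a ≤ Q h := hh.1
      have hb' : Q h ≤ b := hh.2
      have e1 : ∑ k, (√θ * (A *ᵥ (re h - m0)) k) ^ 2 = θ * Q h := by
        rw [hQ]
        simp only
        rw [Finset.mul_sum]
        exact Finset.sum_congr rfl fun k _ => by rw [mul_pow, Real.sq_sqrt hθ]
      have h5 := trunc_low (v := fun k => √θ * (A *ᵥ (re h - m0)) k) (c := √(θ * b)) (G := G)
        (Real.sqrt_nonneg _) (by
          rw [e1, Real.sq_sqrt (mul_nonneg hθ hb)]
          exact mul_le_mul_of_nonneg_left hb' hθ) hG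
      rw [e1] at h5
      have h6 : (1 : ℝ) ≤ Real.exp (-(θ * a / 2)) * Real.exp (θ * Q h / 2) := by
        rw [← Real.exp_add]
        refine Real.one_le_exp ?_
        nlinarith
      have h7 : (1 : ℝ) ≤ 2 * Real.exp (-(θ * a / 2)) *
          ∫ g : K → ℝ, Real.exp (∑ k, (√θ * (A *ᵥ (re h - m0)) k) * g k) *
            (ballG K G).indicator (fun _ => (1 : ℝ)) g ∂(gau K) := by
        refine h6.trans ?_
        have h8 := mul_le_mul_of_nonneg_left h5 (Real.exp_pos (-(θ * a / 2))).le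
        linarith
      calc μ h * Real.exp (li J h) = 1 * (μ h * Real.exp (li J h)) := by ring
        _ ≤ _ := mul_le_mul_of_nonneg_right h7 h4
        _ = _ := by ring
    · rw [Set.indicator_of_notMem hh, zero_mul, zero_mul]
      refine mul_nonneg (by positivity) (mul_nonneg (integral_nonneg fun g => ?_) h4)
      exact mul_nonneg (Real.exp_pos _).le (Set.indicator_nonneg (fun _ _ => zero_le_one) _)
  have hint : ∀ h : V → ℤ, Integrable (fun g : K → ℝ =>
      Real.exp (∑ k, (√θ * (A *ᵥ (re h - m0)) k) * g k) *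
        (ballG K G).indicator (fun _ => (1 : ℝ)) g * (μ h * Real.exp (li J h))) (gau K) := by
    intro h
    refine Integrable.mul_const ?_ _
    have h2 := (integrable_exp_lin (I := K) fun k => √θ * (A *ᵥ (re h - m0)) k).indicator
      (measurableSet_ballG (K := K) G)
    refine h2.congr (Filter.Eventually.of_forall fun g => ?_)
    by_cases hg : g ∈ ballG K G
    · rw [Set.indicator_of_mem hg]
      simp only
      rw [Set.indicator_of_mem hg, mul_one]
    · rw [Set.indicator_of_notMem hg]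
      simp only
      rw [Set.indicator_of_notMem hg, mul_zero]
  refine (Finset.sum_le_sum fun h _ => hterm h).trans ?_
  rw [← Finset.mul_sum, ← integral_finsetSum s fun h _ => hint h]
  have hmain : ∫ g : K → ℝ, ∑ h ∈ s, Real.exp (∑ k, (√θ * (A *ᵥ (re h - m0)) k) * g k) *
      (ballG K G).indicator (fun _ => (1 : ℝ)) g * (μ h * Real.exp (li J h)) ∂(gau K) ≤
      ∫ g : K → ℝ, (TM.H104.T μ J fun _ => 1) * Real.exp c0 * Real.exp (θ * qf S g / 2)
        ∂(gau K) := by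
    refine integral_mono (integrable_finsetSum s fun h _ => hint h) (hi.const_mul _) fun g => ?_
    simp only
    by_cases hg : g ∈ ballG K G
    · simp only [Set.indicator_of_mem hg, mul_one]
      have hsg := hSG g hg
      set u : V → ℝ := √θ • (Aᵀ *ᵥ g) with hu
      have h2 : ∀ h : V → ℤ, Real.exp (∑ k, (√θ * (A *ᵥ (re h - m0)) k) * g k) *
          (μ h * Real.exp (li J h)) =
          Real.exp (-(u ⬝ᵥ m0)) * ((1 : ℝ) * μ h * Real.exp (li (J + u) h)) := by
        intro h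
        rw [H816.pair_eq, ← hu, TM.H104.li_add, sub_eq_add_neg, Real.exp_add, Real.exp_add]
        ring
      simp only [h2]
      rw [← Finset.mul_sum]
      have h3 : ∑ h ∈ s, (1 : ℝ) * μ h * Real.exp (li (J + u) h) ≤
          TM.H104.T μ (J + u) fun _ => 1 := by
        unfold TM.H104.T
        exact (hμ.summ (Gr.const 1) (J + u)).sum_le_tsum s fun h _ =>
          mul_nonneg (mul_nonneg zero_le_one (hμ.nn h)) (Real.exp_pos _).le
      have h4 : Real.exp (Lg μ (J + u) - Lg μ J - u ⬝ᵥ m0) =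
          Real.exp (-(u ⬝ᵥ m0)) *
            ((TM.H104.T μ (J + u) fun _ => 1) / TM.H104.T μ J fun _ => 1) := by
        have hp1 := TM.H104.T_one_pos hμ (J + u)
        have hp2 := TM.H104.T_one_pos hμ J
        unfold Lg
        rw [sub_eq_add_neg, Real.exp_add, Real.exp_sub, Real.exp_log hp1, Real.exp_log hp2]
        ring
      have h5 := Real.exp_le_exp.2 hsg
      rw [h4, Real.exp_add] at h5
      have h6 := mul_le_mul_of_nonneg_left h5 hZ.le
      have h7 : (TM.H104.T μ J fun _ => 1) * (Real.exp (-(u ⬝ᵥ m0)) *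
          ((TM.H104.T μ (J + u) fun _ => 1) / TM.H104.T μ J fun _ => 1)) =
          Real.exp (-(u ⬝ᵥ m0)) * TM.H104.T μ (J + u) fun _ => 1 := by
        field_simp
      rw [h7] at h6
      refine (mul_le_mul_of_nonneg_left h3 (Real.exp_pos _).le).trans (h6.trans (le_of_eq ?_))
      ring
    · simp only [Set.indicator_of_notMem hg, mul_zero, zero_mul, Finset.sum_const_zero]
      exact mul_nonneg (mul_nonneg hZ.le (Real.exp_pos _).le) (Real.exp_pos _).le
  have hp := Real.exp_pos (-(θ * a / 2))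
  refine (mul_le_mul_of_nonneg_left hmain (by positivity)).trans ?_
  rw [integral_const_mul]
  have h11 := mul_le_mul_of_nonneg_left hbd (mul_pos hZ (Real.exp_pos c0)).le
  refine (mul_le_mul_of_nonneg_left h11 (by positivity)).trans (le_of_eq ?_)
  rw [show c0 + θ * S.trace - θ * a / 2 = -(θ * a / 2) + (c0 + θ * S.trace) by ring,
    Real.exp_add (-(θ * a / 2)), Real.exp_add c0]
  have e3 : (∑' h : V → ℤ, (fun _ => (1 : ℝ)) h * μ h * Real.exp (li J h)) =
      TM.H104.T μ J fun _ => 1 := rfl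
  rw [e3]
  ring

/-- the tail: truncated part plus the crude tail -/
theorem ht_trunc' (hμ : EM μ) (J m0 : V → ℝ) (A : Matrix K V ℝ) {c0 : ℝ} {S : Matrix K K ℝ}
    (hS : Sᵀ = S) (h0 : ∀ φ : K → ℝ, 0 ≤ qf S φ) {θ : ℝ} (hθ : 0 ≤ θ)
    (h1 : ∀ φ : K → ℝ, θ * qf S φ ≤ (∑ k, φ k ^ 2) / 2) {b G : ℝ} (hb : 0 ≤ b)
    (hG : √(θ * b) + √(2 * Fintype.card K) ≤ G)
    (hSG : ∀ g : K → ℝ, ∑ k, g k ^ 2 ≤ G ^ 2 →
      Lg μ (J + √θ • (Aᵀ *ᵥ g)) - Lg μ J - (√θ • (Aᵀ *ᵥ g)) ⬝ᵥ m0 ≤ c0 + θ * qf S g / 2) (a : ℝ) :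
    Ex μ J ({h : V → ℤ | a ≤ ∑ k, (A *ᵥ (re h - m0)) k ^ 2}.indicator fun _ => (1 : ℝ)) ≤
      2 * Real.exp (c0 + θ * S.trace - θ * a / 2) +
        Ex μ J ({h : V → ℤ | b ≤ ∑ k, (A *ᵥ (re h - m0)) k ^ 2}.indicator fun _ => (1 : ℝ)) := by
  have hgr : ∀ E : Set (V → ℤ), Gr (E.indicator fun _ => (1 : ℝ)) := by
    intro E
    refine Gr.of_bdd (C := 1) fun h => ?_
    rw [abs_of_nonneg (Set.indicator_nonneg (fun _ _ => zero_le_one) h)]
    exact Set.indicator_le_self' (fun _ _ => zero_le_one) h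
  refine le_trans ?_ (add_le_add (ht_trunc hμ J m0 A hS h0 hθ h1 hb hG hSG a) le_rfl)
  rw [← TM.H104.Ex_add hμ (hgr _) (hgr _)]
  refine TM.H104.Ex_mono hμ (hgr _) ((hgr _).add (hgr _)) (fun h => ?_) J
  by_cases ha : a ≤ ∑ k, (A *ᵥ (re h - m0)) k ^ 2
  · by_cases hb' : ∑ k, (A *ᵥ (re h - m0)) k ^ 2 ≤ b
    · rw [Set.indicator_of_mem (show h ∈ {h : V → ℤ | a ≤ ∑ k, (A *ᵥ (re h - m0)) k ^ 2} from ha),
        Set.indicator_of_mem (show h ∈ {h : V → ℤ | a ≤ ∑ k, (A *ᵥ (re h - m0)) k ^ 2 ∧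
          ∑ k, (A *ᵥ (re h - m0)) k ^ 2 ≤ b} from ⟨ha, hb'⟩)]
      linarith [Set.indicator_nonneg (s := {h : V → ℤ | b ≤ ∑ k, (A *ᵥ (re h - m0)) k ^ 2})
        (f := fun _ => (1 : ℝ)) (fun _ _ => zero_le_one) h]
    · rw [Set.indicator_of_mem (show h ∈ {h : V → ℤ | a ≤ ∑ k, (A *ᵥ (re h - m0)) k ^ 2} from ha),
        Set.indicator_of_mem (show h ∈ {h : V → ℤ | b ≤ ∑ k, (A *ᵥ (re h - m0)) k ^ 2} from
          (not_le.1 hb').le)]
      linarith [Set.indicator_nonneg (s := {h : V → ℤ | a ≤ ∑ k, (A *ᵥ (re h - m0)) k ^ 2 ∧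
          ∑ k, (A *ᵥ (re h - m0)) k ^ 2 ≤ b})
        (f := fun _ => (1 : ℝ)) (fun _ _ => zero_le_one) h]
  · rw [Set.indicator_of_notMem (show h ∉ {h : V → ℤ | a ≤ ∑ k, (A *ᵥ (re h - m0)) k ^ 2} from ha)]
    exact add_nonneg (Set.indicator_nonneg (fun _ _ => zero_le_one) h)
      (Set.indicator_nonneg (fun _ _ => zero_le_one) h)

end

end Vale.Agent.P159.H663
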