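import Vale.Agent.P159.H663.Tail

/-!
P159 / module PROP, part 3 (helper663): propagation of the a-priori bound through the channel
(NOTE 3 (7)), continuity argument in the amplitude.

`ps μ e τ = d/dτ Rs μ (τ e)`.

* `mean_dev`: as long as `ps μ' e τ <= 1` the nonlinear part of the mean of every linear functional
  is at most the square root of the largest variance;
* `boot`: `[ps τ <= 1 => second derivative <= k]`, `k < 1`, implies `ps τ <= k τ`, `Rs μ' e <= k/2`;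
* `bad_le`: the bad set, by fourth moments;
* `propag`: the final statement.
-/

namespace Vale.Agent.P159.H663

open Finset Matrix MeasureTheory ProbabilityTheory
open Vale.Agent.P159.TM.H104 (EM Ex Cv K3 Lg li nh Gr)
open Vale.Agent.P159.H37

noncomputable section

variable {V : Type*} [Fintype V] {I : Type*} [Fintype I]

/-- derivative of `τ ↦ Rs μ (τ e)` -/
def ps (μ : (V → ℤ) → ℝ) (e : V → ℝ) (s : ℝ) : ℝ := Ex μ (s • e) (li e) - s * qf (Gm μ) e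

lemma hasDerivAt_ps {μ : (V → ℤ) → ℝ} (hμ : EM μ) (e : V → ℝ) (s : ℝ) :
    HasDerivAt (ps μ e) (qf (Cm μ (s • e) - Gm μ) e) s := by
  have h3 := TM.H104.hasDerivAt_Ex hμ (Gr.li e) 0 e s
  simp only [zero_add] at h3
  have h4 := h3.sub ((hasDerivAt_id s).mul_const (qf (Gm μ) e))
  refine h4.congr_deriv ?_
  have h5 : qf (Cm μ (s • e)) e = Cv μ (s • e) (li e) (li e) := H114.bf_Cm hμ (s • e) e e
  rw [qf_sub_mat, h5, one_mul]

lemma hasDerivAt_Rs_ray {μ : (V → ℤ) → ℝ} (hμ : EM μ) (e : V → ℝ) (s : ℝ) :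
    HasDerivAt (fun s : ℝ => Rs μ (s • e)) (ps μ e s) s := by
  have h2 := TM.H104.hasDerivAt_Lg hμ 0 e s
  simp only [zero_add] at h2
  have h3 : HasDerivAt (fun s : ℝ => qf (Gm μ) (s • e) / 2) (s * qf (Gm μ) e) s := by
    have h4 : (fun s : ℝ => qf (Gm μ) (s • e) / 2) = fun s => s ^ 2 * qf (Gm μ) e / 2 := by
      funext s
      rw [qf_smul]
    rw [h4]
    have := ((hasDerivAt_pow 2 s).mul_const (qf (Gm μ) e)).div_const 2
    refine this.congr_deriv ?_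
    norm_num
    ring
  exact (h2.sub_const (Lg μ 0)).sub h3

lemma ps_zero {μ : (V → ℤ) → ℝ} (hE : Ev μ) (e : V → ℝ) : ps μ e 0 = 0 := by
  unfold ps
  rw [zero_smul, zero_mul, sub_zero]
  exact Ex_li_zero hE e

lemma ps_mono {μ : (V → ℤ) → ℝ} (hμ : EM μ) (hK : GC μ) (e : V → ℝ) : Monotone (ps μ e) := by
  refine monotone_of_deriv_nonneg (fun s => (hasDerivAt_ps hμ e s).differentiableAt) fun s => ?_
  rw [(hasDerivAt_ps hμ e s).deriv, qf_sub_mat]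
  exact sub_nonneg.2 (hK _ _)

lemma ps_nonneg {μ : (V → ℤ) → ℝ} (hμ : EM μ) (hE : Ev μ) (hK : GC μ) (e : V → ℝ) {s : ℝ}
    (hs : 0 ≤ s) : 0 ≤ ps μ e s := by
  rw [← ps_zero hE e]
  exact ps_mono hμ hK e hs

/-- Cauchy-Schwarz for a positive semidefinite symmetric matrix, weighted form -/
lemma bf_le_of_psd {D : Matrix V V ℝ} (hD : Dᵀ = D) (h0 : ∀ u, 0 ≤ qf D u) (w e : V → ℝ)
    {lam : ℝ} (hl : 0 < lam) : |bf D w e| ≤ (lam * qf D w + qf D e / lam) / 2 := by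
  have h1 := h0 (lam • w - e)
  have h2 := h0 (lam • w + e)
  rw [qf_sub_vec hD, qf_smul, bf_smul_left] at h1
  rw [qf_add_vec hD, qf_smul, bf_smul_left] at h2
  have e1 : (lam * qf D w + qf D e / lam) / 2 = (lam ^ 2 * qf D w + qf D e) / (2 * lam) := by
    field_simp
  rw [e1, le_div_iff₀ (by positivity)]
  rcases abs_cases (bf D w e) with ⟨h, _⟩ | ⟨h, _⟩ <;> rw [h] <;> nlinarith

/-- **the mean of a linear functional along the ray**, weighted form -/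
theorem mean_dev {μ : (V → ℤ) → ℝ} (hμ : EM μ) (hE : Ev μ) (hK : GC μ) (e w : V → ℝ) {h : ℝ}
    (hh : ∀ J, qf (Cm μ J) w ≤ h) {lam : ℝ} (hl : 0 < lam) {s : ℝ} (hs : 0 ≤ s) :
    |Ex μ (s • e) (li w) - s * bf (Gm μ) w e| ≤ (lam * h * s + ps μ e s / lam) / 2 := by
  set f : ℝ → ℝ := fun s => Ex μ (s • e) (li w) - s * bf (Gm μ) w e with hf
  set B : ℝ → ℝ := fun s => (lam * h * s + ps μ e s / lam) / 2 with hB
  have df : ∀ x, HasDerivAt f (bf (Cm μ (x • e) - Gm μ) w e) x := by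
    intro x
    have h3 := TM.H104.hasDerivAt_Ex hμ (Gr.li w) 0 e x
    simp only [zero_add] at h3
    have h4 := h3.sub ((hasDerivAt_id x).mul_const (bf (Gm μ) w e))
    refine h4.congr_deriv ?_
    rw [bf_sub_mat, H114.bf_Cm hμ, one_mul]
  have dB : ∀ x, HasDerivAt B ((lam * h + qf (Cm μ (x • e) - Gm μ) e / lam) / 2) x := by
    intro x
    have h1 : HasDerivAt (fun s : ℝ => lam * h * s) (lam * h) x := by
      simpa using (hasDerivAt_id x).const_mul (lam * h)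
    exact (h1.add ((hasDerivAt_ps hμ e x).div_const lam)).div_const 2
  have hb : ∀ x : ℝ, |bf (Cm μ (x • e) - Gm μ) w e| ≤
      (lam * h + qf (Cm μ (x • e) - Gm μ) e / lam) / 2 := by
    intro x
    have hD : (Cm μ (x • e) - Gm μ)ᵀ = Cm μ (x • e) - Gm μ := by
      rw [transpose_sub, Cm_symm, Gm_symm]
    have h0 : ∀ u, 0 ≤ qf (Cm μ (x • e) - Gm μ) u := fun u => by
      rw [qf_sub_mat]
      exact sub_nonneg.2 (hK _ _)
    refine (bf_le_of_psd hD h0 w e hl).trans ?_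
    have h1 : qf (Cm μ (x • e) - Gm μ) w ≤ h := by
      rw [qf_sub_mat]
      have h2 : 0 ≤ qf (Gm μ) w := H114.qf_Cm_nonneg hμ 0 w
      linarith [hh (x • e)]
    have h2 := mul_le_mul_of_nonneg_left h1 hl.le
    linarith
  have f0 : f 0 = 0 := by
    rw [hf]
    simp only [zero_smul, zero_mul, sub_zero]
    exact Ex_li_zero hE w
  have B0 : B 0 = 0 := by
    rw [hB]
    simp only [mul_zero, ps_zero hE, zero_div, add_zero]
  have m1 : MonotoneOn (fun x => B x - f x) (Set.Ici 0) := by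
    refine monotoneOn_of_deriv_nonneg (convex_Ici 0)
      (fun x _ => ((dB x).sub (df x)).continuousAt.continuousWithinAt)
      (fun x _ => ((dB x).sub (df x)).differentiableAt.differentiableWithinAt) fun x _ => ?_
    have h1 := ((dB x).sub (df x)).deriv
    have h2 := (abs_le.1 (hb x)).2
    have h3 : deriv (fun x => B x - f x) x = deriv (B - f) x := rfl
    rw [h3, h1]
    linarith
  have m2 : MonotoneOn (fun x => B x + f x) (Set.Ici 0) := by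
    refine monotoneOn_of_deriv_nonneg (convex_Ici 0)
      (fun x _ => ((dB x).add (df x)).continuousAt.continuousWithinAt)
      (fun x _ => ((dB x).add (df x)).differentiableAt.differentiableWithinAt) fun x _ => ?_
    have h1 := ((dB x).add (df x)).deriv
    have h2 := (abs_le.1 (hb x)).1
    have h3 : deriv (fun x => B x + f x) x = deriv (B + f) x := rfl
    rw [h3, h1]
    linarith
  have h1 := m1 Set.self_mem_Ici (Set.mem_Ici.2 hs) hs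
  have h2 := m2 Set.self_mem_Ici (Set.mem_Ici.2 hs) hs
  simp only [f0, B0] at h1 h2
  refine abs_le.2 ⟨?_, ?_⟩
  · have : -B s ≤ f s := by linarith
    exact this
  · have : f s ≤ B s := by linarith
    exact this

/-- **the nonlinear part of the mean** is at most `√h` as long as `ps <= 1` -/
theorem mean_dev_one {μ : (V → ℤ) → ℝ} (hμ : EM μ) (hE : Ev μ) (hK : GC μ) (e w : V → ℝ) {h : ℝ}
    (h0 : 0 < h) (hh : ∀ J, qf (Cm μ J) w ≤ h) {s : ℝ} (hs : s ∈ Set.Icc (0 : ℝ) 1)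
    (hp : ps μ e s ≤ 1) : |Ex μ (s • e) (li w) - s * bf (Gm μ) w e| ≤ Real.sqrt h := by
  have hq : 0 < Real.sqrt h := Real.sqrt_pos.2 h0
  have h1 := mean_dev hμ hE hK e w hh (lam := 1 / Real.sqrt h) (by positivity) hs.1
  have h2 : Real.sqrt h * Real.sqrt h = h := Real.mul_self_sqrt h0.le
  have h3 : 1 / Real.sqrt h * h * s = Real.sqrt h * s := by
    calc 1 / Real.sqrt h * h * s = 1 / Real.sqrt h * (Real.sqrt h * Real.sqrt h) * s := by rw [h2]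
      _ = Real.sqrt h * s := by field_simp
  have h4 : ps μ e s / (1 / Real.sqrt h) = Real.sqrt h * ps μ e s := by
    field_simp
  rw [h3, h4] at h1
  nlinarith [hs.2, hs.1]

/-- **continuity argument**: `[ps <= 1 => second derivative <= k]` and `k < 1` imply `ps s <= k s`
and `Rs μ e <= k / 2` -/
theorem boot {μ : (V → ℤ) → ℝ} (hμ : EM μ) (hE : Ev μ) (e : V → ℝ) {k : ℝ}
    (hk1 : k < 1)
    (h : ∀ s ∈ Set.Icc (0 : ℝ) 1, ps μ e s ≤ 1 → qf (Cm μ (s • e) - Gm μ) e ≤ k) :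
    (∀ s ∈ Set.Icc (0 : ℝ) 1, ps μ e s ≤ k * s) ∧ Rs μ e ≤ k / 2 := by
  have key : ∀ k', k < k' → 0 ≤ k' → k' ≤ 1 → ∀ s ∈ Set.Icc (0 : ℝ) 1, ps μ e s ≤ k' * s := by
    intro k' hk' hk0 hk2
    have hc : ContinuousOn (ps μ e) (Set.Icc 0 1) := fun x _ =>
      (hasDerivAt_ps hμ e x).continuousAt.continuousWithinAt
    have hB : ∀ x, HasDerivAt (fun s : ℝ => k' * s) k' x := fun x => by
      simpa using (hasDerivAt_id x).const_mul k'
    have := image_le_of_deriv_right_lt_deriv_boundary' (f := ps μ e)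
      (f' := fun x => qf (Cm μ (x • e) - Gm μ) e) (a := 0) (b := 1) hc
      (fun x _ => (hasDerivAt_ps hμ e x).hasDerivWithinAt) (B := fun s => k' * s)
      (B' := fun _ => k') (by simp [ps_zero hE])
      (fun x _ => (hB x).continuousAt.continuousWithinAt)
      (fun x _ => (hB x).hasDerivWithinAt) (fun x hx hfx => by
        have hx' : x ∈ Set.Icc (0 : ℝ) 1 := ⟨hx.1, hx.2.le⟩
        have h1 : ps μ e x ≤ 1 := by
          rw [hfx]
          have := mul_le_one₀ hk2 hx.1 hx.2.le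
          exact this
        exact lt_of_le_of_lt (h x hx' h1) hk')
    exact fun s hs => this hs
  have hall : ∀ s ∈ Set.Icc (0 : ℝ) 1, ps μ e s ≤ 1 := by
    intro s hs
    have := key (max ((k + 1) / 2) 0) (lt_of_lt_of_le (by linarith) (le_max_left _ _))
      (le_max_right _ _) (max_le (by linarith) zero_le_one) s hs
    refine this.trans (mul_le_one₀ (max_le (by linarith) zero_le_one) hs.1 hs.2)
  have hfin : ∀ s ∈ Set.Icc (0 : ℝ) 1, ps μ e s ≤ k * s := by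
    intro s hs
    have hg : ∀ x, HasDerivAt (fun s => k * s - ps μ e s)
        (k - qf (Cm μ (x • e) - Gm μ) e) x := fun x => by
      have h5 : HasDerivAt (fun s : ℝ => k * s) k x := by
        simpa using (hasDerivAt_id x).const_mul k
      exact h5.sub (hasDerivAt_ps hμ e x)
    have hm : MonotoneOn (fun s => k * s - ps μ e s) (Set.Icc 0 1) := by
      refine monotoneOn_of_deriv_nonneg (convex_Icc 0 1)
        (fun x _ => (hg x).continuousAt.continuousWithinAt)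
        (fun x _ => (hg x).differentiableAt.differentiableWithinAt) fun x hx => ?_
      rw [interior_Icc] at hx
      rw [(hg x).deriv]
      have hx' : x ∈ Set.Icc (0 : ℝ) 1 := ⟨hx.1.le, hx.2.le⟩
      exact sub_nonneg.2 (h x hx' (hall x hx'))
    have h3 := hm (Set.left_mem_Icc.2 zero_le_one) hs hs.1
    simp only [mul_zero, ps_zero hE, sub_zero] at h3
    linarith
  exact ⟨hfin, Rs_le hμ hE e fun s hs => h s hs (hall s hs)⟩

/-! ### the bad set -/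

/-- the functional whose mean bounds the excess covariance of the prior -/
def Fi (μ : (V → ℤ) → ℝ) (b J : V → ℝ) : ℝ :=
  qf (Cm μ J - Gm μ) b + sc μ b (Gm μ *ᵥ b) J ^ 2

lemma Fi_nonneg {μ : (V → ℤ) → ℝ} (hK : GC μ) (b J : V → ℝ) : 0 ≤ Fi μ b J := by
  unfold Fi
  have h1 : 0 ≤ qf (Cm μ J - Gm μ) b := by
    rw [qf_sub_mat]
    exact sub_nonneg.2 (hK _ _)
  have h2 := sq_nonneg (sc μ b (Gm μ *ᵥ b) J)
  linarith

lemma Gr.pow4 {F : (V → ℤ) → ℝ} (hF : Gr F) : Gr fun h => F h ^ 4 := by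
  have h2 := (hF.mul hF).mul (hF.mul hF)
  have e : (fun h => F h * F h * (F h * F h)) = fun h => F h ^ 4 := by
    funext h
    ring
  rwa [e] at h2

lemma EGr.pow4 {Φ : (V → ℝ) → ℝ} (hΦ : EGr Φ) : EGr fun J => Φ J ^ 4 := by
  have h2 := (hΦ.mul hΦ).mul (hΦ.mul hΦ)
  have e : (fun J => Φ J * Φ J * (Φ J * Φ J)) = fun J => Φ J ^ 4 := by
    funext J
    ring
  rwa [e] at h2

lemma Gr.sq {F : (V → ℤ) → ℝ} (hF : Gr F) : Gr fun h => F h ^ 2 := by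
  have h2 := hF.mul hF
  have e : (fun h => F h * F h) = fun h => F h ^ 2 := by
    funext h
    ring
  rwa [e] at h2

/-- centred second moment -/
lemma Cv_le_sq {μ : (V → ℤ) → ℝ} (hμ : EM μ) (J : V → ℝ) {F : (V → ℤ) → ℝ} (hF : Gr F)
    (c : ℝ) : Cv μ J F F + (Ex μ J F - c) ^ 2 = Ex μ J fun h => (F h - c) ^ 2 := by
  have e : (fun h => (F h - c) ^ 2) = fun h => (F h * F h - 2 * c * F h) + c ^ 2 := by
    funext h
    ring
  rw [e, TM.H104.Ex_add hμ ((hF.mul hF).sub (hF.cmul _)) (Gr.const _),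
    TM.H104.Ex_sub hμ (hF.mul hF) (hF.cmul _), TM.H104.Ex_cmul, TM.H104.Ex_const hμ]
  unfold Cv
  ring

lemma sq_Ex_le {μ : (V → ℤ) → ℝ} (hμ : EM μ) (J : V → ℝ) {F : (V → ℤ) → ℝ} (hF : Gr F) :
    Ex μ J F ^ 2 ≤ Ex μ J fun h => F h ^ 2 := by
  have h := Cv_le_sq hμ J hF 0
  have h2 := H114.Cv_self_nonneg hμ J hF
  simp only [sub_zero] at h
  linarith

lemma q4 (a b : ℝ) : (a + b) ^ 4 ≤ 8 * (a ^ 4 + b ^ 4) := by
  have h3 : (a + b) ^ 2 ≤ 2 * (a ^ 2 + b ^ 2) := by nlinarith [sq_nonneg (a - b)]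
  have h4 : ((a + b) ^ 2) ^ 2 ≤ (2 * (a ^ 2 + b ^ 2)) ^ 2 :=
    pow_le_pow_left₀ (sq_nonneg _) h3 2
  nlinarith [sq_nonneg (a ^ 2 - b ^ 2)]

lemma sq_add_le' (v w : ℝ) : (v + w ^ 2) ^ 2 ≤ 2 * v ^ 2 + 2 * w ^ 4 := by
  nlinarith [sq_nonneg (v - w ^ 2)]

/-- pointwise domination of `Fi ^ 2` -/
lemma Fi_sq_le {μ : (V → ℤ) → ℝ} (hμ : EM μ) (hK : GC μ) (b J : V → ℝ) (c g m : ℝ)
    (hm : m = c - g) :
    Fi μ b J ^ 2 ≤ 130 * Ex μ J (fun h => (li b h - c) ^ 4) +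
      (128 * ((Gm μ *ᵥ b) ⬝ᵥ J - g) ^ 4 + 16 * m ^ 4) := by
  have hG : 0 ≤ qf (Gm μ) b := H114.qf_Cm_nonneg hμ 0 b
  have hC : qf (Cm μ J) b = Cv μ J (li b) (li b) := H114.bf_Cm hμ J b b
  have gY : Gr fun h : V → ℤ => li b h - c := (Gr.li b).sub (Gr.const c)
  have gY2 : Gr fun h : V → ℤ => (li b h - c) ^ 2 := Gr.sq gY
  have h1 := Cv_le_sq hμ J (Gr.li b) c
  have h2 := sq_Ex_le hμ J gY2
  have e2 : (fun h : V → ℤ => ((li b h - c) ^ 2) ^ 2) = fun h => (li b h - c) ^ 4 := by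
    funext h
    ring
  rw [e2] at h2
  set A := Ex μ J (fun h => (li b h - c) ^ 4) with hA
  set B := Ex μ J (fun h => (li b h - c) ^ 2) with hB
  set v := Cv μ J (li b) (li b) with hv
  set x := Ex μ J (li b) - c with hx
  set y := (Gm μ *ᵥ b) ⬝ᵥ J - g with hy
  have hv0 : 0 ≤ v := H114.Cv_self_nonneg hμ J (Gr.li b)
  have hvB : v ≤ B := by nlinarith [sq_nonneg x]
  have hxB : x ^ 2 ≤ B := by linarith
  have hB0 : 0 ≤ B := hv0.trans hvB
  have hv2 : v ^ 2 ≤ A := (pow_le_pow_left₀ hv0 hvB 2).trans h2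
  have hx4 : x ^ 4 ≤ A := by
    have : x ^ 4 = (x ^ 2) ^ 2 := by ring
    rw [this]
    exact (pow_le_pow_left₀ (sq_nonneg x) hxB 2).trans h2
  have hsc : sc μ b (Gm μ *ᵥ b) J = x - y + m := by
    unfold sc
    rw [hx, hy, hm]
    ring
  have hF : Fi μ b J ≤ v + (x - y + m) ^ 2 := by
    unfold Fi
    rw [hsc, qf_sub_mat, hC]
    linarith
  have hF0 := Fi_nonneg hK b J
  have h5 : (x - y + m) ^ 4 ≤ 8 * ((x - y) ^ 4 + m ^ 4) := q4 _ _
  have h6 : (x - y) ^ 4 ≤ 8 * (x ^ 4 + y ^ 4) := by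
    have := q4 x (-y)
    have e : (-y) ^ 4 = y ^ 4 := by ring
    rw [e] at this
    exact this
  have h7 : Fi μ b J ^ 2 ≤ (v + (x - y + m) ^ 2) ^ 2 := pow_le_pow_left₀ hF0 hF 2
  have h8 : (v + (x - y + m) ^ 2) ^ 2 ≤ 2 * v ^ 2 + 2 * (x - y + m) ^ 4 := sq_add_le' _ _
  linarith

lemma measurable_Fi {μ : (V → ℤ) → ℝ} (hμ : EM μ) (b : V → ℝ) : Measurable (Fi μ b) := by
  have h1 : Continuous fun J => Cv μ J (li b) (li b) :=
    TM.H104.continuous_Cv hμ (Gr.li b) (Gr.li b)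
  have h2 : Continuous fun J => Ex μ J (li b) := TM.H104.continuous_Ex hμ (Gr.li b)
  have e : Fi μ b = fun J => (Cv μ J (li b) (li b) - qf (Gm μ) b) +
      (Ex μ J (li b) - (Gm μ *ᵥ b) ⬝ᵥ J) ^ 2 := by
    funext J
    unfold Fi sc
    rw [qf_sub_mat]
    congr 2
    exact H114.bf_Cm hμ J b b
  rw [e]
  exact (h1.measurable.sub_const _).add
    ((h2.measurable.sub (EGr.dot (Gm μ *ᵥ b)).meas).pow_const 2)

/-- **good set plus bad set**: bound of the mean of `Fi` under the exact law -/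
theorem Ech_Fi_le {μ' : (V → ℤ) → ℝ} (hμ : EM μ') (J₁ : V → ℝ) (P : Matrix I V ℝ)
    (hK : GC (post μ' P)) (b : V → ℝ) {S : Set (V → ℝ)} (hS : MeasurableSet S)
    {k0 p hb hg m lam : ℝ} (hk0 : 0 ≤ k0) (hb0 : 0 < hb) (hg0 : 0 < hg) (hl : 0 < lam)
    (hgood : ∀ J ∈ S, Fi (post μ' P) b J ≤ k0)
    (hbb : ∀ J, qf (Cm μ' J) b ≤ hb)
    (hgg : ∀ J, qf (Pᵀ * P) (Gm (post μ' P) *ᵥ b) +
      qf (Cm μ' J) (Pᵀ *ᵥ (P *ᵥ (Gm (post μ' P) *ᵥ b))) ≤ hg)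
    (hp : Ech μ' J₁ P (ind Sᶜ) ≤ p)
    (hm0 : 0 ≤ Ech μ' J₁ P (sc (post μ' P) b (Gm (post μ' P) *ᵥ b)))
    (hm : Ech μ' J₁ P (sc (post μ' P) b (Gm (post μ' P) *ᵥ b)) ≤ m) :
    Ech μ' J₁ P (Fi (post μ' P) b) ≤
      k0 + (lam * p + (10400 * hb ^ 2 + 10240 * hg ^ 2 + 16 * m ^ 4) / lam) / 2 := by
  have hpo := em_post hμ P
  set μ := post μ' P with hμd
  set c := Ex μ' J₁ (li b) with hc
  set g := Ech μ' J₁ P (fun J => (Gm μ *ᵥ b) ⬝ᵥ J) with hgd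
  set m0 := Ech μ' J₁ P (sc μ b (Gm μ *ᵥ b)) with hm0d
  have hmc : m0 = c - g := by
    have h1 : Ech μ' J₁ P (sc μ b (Gm μ *ᵥ b)) =
        Ech μ' J₁ P (fun J => Ex μ J (li b)) - Ech μ' J₁ P (fun J => (Gm μ *ᵥ b) ⬝ᵥ J) :=
      Ech_sub' (ChI.of_Ex hμ J₁ P (Gr.li b)) (ChI.of_EGr hμ J₁ P (EGr.dot _))
    rw [hm0d, h1, Ech_Ex hμ J₁ P (Gr.li b)]
  have gY4 : Gr fun h : V → ℤ => (li b h - c) ^ 4 := Gr.pow4 ((Gr.li b).sub (Gr.const c))
  have gd4 : EGr fun J : V → ℝ => ((Gm μ *ᵥ b) ⬝ᵥ J - g) ^ 4 :=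
    EGr.pow4 ((EGr.dot _).sub (EGr.const g))
  have i1 := ChI.of_Ex hμ J₁ P gY4
  have i2 := ChI.of_EGr hμ J₁ P gd4
  have i3 : ∀ x : ℝ, ChI μ' J₁ P fun _ => x := fun x => ChI.of_EGr hμ J₁ P (EGr.const x)
  have i4 : ChI μ' J₁ P (ind Sᶜ) := ChI.of_EGr hμ J₁ P (EGr.ind hS.compl)
  -- the dominating function
  have iPsi : ChI μ' J₁ P fun J => 130 * Ex μ J (fun h => (li b h - c) ^ 4) +
      (128 * ((Gm μ *ᵥ b) ⬝ᵥ J - g) ^ 4 + 16 * m0 ^ 4) :=
    (i1.cmul 130).add ((i2.cmul 128).add (i3 _))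
  have iDom : ChI μ' J₁ P fun J => k0 + (lam / 2 * ind Sᶜ J + 1 / (2 * lam) *
      (130 * Ex μ J (fun h => (li b h - c) ^ 4) +
      (128 * ((Gm μ *ᵥ b) ⬝ᵥ J - g) ^ 4 + 16 * m0 ^ 4))) :=
    (i3 k0).add ((i4.cmul _).add (iPsi.cmul _))
  have hpt : ∀ J, Fi μ b J ≤ k0 + (lam / 2 * ind Sᶜ J + 1 / (2 * lam) *
      (130 * Ex μ J (fun h => (li b h - c) ^ 4) +
      (128 * ((Gm μ *ᵥ b) ⬝ᵥ J - g) ^ 4 + 16 * m0 ^ 4))) := by
    intro J
    have h1 := Fi_sq_le hpo hK b J c g m0 hmc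
    have h2 := Fi_nonneg hK b J
    set Ps := 130 * Ex μ J (fun h => (li b h - c) ^ 4) +
      (128 * ((Gm μ *ᵥ b) ⬝ᵥ J - g) ^ 4 + 16 * m0 ^ 4) with hPs
    have h3 : 0 ≤ 1 / (2 * lam) * Ps :=
      mul_nonneg (by positivity) ((sq_nonneg _).trans h1)
    by_cases hJ : J ∈ S
    · have h4 : ind Sᶜ J = 0 := by
        unfold ind
        simp [hJ]
      rw [h4]
      have := hgood J hJ
      linarith
    · have h4 : ind Sᶜ J = 1 := by
        unfold ind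
        simp [hJ]
      rw [h4]
      have h5 : Fi μ b J ≤ lam / 2 + 1 / (2 * lam) * Fi μ b J ^ 2 := by
        have h6 : 0 ≤ (lam - Fi μ b J) ^ 2 / (2 * lam) := by positivity
        have h7 : (lam - Fi μ b J) ^ 2 / (2 * lam) =
            lam / 2 + 1 / (2 * lam) * Fi μ b J ^ 2 - Fi μ b J := by
          field_simp
          ring
        linarith
      have h8 : 1 / (2 * lam) * Fi μ b J ^ 2 ≤ 1 / (2 * lam) * Ps :=
        mul_le_mul_of_nonneg_left h1 (by positivity)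
      linarith
  have iFi : ChI μ' J₁ P (Fi μ b) :=
    ChI.mono hμ (measurable_Fi hpo b) iDom fun J => by
      rw [abs_of_nonneg (Fi_nonneg hK b J)]
      exact hpt J
  have h1 := Ech_mono' hμ iFi iDom hpt
  refine h1.trans ?_
  rw [Ech_add' (i3 k0) ((i4.cmul _).add (iPsi.cmul _)), Ech_add' (i4.cmul _) (iPsi.cmul _),
    Ech_const hμ, Ech_cmul, Ech_cmul, Ech_add' (i1.cmul 130) ((i2.cmul 128).add (i3 _)),
    Ech_add' (i2.cmul 128) (i3 _), Ech_cmul, Ech_cmul, Ech_const hμ, Ech_Ex hμ J₁ P gY4]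
  have h2 : Ex μ' J₁ (fun h => (li b h - c) ^ 4) ≤ 80 * hb ^ 2 := Ex_four hμ J₁ b hb0 hbb
  have h3 : Ech μ' J₁ P (fun J => ((Gm μ *ᵥ b) ⬝ᵥ J - g) ^ 4) ≤ 80 * hg ^ 2 :=
    Ech_four hμ J₁ P (Gm μ *ᵥ b) hg0 hgg
  have h4 : m0 ^ 4 ≤ m ^ 4 := pow_le_pow_left₀ hm0 hm 4
  have h5 : lam / 2 * Ech μ' J₁ P (ind Sᶜ) ≤ lam / 2 * p :=
    mul_le_mul_of_nonneg_left hp (by positivity)
  have h6 : 1 / (2 * lam) * (130 * Ex μ' J₁ (fun h => (li b h - c) ^ 4) +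
      (128 * Ech μ' J₁ P (fun J => ((Gm μ *ᵥ b) ⬝ᵥ J - g) ^ 4) + 16 * m0 ^ 4)) ≤
      1 / (2 * lam) * (10400 * hb ^ 2 + 10240 * hg ^ 2 + 16 * m ^ 4) :=
    mul_le_mul_of_nonneg_left (by linarith) (by positivity)
  have h7 : 1 / (2 * lam) * (10400 * hb ^ 2 + 10240 * hg ^ 2 + 16 * m ^ 4) =
      (10400 * hb ^ 2 + 10240 * hg ^ 2 + 16 * m ^ 4) / lam / 2 := by
    field_simp
  rw [h7] at h6
  linarith

lemma ChI.of_Fi {μ' : (V → ℤ) → ℝ} (hμ : EM μ') (J₁ : V → ℝ) (P : Matrix I V ℝ) (b : V → ℝ) :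
    ChI μ' J₁ P (Fi (post μ' P) b) := by
  have h1 : ChI μ' J₁ P fun J => qf (Cm (post μ' P) J - Gm (post μ' P)) b :=
    ChI.of_bf_R hμ J₁ P _ b b
  have h2 := ChI.of_sc_mul hμ J₁ P b (Gm (post μ' P) *ᵥ b) b (Gm (post μ' P) *ᵥ b)
  have h3 := h1.add h2
  have e : (fun J => qf (Cm (post μ' P) J - Gm (post μ' P)) b +
      sc (post μ' P) b (Gm (post μ' P) *ᵥ b) J * sc (post μ' P) b (Gm (post μ' P) *ᵥ b) J) =
      Fi (post μ' P) b := by
    funext J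
    unfold Fi
    ring
  rwa [e] at h3

/-- the excess covariance of the prior is at most the mean of `Fi` -/
lemma drop_le_Fi {μ' : (V → ℤ) → ℝ} (hμ : EM μ') (P : Matrix I V ℝ) (hK : GC (post μ' P))
    (J₁ : V → ℝ) {b e : V → ℝ} (he : e = b - Pᵀ *ᵥ (P *ᵥ (Gm (post μ' P) *ᵥ b))) :
    qf (Cm μ' J₁ - Gm μ') e ≤ Ech μ' J₁ P (Fi (post μ' P) b) := by
  have h1 := drop_le hμ P hK J₁ he
  have i1 : ChI μ' J₁ P fun J => qf (Cm (post μ' P) J - Gm (post μ' P)) b :=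
    ChI.of_bf_R hμ J₁ P _ b b
  have i2 : ChI μ' J₁ P fun J => sc (post μ' P) b (Gm (post μ' P) *ᵥ b) J ^ 2 := by
    simp only [sq]
    exact ChI.of_sc_mul hμ J₁ P b (Gm (post μ' P) *ᵥ b) b (Gm (post μ' P) *ᵥ b)
  have h2 : Ech μ' J₁ P (Fi (post μ' P) b) =
      Ech μ' J₁ P (fun J => qf (Cm (post μ' P) J - Gm (post μ' P)) b) +
      Ech μ' J₁ P (fun J => sc (post μ' P) b (Gm (post μ' P) *ᵥ b) J ^ 2) := Ech_add' i1 i2
  rw [h2]
  have h3 := sq_nonneg (Ech μ' J₁ P (sc (post μ' P) b (Gm (post μ' P) *ᵥ b)))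
  linarith

/-- **(P4) propagation of the a-priori bound** -/
theorem propag {μ' : (V → ℤ) → ℝ} (hμ : EM μ') (hE : Ev μ') (P : Matrix I V ℝ)
    (hK : GC (post μ' P)) (hK' : GC μ') {b e : V → ℝ}
    (he : e = b - Pᵀ *ᵥ (P *ᵥ (Gm (post μ' P) *ᵥ b))) {S : Set (V → ℝ)} (hS : MeasurableSet S)
    {k0 p hb hg d lam k : ℝ} (hk0 : 0 ≤ k0) (hb0 : 0 < hb) (hg0 : 0 < hg) (hl : 0 < lam)
    (hgood : ∀ J ∈ S, Fi (post μ' P) b J ≤ k0)
    (hbb : ∀ J, qf (Cm μ' J) b ≤ hb)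
    (hgg : ∀ J, qf (Pᵀ * P) (Gm (post μ' P) *ᵥ b) +
      qf (Cm μ' J) (Pᵀ *ᵥ (P *ᵥ (Gm (post μ' P) *ᵥ b))) ≤ hg)
    (hd : qf (Gm μ') e - bf (Gm (post μ' P)) b e ≤ d)
    (htail : ∀ s ∈ Set.Icc (0 : ℝ) 1, ps μ' e s ≤ 1 → Ech μ' (s • e) P (ind Sᶜ) ≤ p)
    (hk : k0 + (lam * p + (10400 * hb ^ 2 + 10240 * hg ^ 2 + 16 * (1 + d) ^ 4) / lam) / 2 ≤ k)
    (hk1 : k < 1) :
    (∀ s ∈ Set.Icc (0 : ℝ) 1, ps μ' e s ≤ k * s) ∧ Rs μ' e ≤ k / 2 := by
  refine boot hμ hE e hk1 fun s hs hps => ?_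
  refine (drop_le_Fi hμ P hK (s • e) he).trans (le_trans ?_ hk)
  have hG := Gm_ge hμ P hK he
  have hmean : Ech μ' (s • e) P (sc (post μ' P) b (Gm (post μ' P) *ᵥ b)) =
      ps μ' e s + s * (qf (Gm μ') e - bf (Gm (post μ' P)) b e) := by
    rw [Ech_sc hμ, ← he]
    unfold ps
    have h1 : (Gm (post μ' P) *ᵥ b) ⬝ᵥ (s • e) = s * bf (Gm (post μ' P)) b e := by
      rw [dotProduct_smul, smul_eq_mul, dotProduct_comm, ← bf_eq,
        bf_comm (Gm_symm (post μ' P))]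
    rw [h1]
    ring
  have h0 := ps_nonneg hμ hE hK' e hs.1
  refine Ech_Fi_le hμ (s • e) P hK b hS hk0 hb0 hg0 hl hgood hbb hgg (htail s hs hps) ?_ ?_
  · rw [hmean]
    have := mul_nonneg hs.1 (sub_nonneg.2 hG)
    linarith
  · rw [hmean]
    have h1 : s * (qf (Gm μ') e - bf (Gm (post μ' P)) b e) ≤ d := by
      have h2 : 0 ≤ qf (Gm μ') e - bf (Gm (post μ' P)) b e := sub_nonneg.2 hG
      nlinarith [hs.1, hs.2]
    linarith

/-! ### the packaged good set -/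

/-- `{J | |<v_i, J>| <= Lam_i for all i}` -/
def box {ι : Type*} (v : ι → V → ℝ) (Lam : ι → ℝ) : Set (V → ℝ) := {J | ∀ i, |v i ⬝ᵥ J| ≤ Lam i}

lemma measurableSet_box {ι : Type*} [Fintype ι] (v : ι → V → ℝ) (Lam : ι → ℝ) :
    MeasurableSet (box v Lam) := by
  have : box v Lam = ⋂ i, {J : V → ℝ | |v i ⬝ᵥ J| ≤ Lam i} := by
    ext J
    simp [box]
  rw [this]
  refine MeasurableSet.iInter fun i => ?_
  exact measurableSet_le (EGr.dot (v i)).meas.abs measurable_const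

/-- two-sided tail around the mean -/
lemma Ech_tail_abs {μ' : (V → ℤ) → ℝ} (hμ : EM μ') (J₁ : V → ℝ) (P : Matrix I V ℝ) (v : V → ℝ)
    {sig lam : ℝ} (hs0 : 0 < sig) (hl : 0 ≤ lam)
    (hs : ∀ J, qf (Pᵀ * P) v + qf (Cm μ' J) (Pᵀ *ᵥ (P *ᵥ v)) ≤ sig) :
    Ech μ' J₁ P (ind {J | lam ≤ |v ⬝ᵥ J - Ech μ' J₁ P fun J => v ⬝ᵥ J|}) ≤
      2 * Real.exp (-(lam ^ 2 / (2 * sig))) := by
  set m := Ech μ' J₁ P fun J => v ⬝ᵥ J with hm
  have h1 := Ech_tail hμ J₁ P v hs0 hl hs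
  have hs' : ∀ J, qf (Pᵀ * P) (-v) + qf (Cm μ' J) (Pᵀ *ᵥ (P *ᵥ (-v))) ≤ sig := by
    intro J
    rw [mulVec_neg, mulVec_neg, qf_neg, qf_neg]
    exact hs J
  have h2 := Ech_tail hμ J₁ P (-v) hs0 hl hs'
  have hneg : Ech μ' J₁ P (fun J => (-v) ⬝ᵥ J) = -m := by
    have := Ech_cmul μ' J₁ P (-1) fun J : V → ℝ => v ⬝ᵥ J
    simp only [neg_dotProduct, neg_one_mul] at this ⊢
    rw [this]
  rw [hneg] at h2
  have hm1 : MeasurableSet {J : V → ℝ | lam ≤ v ⬝ᵥ J - m} :=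
    measurableSet_le measurable_const ((EGr.dot v).meas.sub_const m)
  have hm2 : MeasurableSet {J : V → ℝ | lam ≤ (-v) ⬝ᵥ J - -m} :=
    measurableSet_le measurable_const ((EGr.dot (-v)).meas.sub_const _)
  have hm3 : MeasurableSet {J : V → ℝ | lam ≤ |v ⬝ᵥ J - m|} :=
    measurableSet_le measurable_const ((EGr.dot v).meas.sub_const m).abs
  have h3 : Ech μ' J₁ P (ind {J | lam ≤ |v ⬝ᵥ J - m|}) ≤
      Ech μ' J₁ P fun J => ind {J | lam ≤ v ⬝ᵥ J - m} J + ind {J | lam ≤ (-v) ⬝ᵥ J - -m} J := by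
    refine Ech_mono hμ J₁ P (EGr.ind hm3) ((EGr.ind hm1).add (EGr.ind hm2)) fun J => ?_
    by_cases hJ : J ∈ {J : V → ℝ | lam ≤ |v ⬝ᵥ J - m|}
    · have h4 : lam ≤ |v ⬝ᵥ J - m| := hJ
      have h5 : ind {J | lam ≤ |v ⬝ᵥ J - m|} J = 1 := by
        unfold ind
        exact Set.indicator_of_mem hJ _
      rw [h5]
      rcases le_total 0 (v ⬝ᵥ J - m) with h6 | h6
      · rw [abs_of_nonneg h6] at h4
        have h7 : ind {J | lam ≤ v ⬝ᵥ J - m} J = 1 := by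
          unfold ind
          exact Set.indicator_of_mem (show J ∈ {J | lam ≤ v ⬝ᵥ J - m} from h4) _
        rw [h7]
        linarith [ind_nonneg {J | lam ≤ (-v) ⬝ᵥ J - -m} J]
      · rw [abs_of_nonpos h6] at h4
        have h7 : ind {J | lam ≤ (-v) ⬝ᵥ J - -m} J = 1 := by
          unfold ind
          refine Set.indicator_of_mem (show J ∈ {J | lam ≤ (-v) ⬝ᵥ J - -m} from ?_) _
          simp only [Set.mem_ofPred_eq, neg_dotProduct]
          linarith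
        rw [h7]
        linarith [ind_nonneg {J | lam ≤ v ⬝ᵥ J - m} J]
    · have h5 : ind {J | lam ≤ |v ⬝ᵥ J - m|} J = 0 := by
        unfold ind
        exact Set.indicator_of_notMem hJ _
      rw [h5]
      exact add_nonneg (ind_nonneg _ _) (ind_nonneg _ _)
  rw [Ech_add hμ J₁ P (EGr.ind hm1) (EGr.ind hm2)] at h3
  linarith

/-- **tail of the packaged good set** while `ps <= 1` -/
theorem tail_box {μ' : (V → ℤ) → ℝ} (hμ : EM μ') (hE : Ev μ') (hK' : GC μ') (P : Matrix I V ℝ)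
    {ι : Type*} [Fintype ι] (v : ι → V → ℝ) (Lam m h sig : ι → ℝ) (e : V → ℝ)
    (hh0 : ∀ i, 0 < h i) (hs0 : ∀ i, 0 < sig i)
    (hh : ∀ i J, qf (Cm μ' J) (Pᵀ *ᵥ (P *ᵥ v i)) ≤ h i)
    (hsig : ∀ i, qf (Pᵀ * P) (v i) + h i ≤ sig i)
    (hm : ∀ i, |v i ⬝ᵥ e + bf (Gm μ') (Pᵀ *ᵥ (P *ᵥ v i)) e| + Real.sqrt (h i) ≤ m i)
    (hmL : ∀ i, m i ≤ Lam i) {s : ℝ} (hs : s ∈ Set.Icc (0 : ℝ) 1) (hps : ps μ' e s ≤ 1) :
    Ech μ' (s • e) P (ind (box v Lam)ᶜ) ≤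
      ∑ i, 2 * Real.exp (-((Lam i - m i) ^ 2 / (2 * sig i))) := by
  classical
  -- the means
  have hmean : ∀ i, |Ech μ' (s • e) P fun J => v i ⬝ᵥ J| ≤ m i := by
    intro i
    rw [Ech_dot hμ]
    have h1 := mean_dev_one hμ hE hK' e (Pᵀ *ᵥ (P *ᵥ v i)) (hh0 i) (hh i) hs hps
    have h2 : v i ⬝ᵥ (s • e) + Ex μ' (s • e) (li (Pᵀ *ᵥ (P *ᵥ v i))) =
        s * (v i ⬝ᵥ e + bf (Gm μ') (Pᵀ *ᵥ (P *ᵥ v i)) e) +
        (Ex μ' (s • e) (li (Pᵀ *ᵥ (P *ᵥ v i))) -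
          s * bf (Gm μ') (Pᵀ *ᵥ (P *ᵥ v i)) e) := by
      rw [dotProduct_smul, smul_eq_mul]
      ring
    rw [h2]
    refine (abs_add_le _ _).trans ((add_le_add ?_ h1).trans (hm i))
    rw [abs_mul, abs_of_nonneg hs.1]
    exact mul_le_of_le_one_left (abs_nonneg _) hs.2
  set U : ι → Set (V → ℝ) := fun i =>
    {J | Lam i - m i ≤ |v i ⬝ᵥ J - Ech μ' (s • e) P fun J => v i ⬝ᵥ J|} with hU
  have hUm : ∀ i, MeasurableSet (U i) := fun i =>
    measurableSet_le measurable_const ((EGr.dot (v i)).meas.sub_const _).abs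
  have hgr : ∀ t : Finset ι, EGr fun J => ∑ i ∈ t, ind (U i) J := by
    intro t
    induction t using Finset.induction_on with
    | empty => simpa using EGr.const (V := V) 0
    | insert i t hi ih =>
      simp only [Finset.sum_insert hi]
      exact (EGr.ind (hUm i)).add ih
  have hsum : ∀ t : Finset ι, Ech μ' (s • e) P (fun J => ∑ i ∈ t, ind (U i) J) =
      ∑ i ∈ t, Ech μ' (s • e) P (ind (U i)) := by
    intro t
    induction t using Finset.induction_on with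
    | empty =>
      simp only [Finset.sum_empty]
      exact Ech_const hμ _ _ 0
    | insert i t hi ih =>
      simp only [Finset.sum_insert hi]
      rw [Ech_add hμ _ _ (EGr.ind (hUm i)) (hgr t), ih]
  have h3 : Ech μ' (s • e) P (ind (box v Lam)ᶜ) ≤
      Ech μ' (s • e) P fun J => ∑ i, ind (U i) J := by
    refine Ech_mono hμ _ P (EGr.ind (measurableSet_box v Lam).compl) (hgr _) fun J => ?_
    by_cases hJ : J ∈ (box v Lam)ᶜ
    · have h5 : ind (box v Lam)ᶜ J = 1 := by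
        unfold ind
        exact Set.indicator_of_mem hJ _
      rw [h5]
      have h6 : ∃ i, Lam i < |v i ⬝ᵥ J| := by
        by_contra hcon
        push Not at hcon
        exact hJ hcon
      obtain ⟨i, hi⟩ := h6
      have h7 : J ∈ U i := by
        simp only [hU, Set.mem_ofPred_eq]
        have h8 := abs_sub_abs_le_abs_sub (v i ⬝ᵥ J) (Ech μ' (s • e) P fun J => v i ⬝ᵥ J)
        have h9 := hmean i
        linarith
      have h8 : ind (U i) J = 1 := by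
        unfold ind
        exact Set.indicator_of_mem h7 _
      rw [← h8]
      exact Finset.single_le_sum (f := fun i => ind (U i) J) (fun i _ => ind_nonneg _ _)
        (Finset.mem_univ i)
    · have h5 : ind (box v Lam)ᶜ J = 0 := by
        unfold ind
        exact Set.indicator_of_notMem hJ _
      rw [h5]
      exact Finset.sum_nonneg fun i _ => ind_nonneg _ _
  refine h3.trans ?_
  rw [hsum]
  refine Finset.sum_le_sum fun i _ => ?_
  exact Ech_tail_abs hμ (s • e) P (v i) (hs0 i) (sub_nonneg.2 (hmL i)) fun J =>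
    (add_le_add le_rfl (hh i J)).trans (hsig i)

/-- **(P4), packaged form** -/
theorem propag_box {μ' : (V → ℤ) → ℝ} (hμ : EM μ') (hE : Ev μ') (P : Matrix I V ℝ)
    (hK : GC (post μ' P)) (hK' : GC μ') {b e : V → ℝ}
    (he : e = b - Pᵀ *ᵥ (P *ᵥ (Gm (post μ' P) *ᵥ b)))
    {ι : Type*} [Fintype ι] (v : ι → V → ℝ) (Lam m h sig : ι → ℝ)
    (hh0 : ∀ i, 0 < h i) (hs0 : ∀ i, 0 < sig i)
    (hh : ∀ i J, qf (Cm μ' J) (Pᵀ *ᵥ (P *ᵥ v i)) ≤ h i)
    (hsig : ∀ i, qf (Pᵀ * P) (v i) + h i ≤ sig i)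
    (hm : ∀ i, |v i ⬝ᵥ e + bf (Gm μ') (Pᵀ *ᵥ (P *ᵥ v i)) e| + Real.sqrt (h i) ≤ m i)
    (hmL : ∀ i, m i ≤ Lam i)
    {k0 p hb hg d lam k : ℝ} (hk0 : 0 ≤ k0) (hb0 : 0 < hb) (hg0 : 0 < hg) (hl : 0 < lam)
    (hgood : ∀ J ∈ box v Lam, Fi (post μ' P) b J ≤ k0)
    (hbb : ∀ J, qf (Cm μ' J) b ≤ hb)
    (hgg : ∀ J, qf (Pᵀ * P) (Gm (post μ' P) *ᵥ b) +
      qf (Cm μ' J) (Pᵀ *ᵥ (P *ᵥ (Gm (post μ' P) *ᵥ b))) ≤ hg)
    (hd : qf (Gm μ') e - bf (Gm (post μ' P)) b e ≤ d)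
    (hp : ∑ i, 2 * Real.exp (-((Lam i - m i) ^ 2 / (2 * sig i))) ≤ p)
    (hk : k0 + (lam * p + (10400 * hb ^ 2 + 10240 * hg ^ 2 + 16 * (1 + d) ^ 4) / lam) / 2 ≤ k)
    (hk1 : k < 1) :
    (∀ s ∈ Set.Icc (0 : ℝ) 1, ps μ' e s ≤ k * s) ∧ Rs μ' e ≤ k / 2 :=
  propag hμ hE P hK hK' he (measurableSet_box v Lam) hk0 hb0 hg0 hl hgood hbb hgg hd
    (fun _ hs hps => (tail_box hμ hE hK' P v Lam m h sig e hh0 hs0 hh hsig hm hmL hs hps).trans hp)
    hk hk1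

end

end Vale.Agent.P159.H663
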